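import Vale.Agent.P304Z.E0

/-!
# P304Z, global assembly: address tree, global states, and the statements of the blocks
-/

set_option linter.unusedVariables false

open Finset

namespace Vale.Agent.P304Z.A

open Vale.Agent.P304 Vale.Agent.P304.Dyn

/-- nodes of the address tree -/
abbrev Nd (Λ : Type) (H : ℕ) : Type := {v : List Λ // v.length ≤ H}

noncomputable instance ndFintype (Λ : Type) [Fintype Λ] (H : ℕ) : Fintype (Nd Λ H) :=
  (List.finite_length_le Λ H).fintype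

/-- the address tree with weights `r0 / 2 ^ d` -/
noncomputable def tr (Λ : Type) (H : ℕ) {r0 : ℝ} (hr : 0 < r0) : Tr (Nd Λ H) where
  root := ⟨[], Nat.zero_le _⟩
  par v := ⟨v.1.dropLast, by rw [List.length_dropLast]; exact (Nat.sub_le _ _).trans v.2⟩
  dep v := v.1.length
  rho d := r0 / 2 ^ d
  dep_root := rfl
  dep_par v hv := by
    have h : v.1 ≠ [] := fun h => hv (Subtype.ext h)
    have h2 := List.length_pos_of_ne_nil h
    simp only [List.length_dropLast]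
    omega
  rho_pos d := by positivity
  rho_half d := by rw [pow_succ]; field_simp

/-- `v` is a node of level `l` with last label `a` -/
def IsAt {Λ : Type} {H : ℕ} (v : Nd Λ H) (l : Fin H) (a : Λ) : Prop :=
  v.1.length = (l : ℕ) + 1 ∧ v.1.getLast? = some a

/-- mean occupation numbers of a belief -/
noncomputable def pm {X : Type} [Fintype X] [DecidableEq X] {k : ℕ} (β : (Fin k → X) → ℝ) (u : X) :
    ℝ := ∑ x, β x * oc x u

variable {X : Type} [MetricSpace X] [Fintype X] [DecidableEq X] {k H N : ℕ} {Λ Ω : Type}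
  [Fintype Λ] [DecidableEq Λ] [Fintype Ω] {ζ εs r0 L : ℝ}
  (Lv : (l : Fin H) → Lev X k Λ Ω N ζ εs (r0 / 2 ^ ((l : ℕ) + 1)))

/-- states of all levels -/
abbrev ES : Type := (l : Fin H) → (Lv l).S

/-- the node `v` contains the point `u` -/
def cont (E : ES Lv) (ω : Ω) (v : Nd Λ H) (u : X) : Prop :=
  v.1.map some <+: List.ofFn fun l : Fin H => (Lv l).lab (E l) u ω

open Classical in
noncomputable def cntN (E : ES Lv) (ω : Ω) (x : Fin k → X) (v : Nd Λ H) : ℕ :=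
  (univ.filter fun i => cont Lv E ω v (x i)).card

/-- posterior ranks -/
noncomputable def rk (E : ES Lv) (ω : Ω) (β : (Fin k → X) → ℝ) (v : Nd Λ H) (j : Fin k) : ℝ :=
  ∑ x, β x * if (j : ℕ) < cntN Lv E ω x v then 1 else 0

/-- physical place of a node -/
noncomputable def loc (x0 : X) (E : ES Lv) (v : Nd Λ H) : X :=
  (v.1.getLast?).elim x0 fun a =>
    if h : v.1.length - 1 < H then (Lv ⟨_, h⟩).pos (E ⟨_, h⟩) a else x0

open Classical in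
/-- facts on addresses and ranks -/
structure Addr (hr : 0 < r0) : Prop where
  isAt_ex : ∀ v : Nd Λ H, v ≠ (tr Λ H hr).root → ∃ l a, IsAt v l a
  loc_root : ∀ x0 E, loc Lv x0 E (tr Λ H hr).root = x0
  loc_at : ∀ x0 E v l a, IsAt v l a → loc Lv x0 E v = (Lv l).pos (E l) a
  cont_lab : ∀ E ω v u l a, cont Lv E ω v u → IsAt v l a → (Lv l).lab (E l) u ω = some a
  cont_par : ∀ E ω v u, cont Lv E ω v u → cont Lv E ω ((tr Λ H hr).par v) u
  cont_uniq : ∀ E ω v v' u, cont Lv E ω v u → cont Lv E ω v' u → v.1.length = v'.1.length → v = v'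
  cont_full : ∀ (E : ES Lv) ω u, (∀ l, (Lv l).lab (E l) u ω ≠ none) →
    ∃ v : Nd Λ H, v.1.length = H ∧ cont Lv E ω v u
  ch_leaf : ∀ v : Nd Λ H, v.1.length = H → (tr Λ H hr).ch v = ∅
  pm_nonneg : ∀ β ∈ stdSimplex ℝ (Fin k → X), ∀ u, 0 ≤ pm β u
  pm_sum : ∀ β ∈ stdSimplex ℝ (Fin k → X), ∑ u, pm β u = k
  pm_mul : ∀ (β : (Fin k → X) → ℝ) (f : X → ℝ), ∑ u, pm β u * f u = ∑ x, β x * ∑ i, f (x i)
  adm : ∀ E ω, ∀ β ∈ stdSimplex ℝ (Fin k → X), Adm (tr Λ H hr) (rk Lv E ω β)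
  mass : ∀ E ω, ∀ β ∈ stdSimplex ℝ (Fin k → X), ∀ v,
    ∑ j, rk Lv E ω β v j = ∑ u, pm β u * if cont Lv E ω v u then 1 else 0
  relabel : ∀ (E : ES Lv) ω (l : Fin H) (s' : (Lv l).S), ∀ β ∈ stdSimplex ℝ (Fin k → X),
    qd (tr Λ H hr) (rk Lv E ω β) (rk Lv (Function.update E l s') ω β) ≤
      4 * (r0 / 2 ^ ((l : ℕ) + 1)) *
        ∑ u, pm β u * if (Lv l).lab (E l) u ω = (Lv l).lab s' u ω then 0 else 1
  move : ∀ (E : ES Lv) ω (r : X), ∀ Q ∈ stdSimplex ℝ ((Fin k → X) × Fin k),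
    qd (tr Λ H hr) (rk Lv E ω (pre Q)) (rk Lv E ω (post Q r)) ≤
      4 * ∑ z, Q z * ∑ l : Fin H, r0 / 2 ^ ((l : ℕ) + 1) *
        if (Lv l).lab (E l) (z.1 z.2) ω = (Lv l).lab (E l) r ω then 0 else 1

variable {hr : 0 < r0} (HE : HEng (tr Λ H hr) k L) (RS : RSys (tr Λ H hr) k X)

/-- global states -/
structure GS where
  E : ES Lv
  e : Ω → HE.S
  ν : Ω → (Fin k → Nd Λ H) → ℝ
  rb : ∀ ω, RS.RB (HE.mu (e ω)) (ν ω)
  real : ∀ ω v, v ≠ (tr Λ H hr).root → 0 < HE.mu (e ω) v → ∃ u, cont Lv E ω v u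

variable {Lv HE RS}

noncomputable def law (x0 : X) (s : GS Lv HE RS) (y : Fin k → X) : ℝ :=
  EE fun ω => push (loc Lv x0 s.E) (s.ν ω) y

/-- tree part of the potential, with the ranks read in the level states `E` -/
noncomputable def PhiH (s : GS Lv HE RS) (E : ES Lv) (β : (Fin k → X) → ℝ) : ℝ :=
  3300 * EE fun ω => HE.Φ (s.e ω) (rk Lv E ω β)

noncomputable def Phi (s : GS Lv HE RS) (β : (Fin k → X) → ℝ) : ℝ :=
  PhiH s s.E β + 105600 * L *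
    ∑ l : Fin H, r0 / 2 ^ ((l : ℕ) + 1) * ∑ u, pm β u * (Lv l).g (s.E l) u

open Classical in
/-- own mass parked at the nodes of level `l` with last label `a`, normalised -/
noncomputable def om (s : GS Lv HE RS) (l : Fin H) (a : Λ) : ℝ :=
  (EE fun ω => ∑ v, if IsAt v l a then park (tr Λ H hr) (HE.mu (s.e ω)) v else 0) / (105600 * L)

def BalAll (s : GS Lv HE RS) (β : (Fin k → X) → ℝ) : Prop :=
  ∀ ω, HE.Bal (s.e ω) (rk Lv s.E ω β)

def Opt (s : GS Lv HE RS) (β : (Fin k → X) → ℝ) : Prop :=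
  BalAll s β ∧ ∀ l, LOpt (Lv l).g (Lv l).lab (Lv l).Mv (Lv l).fol εs (pm β) (om s l) (s.E l)

variable (Lv HE RS)

/-- transition to new level states, with rebalancing of the tree engines and rounding -/
def Tran (x0 : X) : Prop := ∀ (s : GS Lv HE RS) (β : (Fin k → X) → ℝ) (E' : ES Lv)
  (fol : Nd Λ H → ℝ), β ∈ stdSimplex ℝ (Fin k → X) → (∀ v, 0 ≤ fol v) →
  (∀ v l a, IsAt v l a → (Lv l).vis (s.E l) a → (Lv l).vis (E' l) a →
    dist ((Lv l).pos (s.E l) a) ((Lv l).pos (E' l) a) ≤ fol v ∧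
    dist ((Lv l).pos (s.E l) a) ((Lv l).pos (E' l) a) ≤ 3 * (r0 / 2 ^ ((l : ℕ) + 1))) →
  ∃ (s' : GS Lv HE RS) (c' : ℝ), s'.E = E' ∧ BalAll s' β ∧ Cpl (law x0 s) (law x0 s') c' ∧
    c' + PhiH s' E' β ≤ PhiH s E' β +
      EE fun ω => ∑ v, park (tr Λ H hr) (HE.mu (s.e ω)) v * fol v

def Reopt (x0 : X) : Prop := ∀ (s : GS Lv HE RS) (β : (Fin k → X) → ℝ),
  β ∈ stdSimplex ℝ (Fin k → X) →
  ∃ (s' : GS Lv HE RS) (c' : ℝ), Opt s' β ∧ Cpl (law x0 s) (law x0 s') c' ∧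
    c' + Phi s' β ≤ Phi s β

/-- the parked mass near a point is bounded by the hidden mass near the point -/
def Parked : Prop := ∀ (s : GS Lv HE RS) (β : (Fin k → X) → ℝ), β ∈ stdSimplex ℝ (Fin k → X) →
  BalAll s β → ∀ (x : X) (l : ℕ),
  ∑ l' : Fin H, (if l ≤ (l' : ℕ) then ((Lv l').near (s.E l') x).elim 0 (om s l') else 0) ≤
    6 * ball (pm β) x (64 * (r0 / 2 ^ (l + 1)))

/-- the cost of a unit move, summed over the levels -/
def Levels : Prop := ∀ (s : GS Lv HE RS) (β : (Fin k → X) → ℝ), β ∈ stdSimplex ℝ (Fin k → X) →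
  Opt s β → ∀ (x r : X) (a : ℝ), r0 / N ≤ dist x r → ζ ≤ pm β x → 0 < a →
  a ≤ ball (pm β) x (2 * dist x r) →
  ∑ l : Fin H, r0 / 2 ^ ((l : ℕ) + 1) *
    (dif ((Lv l).lab (s.E l) x) ((Lv l).lab (s.E l) r) + (Lv l).g (s.E l) r - (Lv l).g (s.E l) x) ≤
    2000000 * dist x r * (H * ζ + 15 * (1 + Real.log (k / a)) + lgk k / 4) +
      16 * dist x r * (10 + 3 * lgk k)

def Move : Prop := ∀ (s : GS Lv HE RS) (Q : (Fin k → X) × Fin k → ℝ) (r : X),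
  Q ∈ stdSimplex ℝ ((Fin k → X) × Fin k) → Opt s (pre Q) →
  Phi s (post Q r) ≤ Phi s (pre Q) +
    105600 * L * (100000000 * (1 + Real.log k)) * ∑ z, Q z * dist (z.1 z.2) r +
    105600 * L * (2000000 * r0 * H + Fintype.card X * r0 * (10 + 3 * lgk k)) * ζ

/-- the standing assumptions -/
structure Hy (k N : ℕ) (X : Type) [MetricSpace X] (ζ εs r0 L : ℝ) (H : ℕ) : Prop where
  hk : 1 ≤ k
  hN : 1 ≤ N
  hH : 1 ≤ H
  hL : 1 ≤ L
  ζ_pos : 0 < ζ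
  εs_pos : 0 < εs
  diam : ∀ x y : X, dist x y ≤ r0
  sepN : ∀ x y : X, x ≠ y → r0 / N ≤ dist x y
  sepH : ∀ x y : X, x ≠ y → 11 * (r0 / 2 ^ H) < dist x y

/-- a statement about all worlds -/
def AllW (P : ∀ (X : Type) [MetricSpace X] [Fintype X] [DecidableEq X] (k H N : ℕ) (Λ Ω : Type)
    [Fintype Λ] [DecidableEq Λ] [Fintype Ω] (ζ εs r0 L : ℝ)
    (Lv : (l : Fin H) → Lev X k Λ Ω N ζ εs (r0 / 2 ^ ((l : ℕ) + 1))) (hr : 0 < r0)
    (_ : HEng (tr Λ H hr) k L) (_ : RSys (tr Λ H hr) k X), Prop) : Prop :=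
  ∀ (X : Type) [MetricSpace X] [Fintype X] [DecidableEq X] (k H N : ℕ) (Λ Ω : Type)
    [Fintype Λ] [DecidableEq Λ] [Fintype Ω] [Nonempty Ω] (ζ εs r0 L : ℝ)
    (Lv : (l : Fin H) → Lev X k Λ Ω N ζ εs (r0 / 2 ^ ((l : ℕ) + 1))) (hr : 0 < r0)
    (HE : HEng (tr Λ H hr) k L) (RS : RSys (tr Λ H hr) k X),
    Hy k N X ζ εs r0 L H → Addr Lv hr → P X k H N Λ Ω ζ εs r0 L Lv hr HE RS

def StAddr : Prop := ∀ (X : Type) [MetricSpace X] [Fintype X] [DecidableEq X] (k H N : ℕ)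
  (Λ Ω : Type) [Fintype Λ] [DecidableEq Λ] [Fintype Ω] (ζ εs r0 : ℝ)
  (Lv : (l : Fin H) → Lev X k Λ Ω N ζ εs (r0 / 2 ^ ((l : ℕ) + 1))) (hr : 0 < r0), Addr Lv hr

def StTran : Prop := AllW fun _ _ _ _ _ _ _ _ _ _ _ _ _ _ _ _ Lv _ HE RS => ∀ x0, Tran Lv HE RS x0

def StReopt : Prop := AllW fun _ _ _ _ _ _ _ _ _ _ _ _ _ _ _ _ Lv _ HE RS =>
  ∀ x0, Tran Lv HE RS x0 → Reopt Lv HE RS x0

def StParked : Prop := AllW fun _ _ _ _ _ _ _ _ _ _ _ _ _ _ _ _ Lv _ HE RS => Parked Lv HE RS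

def StLevels : Prop := AllW fun _ _ _ _ _ _ _ _ _ _ _ _ _ _ _ _ Lv _ HE RS =>
  Parked Lv HE RS → Levels Lv HE RS

def StMove : Prop := AllW fun _ _ _ _ _ _ _ _ _ _ _ _ _ _ _ _ Lv _ HE RS =>
  Levels Lv HE RS → Move Lv HE RS

/-- the remaining fields of the engine -/
def StRest : Prop := AllW fun X _ _ _ k _ _ _ _ _ _ _ _ _ r0 L Lv _ HE RS => ∀ x0 : X,
  (∀ s : GS Lv HE RS, law x0 s ∈ stdSimplex ℝ (Fin k → X)) ∧
  (∀ (s : GS Lv HE RS), ∀ β ∈ stdSimplex ℝ (Fin k → X), 0 ≤ Phi s β) ∧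
  (∃ s : GS Lv HE RS, ∀ β ∈ stdSimplex ℝ (Fin k → X),
    Phi s β ≤ 3300 * (L * k * r0) + 105600 * L * (r0 * (k * (9 + 3 * lgk k)))) ∧
  (∀ s : GS Lv HE RS, ConcaveOn ℝ (stdSimplex ℝ (Fin k → X)) (Phi s)) ∧
  (∀ (s : GS Lv HE RS) β (r : X), β ∈ stdSimplex ℝ (Fin k → X) → Opt s β →
    (∀ x, β x ≠ 0 → ∃ i, x i = r) → ∀ y, law x0 s y ≠ 0 → ∃ i, y i = r)

end Vale.Agent.P304Z.A
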