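import Vale.Agent.P304Z.Defs

/-!
# P304Z: the coupling kit
-/

open Finset

namespace Vale.Agent.P304Z

open Vale.Agent.P304

set_option linter.unusedSectionVars false

variable {X : Type} [MetricSpace X] [Fintype X] [DecidableEq X] {k : ℕ}

theorem Cpl.refl' {p : (Fin k → X) → ℝ} (hp : ∀ a, 0 ≤ p a) : Cpl p p 0 := by
  classical
  refine ⟨fun a b => if a = b then p a else 0, fun a b => ?_, fun a => ?_, fun b => ?_, ?_⟩
  · dsimp only
    split_ifs
    · exact hp a
    · exact le_rfl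
  · simp
  · simp
  · refine le_of_eq (Finset.sum_eq_zero fun a _ => Finset.sum_eq_zero fun b _ => ?_)
    dsimp only
    split_ifs with h
    · rw [← h, mdist_self, mul_zero]
    · rw [zero_mul]

theorem Cpl.refl {p : (Fin k → X) → ℝ} (hp : p ∈ stdSimplex ℝ (Fin k → X)) : Cpl p p 0 :=
  Cpl.refl' hp.1

theorem Cpl.mono {p q : (Fin k → X) → ℝ} {c c' : ℝ} (h : Cpl p q c) (hc : c ≤ c') :
    Cpl p q c' := by
  obtain ⟨π, h0, h1, h2, h3⟩ := h
  exact ⟨π, h0, h1, h2, h3.trans hc⟩

theorem Cpl.nonneg {p q : (Fin k → X) → ℝ} {c : ℝ} (h : Cpl p q c) : 0 ≤ c := by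
  obtain ⟨π, h0, -, -, h3⟩ := h
  exact (Finset.sum_nonneg fun a _ => Finset.sum_nonneg fun b _ =>
    mul_nonneg (h0 a b) (mdist_nonneg a b)).trans h3

theorem Cpl.symm {p q : (Fin k → X) → ℝ} {c : ℝ} (h : Cpl p q c) : Cpl q p c := by
  obtain ⟨π, h0, h1, h2, h3⟩ := h
  refine ⟨fun b a => π a b, fun b a => h0 a b, h2, h1, ?_⟩
  rw [Finset.sum_comm]
  refine le_trans (le_of_eq ?_) h3
  exact Finset.sum_congr rfl fun a _ => Finset.sum_congr rfl fun b _ => by rw [mdist_comm]

theorem Cpl.left_nonneg {p q : (Fin k → X) → ℝ} {c : ℝ} (h : Cpl p q c) (a : Fin k → X) :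
    0 ≤ p a := by
  obtain ⟨π, h0, h1, -, -⟩ := h
  rw [← h1 a]
  exact Finset.sum_nonneg fun b _ => h0 a b

theorem Cpl.right_nonneg {p q : (Fin k → X) → ℝ} {c : ℝ} (h : Cpl p q c) (b : Fin k → X) :
    0 ≤ q b := h.symm.left_nonneg b

theorem Cpl.trans {p q r : (Fin k → X) → ℝ} {c₁ c₂ : ℝ} (h₁ : Cpl p q c₁) (h₂ : Cpl q r c₂) :
    Cpl p r (c₁ + c₂) := by
  have hq := h₂.left_nonneg
  obtain ⟨π, h0, h1, h2, h3⟩ := h₁
  obtain ⟨ρ, g0, g1, g2, g3⟩ := h₂
  have hπ : ∀ a b, q b = 0 → π a b = 0 := fun a b hb =>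
    (Finset.sum_eq_zero_iff_of_nonneg fun a _ => h0 a b).1 ((h2 b).trans hb) a (mem_univ a)
  have hρ : ∀ b c, q b = 0 → ρ b c = 0 := fun b c hb =>
    (Finset.sum_eq_zero_iff_of_nonneg fun c _ => g0 b c).1 ((g1 b).trans hb) c (mem_univ c)
  have e1 : ∀ a b, ∑ c, π a b * ρ b c / q b = π a b := by
    intro a b
    rw [← Finset.sum_div, ← Finset.mul_sum, g1]
    by_cases hb : q b = 0
    · rw [hπ a b hb, zero_mul, zero_div]
    · exact mul_div_cancel_right₀ _ hb
  have e2 : ∀ b c, ∑ a, π a b * ρ b c / q b = ρ b c := by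
    intro b c
    rw [← Finset.sum_div, ← Finset.sum_mul, h2]
    by_cases hb : q b = 0
    · rw [hρ b c hb, mul_zero, zero_div]
    · exact mul_div_cancel_left₀ _ hb
  have hn : ∀ a b c, 0 ≤ π a b * ρ b c / q b := fun a b c =>
    div_nonneg (mul_nonneg (h0 a b) (g0 b c)) (hq b)
  refine ⟨fun a c => ∑ b, π a b * ρ b c / q b, fun a c => Finset.sum_nonneg fun b _ => hn a b c,
    fun a => ?_, fun c => ?_, ?_⟩
  · rw [Finset.sum_comm, ← h1 a]
    exact Finset.sum_congr rfl fun b _ => e1 a b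
  · rw [Finset.sum_comm, ← g2 c]
    exact Finset.sum_congr rfl fun b _ => e2 b c
  · have s1 : ∑ a, ∑ c, ∑ b, π a b * ρ b c / q b * mdist a b = ∑ a, ∑ b, π a b * mdist a b := by
      refine Finset.sum_congr rfl fun a _ => ?_
      rw [Finset.sum_comm]
      refine Finset.sum_congr rfl fun b _ => ?_
      rw [← Finset.sum_mul, e1]
    have s2 : ∑ a, ∑ c, ∑ b, π a b * ρ b c / q b * mdist b c = ∑ b, ∑ c, ρ b c * mdist b c := by
      rw [Finset.sum_comm]
      rw [Finset.sum_comm (f := fun b c => ρ b c * mdist b c)]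
      refine Finset.sum_congr rfl fun c _ => ?_
      rw [Finset.sum_comm]
      refine Finset.sum_congr rfl fun b _ => ?_
      rw [← Finset.sum_mul, e2]
    calc ∑ a, ∑ c, (∑ b, π a b * ρ b c / q b) * mdist a c
        ≤ ∑ a, ∑ c, ∑ b, (π a b * ρ b c / q b * mdist a b + π a b * ρ b c / q b * mdist b c) := by
          refine Finset.sum_le_sum fun a _ => Finset.sum_le_sum fun c _ => ?_
          rw [Finset.sum_mul]
          refine Finset.sum_le_sum fun b _ => ?_
          rw [← mul_add]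
          exact mul_le_mul_of_nonneg_left (mdist_triangle a b c) (hn a b c)
      _ = ∑ a, ∑ c, ∑ b, π a b * ρ b c / q b * mdist a b +
            ∑ a, ∑ c, ∑ b, π a b * ρ b c / q b * mdist b c := by
          simp only [Finset.sum_add_distrib]
      _ ≤ c₁ + c₂ := by
          rw [s1, s2]
          exact add_le_add h3 g3

/-- weighted sums of couplings -/
theorem Cpl.wsum {W : Type} [Fintype W] (a : W → ℝ) (ha : ∀ w, 0 ≤ a w)
    {p q : W → (Fin k → X) → ℝ} {c : W → ℝ} (h : ∀ w, Cpl (p w) (q w) (c w)) :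
    Cpl (fun y => ∑ w, a w * p w y) (fun y => ∑ w, a w * q w y) (∑ w, a w * c w) := by
  choose π h0 h1 h2 h3 using h
  refine ⟨fun x y => ∑ w, a w * π w x y,
    fun x y => Finset.sum_nonneg fun w _ => mul_nonneg (ha w) (h0 w x y), fun x => ?_,
    fun y => ?_, ?_⟩
  · rw [Finset.sum_comm]
    exact Finset.sum_congr rfl fun w _ => by rw [← Finset.mul_sum, h1]
  · rw [Finset.sum_comm]
    exact Finset.sum_congr rfl fun w _ => by rw [← Finset.mul_sum, h2]
  · have e : ∑ x, ∑ y, (∑ w, a w * π w x y) * mdist x y =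
        ∑ w, a w * ∑ x, ∑ y, π w x y * mdist x y := by
      simp only [Finset.sum_mul, Finset.mul_sum]
      calc ∑ x, ∑ y, ∑ w, a w * π w x y * mdist x y
          = ∑ x, ∑ w, ∑ y, a w * π w x y * mdist x y :=
            Finset.sum_congr rfl fun x _ => Finset.sum_comm
        _ = ∑ w, ∑ x, ∑ y, a w * π w x y * mdist x y := Finset.sum_comm
        _ = _ := Finset.sum_congr rfl fun w _ => Finset.sum_congr rfl fun x _ =>
            Finset.sum_congr rfl fun y _ => mul_assoc _ _ _
    rw [e]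
    exact Finset.sum_le_sum fun w _ => mul_le_mul_of_nonneg_left (h3 w) (ha w)

theorem EE_eq_wsum {W : Type} [Fintype W] (f : W → ℝ) :
    Dyn.EE f = ∑ w, (Fintype.card W : ℝ)⁻¹ * f w := by
  unfold Dyn.EE
  rw [← Finset.mul_sum, div_eq_inv_mul]

theorem Cpl.avg {W : Type} [Fintype W] [Nonempty W] {p q : W → (Fin k → X) → ℝ} {c : W → ℝ}
    (h : ∀ w, Cpl (p w) (q w) (c w)) :
    Cpl (fun y => Dyn.EE fun w => p w y) (fun y => Dyn.EE fun w => q w y) (Dyn.EE c) := by
  simp only [EE_eq_wsum]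
  exact Cpl.wsum (fun _ => (Fintype.card W : ℝ)⁻¹) (fun _ => by positivity) h

omit [MetricSpace X] in
theorem sum_pre (Q : (Fin k → X) × Fin k → ℝ) (f : (Fin k → X) → ℝ) :
    ∑ x, pre Q x * f x = ∑ z, Q z * f z.1 := by
  rw [Fintype.sum_prod_type]
  exact Finset.sum_congr rfl fun x _ => by unfold pre; rw [Finset.sum_mul]

omit [MetricSpace X] in
theorem sum_post (Q : (Fin k → X) × Fin k → ℝ) (r : X) (f : (Fin k → X) → ℝ) :
    ∑ y, post Q r y * f y = ∑ z, Q z * f (Function.update z.1 z.2 r) := by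
  unfold post
  simp only [Finset.sum_mul]
  rw [Finset.sum_comm]
  refine Finset.sum_congr rfl fun z _ => ?_
  rw [Finset.sum_eq_single (Function.update z.1 z.2 r)]
  · rw [if_pos rfl]
  · intro y _ hy
    rw [if_neg (Ne.symm hy), zero_mul]
  · intro h
    exact absurd (mem_univ _) h

omit [MetricSpace X] in
theorem pre_mem {Q : (Fin k → X) × Fin k → ℝ} (hQ : Q ∈ stdSimplex ℝ ((Fin k → X) × Fin k)) :
    pre Q ∈ stdSimplex ℝ (Fin k → X) := by
  refine ⟨fun x => Finset.sum_nonneg fun i _ => hQ.1 _, ?_⟩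
  have h := sum_pre Q fun _ => 1
  simp only [mul_one] at h
  rw [h, hQ.2]

omit [MetricSpace X] in
theorem post_mem {Q : (Fin k → X) × Fin k → ℝ} (hQ : Q ∈ stdSimplex ℝ ((Fin k → X) × Fin k))
    (r : X) : post Q r ∈ stdSimplex ℝ (Fin k → X) := by
  refine ⟨fun y => Finset.sum_nonneg fun z _ => ?_, ?_⟩
  · split_ifs
    · exact hQ.1 z
    · exact le_rfl
  · have h := sum_post Q r fun _ => 1
    simp only [mul_one] at h
    rw [h, hQ.2]

omit [MetricSpace X] in
/-- the posterior law is carried by configurations which cover the request -/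
theorem post_cover (Q : (Fin k → X) × Fin k → ℝ) (r : X) (y : Fin k → X) (hy : post Q r y ≠ 0) :
    ∃ i, y i = r := by
  obtain ⟨z, -, hz⟩ := Finset.exists_ne_zero_of_sum_ne_zero hy
  by_cases h : Function.update z.1 z.2 r = y
  · exact ⟨z.2, by rw [← h, Function.update_self]⟩
  · exact absurd (if_neg h) hz

omit [MetricSpace X] in
theorem sum_push {N : Type} [Fintype N] [DecidableEq N] (loc : N → X) (ν : (Fin k → N) → ℝ)
    (f : (Fin k → X) → ℝ) :
    ∑ y, push loc ν y * f y = ∑ Y, ν Y * f (fun i => loc (Y i)) := by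
  unfold push
  simp only [Finset.sum_mul]
  rw [Finset.sum_comm]
  refine Finset.sum_congr rfl fun Y _ => ?_
  rw [Finset.sum_eq_single (fun i => loc (Y i))]
  · rw [if_pos rfl]
  · intro y _ hy
    rw [if_neg (Ne.symm hy), zero_mul]
  · intro h
    exact absurd (mem_univ _) h

omit [MetricSpace X] in
theorem push_mem {N : Type} [Fintype N] [DecidableEq N] (loc : N → X) {ν : (Fin k → N) → ℝ}
    (hν : ν ∈ stdSimplex ℝ (Fin k → N)) : push loc ν ∈ stdSimplex ℝ (Fin k → X) := by
  refine ⟨fun y => Finset.sum_nonneg fun Y _ => ?_, ?_⟩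
  · split_ifs
    · exact hν.1 Y
    · exact le_rfl
  · have h := sum_push loc ν fun _ => 1
    simp only [mul_one] at h
    rw [h, hν.2]

omit [MetricSpace X] [Fintype X] in
/-- a configuration in the support of the image law comes from the support of the law -/
theorem push_supp {N : Type} [Fintype N] [DecidableEq N] (loc : N → X) (ν : (Fin k → N) → ℝ)
    (y : Fin k → X) (hy : push loc ν y ≠ 0) : ∃ Y, ν Y ≠ 0 ∧ (fun i => loc (Y i)) = y := by
  obtain ⟨Y, -, hY⟩ := Finset.exists_ne_zero_of_sum_ne_zero hy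
  by_cases h : (fun i => loc (Y i)) = y
  · exact ⟨Y, by rwa [if_pos h] at hY, h⟩
  · exact absurd (if_neg h) hY

/-- a joint law of two random configurations gives a coupling of the image laws -/
theorem Cpl.of_joint {ι : Type} [Fintype ι] (m : ι → ℝ) (hm : ∀ a, 0 ≤ m a)
    (f g : ι → Fin k → X) {c : ℝ} (hc : ∑ a, m a * mdist (f a) (g a) ≤ c) :
    Cpl (fun y => ∑ a, if f a = y then m a else 0) (fun y => ∑ a, if g a = y then m a else 0) c := by
  refine ⟨fun x y => ∑ a, if f a = x ∧ g a = y then m a else 0,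
    fun x y => Finset.sum_nonneg fun a _ => ?_, fun x => ?_, fun y => ?_, le_trans (le_of_eq ?_) hc⟩
  · split_ifs
    · exact hm a
    · exact le_rfl
  · rw [Finset.sum_comm]
    refine Finset.sum_congr rfl fun a _ => ?_
    by_cases h : f a = x
    · simp [h]
    · simp [h]
  · rw [Finset.sum_comm]
    refine Finset.sum_congr rfl fun a _ => ?_
    by_cases h : g a = y
    · simp [h]
    · simp [h]
  · simp only [Finset.sum_mul]
    calc ∑ x, ∑ y, ∑ a, (if f a = x ∧ g a = y then m a else 0) * mdist x y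
        = ∑ x, ∑ a, ∑ y, (if f a = x ∧ g a = y then m a else 0) * mdist x y :=
          Finset.sum_congr rfl fun x _ => Finset.sum_comm
      _ = ∑ a, ∑ x, ∑ y, (if f a = x ∧ g a = y then m a else 0) * mdist x y := Finset.sum_comm
      _ = _ := by
          refine Finset.sum_congr rfl fun a _ => ?_
          rw [Finset.sum_eq_single (f a), Finset.sum_eq_single (g a)]
          · rw [if_pos ⟨rfl, rfl⟩]
          · intro y _ hy
            rw [if_neg fun h => hy h.2.symm, zero_mul]
          · intro h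
            exact absurd (mem_univ _) h
          · intro x _ hx
            exact Finset.sum_eq_zero fun y _ => by rw [if_neg fun h => hx h.1.symm, zero_mul]
          · intro h
            exact absurd (mem_univ _) h

end Vale.Agent.P304Z
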