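import Vale.Agent.P304Z.Defs

/-!
# P304Z: ranks of random subtree counts are admissible
-/

open Finset

namespace Vale.Agent.P304Z

namespace Rank

theorem int_pos (x t : ℝ) (hx : x ≤ t + 1) :
    ∫ s in t..(t + 1), max (x - s) 0 = (max (x - t) 0) ^ 2 / 2 := by
  have hc : Continuous fun s : ℝ => max (x - s) 0 := by fun_prop
  have hz : ∀ a b : ℝ, x ≤ a → a ≤ b → ∫ s in a..b, max (x - s) 0 = 0 := by
    intro a b ha hab
    rw [intervalIntegral.integral_congr (g := fun _ => (0 : ℝ))]
    · simp
    · intro s hs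
      rw [Set.uIcc_of_le hab] at hs
      exact max_eq_right (by linarith [hs.1])
  rcases le_total x t with h | h
  · rw [hz t (t + 1) h (by linarith), max_eq_right (by linarith)]
    simp
  · rw [← intervalIntegral.integral_add_adjacent_intervals (b := x) (hc.intervalIntegrable _ _)
      (hc.intervalIntegrable _ _), hz x (t + 1) le_rfl hx, add_zero, max_eq_left (by linarith),
      intervalIntegral.integral_congr (g := fun s => x - s)]
    · rw [intervalIntegral.integral_sub (by simp) (by simp)]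
      simp only [intervalIntegral.integral_const, integral_id, smul_eq_mul]
      ring
    · intro s hs
      rw [Set.uIcc_of_le h] at hs
      exact max_eq_left (by linarith [hs.2])

theorem sum_ind (k m : ℕ) :
    ∑ j : Fin k, (if (j : ℕ) < m then (1 : ℝ) else 0) = (min k m : ℕ) := by
  rw [sum_boole, Fin.card_filter_val_lt]

theorem sum_ind_le {k : ℕ} (A : Finset (Fin k)) (m : ℕ) :
    ∑ j ∈ A, (if (j : ℕ) < m then (1 : ℝ) else 0) ≤ (min m A.card : ℕ) := by
  rw [sum_boole, Nat.cast_le]
  refine le_min ?_ (card_filter_le _ _)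
  refine le_trans (card_le_card (filter_subset_filter _ (subset_univ A))) ?_
  rw [Fin.card_filter_val_lt]
  exact min_le_right _ _

theorem abs_ind (k m m' : ℕ) :
    ∑ j : Fin k, |(if (j : ℕ) < m' then (1 : ℝ) else 0) - if (j : ℕ) < m then 1 else 0| ≤
      |(m' : ℝ) - m| := by
  have key : ∀ a b : ℕ, a ≤ b →
      ∑ j : Fin k, |(if (j : ℕ) < b then (1 : ℝ) else 0) - if (j : ℕ) < a then 1 else 0| ≤
        (b : ℝ) - a := by
    intro a b hab
    have h1 : ∀ j : Fin k,
        |(if (j : ℕ) < b then (1 : ℝ) else 0) - if (j : ℕ) < a then 1 else 0| =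
          (if (j : ℕ) < b then (1 : ℝ) else 0) - if (j : ℕ) < a then 1 else 0 := by
      intro j
      refine abs_of_nonneg ?_
      by_cases h : (j : ℕ) < a
      · simp [h, h.trans_le hab]
      · simp only [h, if_false, sub_zero]
        split_ifs <;> norm_num
    simp only [h1, sum_sub_distrib, sum_ind]
    have h2 : min k b + a ≤ b + min k a := by omega
    have h3 : ((min k b : ℕ) : ℝ) + a ≤ b + (min k a : ℕ) := by exact_mod_cast h2
    linarith
  rcases le_total m m' with h | h
  · exact (key m m' h).trans (le_abs_self _)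
  · simp only [abs_sub_comm (if _ < m' then (1 : ℝ) else 0)]
    rw [abs_sub_comm]
    exact (key m' m h).trans (le_abs_self _)

theorem sum_min_le {κ : Type} (C : Finset κ) (a b : κ → ℕ) (n : ℕ) (h : ∑ c ∈ C, a c ≤ n) :
    ∑ c ∈ C, min (a c) (b c) ≤ min n (∑ c ∈ C, b c) :=
  le_min ((sum_le_sum fun _ _ => min_le_left _ _).trans h) (sum_le_sum fun _ _ => min_le_right _ _)

/-- the first-order inequality -/
theorem hle {κ ι : Type} [Fintype ι] {k : ℕ} (C : Finset κ) (β : ι → ℝ) (hβ : ∀ a, 0 ≤ β a)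
    (n : ι → κ → ℕ) (w : ι → ℕ) (h1 : ∀ a, ∑ c ∈ C, n a c ≤ w a) (h2 : ∀ a, w a ≤ k)
    (s : ℝ) (hs : 0 ≤ s) :
    ∑ c ∈ C, ∑ j : Fin k, max ((∑ a, β a * if (j : ℕ) < n a c then 1 else 0) - s) 0 ≤
      ∑ j : Fin k, max ((∑ a, β a * if (j : ℕ) < w a then 1 else 0) - s) 0 := by
  set A : κ → Finset (Fin k) := fun c =>
    univ.filter fun j => s < ∑ a, β a * if (j : ℕ) < n a c then 1 else 0 with hA
  set M : ℕ := ∑ c ∈ C, (A c).card with hM
  have e1 : ∀ c, ∑ j : Fin k, max ((∑ a, β a * if (j : ℕ) < n a c then 1 else 0) - s) 0 ≤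
      ∑ a, β a * (min (n a c) (A c).card : ℕ) - s * (A c).card := by
    intro c
    have e : ∑ j : Fin k, max ((∑ a, β a * if (j : ℕ) < n a c then 1 else 0) - s) 0 =
        ∑ j ∈ A c, ((∑ a, β a * if (j : ℕ) < n a c then 1 else 0) - s) := by
      simp only [hA]
      rw [sum_filter]
      refine sum_congr rfl fun j _ => ?_
      split_ifs with h
      · exact max_eq_left (by linarith)
      · exact max_eq_right (by linarith [not_lt.1 h])
    rw [e, sum_sub_distrib, sum_const, nsmul_eq_mul, mul_comm _ s, sum_comm]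
    refine sub_le_sub_right (sum_le_sum fun a _ => ?_) _
    rw [← mul_sum]
    exact mul_le_mul_of_nonneg_left (sum_ind_le _ _) (hβ a)
  have e2 : ∑ a, β a * (min (w a) M : ℕ) - s * M ≤
      ∑ j : Fin k, max ((∑ a, β a * if (j : ℕ) < w a then 1 else 0) - s) 0 := by
    have e : ∑ j : Fin k, (if (j : ℕ) < M then (1 : ℝ) else 0) *
        ((∑ a, β a * if (j : ℕ) < w a then 1 else 0) - s) ≤
        ∑ j : Fin k, max ((∑ a, β a * if (j : ℕ) < w a then 1 else 0) - s) 0 := by
      refine sum_le_sum fun j _ => ?_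
      split_ifs
      · rw [one_mul]; exact le_max_left _ _
      · rw [zero_mul]; exact le_max_right _ _
    refine le_trans ?_ e
    simp only [mul_sub, sum_sub_distrib, ← sum_mul, sum_ind]
    refine sub_le_sub (le_of_eq ?_) ?_
    · simp only [mul_sum]
      rw [sum_comm]
      refine sum_congr rfl fun a _ => ?_
      have e3 : ∀ j : Fin k, (if (j : ℕ) < M then (1 : ℝ) else 0) *
          (β a * if (j : ℕ) < w a then 1 else 0) =
          β a * if (j : ℕ) < min (w a) M then 1 else 0 := by
        intro j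
        by_cases p1 : (j : ℕ) < M <;> by_cases p2 : (j : ℕ) < w a <;> simp [p1, p2]
      simp only [e3, ← mul_sum, sum_ind]
      have := h2 a
      rw [show min k (min (w a) M) = min (w a) M from min_eq_right (by omega)]
    · rw [mul_comm]
      exact mul_le_mul_of_nonneg_left (by exact_mod_cast min_le_right k M) hs
  refine ((sum_le_sum fun c _ => e1 c).trans ?_).trans e2
  rw [sum_sub_distrib, ← mul_sum, hM, Nat.cast_sum, sum_comm]
  refine sub_le_sub_right (sum_le_sum fun a _ => ?_) _
  rw [← mul_sum, ← Nat.cast_sum]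
  exact mul_le_mul_of_nonneg_left (by exact_mod_cast sum_min_le C _ _ _ (h1 a)) (hβ a)

end Rank

open Rank in
theorem stRank : StRank := by
  intro N _ _ T k ι _ β n hβ hroot hsub hle'
  have hb : ∀ (m : ι → ℕ) (j : Fin k), 0 ≤ (∑ a, β a * if (j : ℕ) < m a then (1 : ℝ) else 0) ∧
      (∑ a, β a * if (j : ℕ) < m a then (1 : ℝ) else 0) ≤ 1 := by
    intro m j
    refine ⟨sum_nonneg fun a _ => mul_nonneg (hβ.1 a) (by split_ifs <;> norm_num), ?_⟩
    refine le_trans (sum_le_sum fun a _ => ?_) hβ.2.le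
    exact mul_le_of_le_one_right (hβ.1 a) (by split_ifs <;> norm_num)
  have hmean : ∀ v, ∑ j : Fin k, (∑ a, β a * if (j : ℕ) < n a v then 1 else 0) =
      ∑ a, β a * (n a v : ℝ) := by
    intro v
    rw [sum_comm]
    refine sum_congr rfl fun a _ => ?_
    rw [← mul_sum, sum_ind, min_eq_right (hle' a v)]
  refine ⟨⟨fun v j => hb _ j, fun j => ?_, fun w t ht => ?_, fun w => ?_⟩, hmean, fun n' v => ?_⟩
  · simp only [hroot, j.2, if_true, mul_one]
    exact hβ.2
  · have hc : ∀ x : ℝ, Continuous fun s : ℝ => max (x - s) 0 := fun x => by fun_prop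
    have hi : ∀ (m : ι → ℕ),
        ∑ j : Fin k, (max ((∑ a, β a * if (j : ℕ) < m a then (1 : ℝ) else 0) - t) 0) ^ 2 =
        2 * ∫ s in t..(t + 1), ∑ j : Fin k,
          max ((∑ a, β a * if (j : ℕ) < m a then (1 : ℝ) else 0) - s) 0 := by
      intro m
      rw [intervalIntegral.integral_finsetSum fun j _ => (hc _).intervalIntegrable _ _, mul_sum]
      refine sum_congr rfl fun j _ => ?_
      rw [int_pos _ _ (by linarith [(hb m j).2])]
      ring
    have hcs : ∀ (m : ι → ℕ), Continuous fun s : ℝ => ∑ j : Fin k,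
        max ((∑ a, β a * if (j : ℕ) < m a then (1 : ℝ) else 0) - s) 0 :=
      fun m => continuous_finsetSum _ fun j _ => hc _
    rw [hi fun a => n a w, sum_congr rfl fun c _ => hi fun a => n a c, ← mul_sum,
      ← intervalIntegral.integral_finsetSum fun c _ => (hcs _).intervalIntegrable _ _]
    refine mul_le_mul_of_nonneg_left (intervalIntegral.integral_mono_on (by linarith)
      ((continuous_finsetSum _ fun c _ => hcs _).intervalIntegrable _ _)
      ((hcs _).intervalIntegrable _ _) fun s hs => ?_) (by norm_num)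
    exact hle (T.ch w) β hβ.1 n (fun a => n a w) (fun a => hsub a w) (fun a => hle' a w) s
      (ht.trans hs.1)
  · rw [hmean w, sum_congr rfl fun c _ => hmean c, sum_comm]
    refine sum_le_sum fun a _ => ?_
    rw [← mul_sum, ← Nat.cast_sum]
    exact mul_le_mul_of_nonneg_left (by exact_mod_cast hsub a w) (hβ.1 a)
  · have e : ∀ j : Fin k, |(∑ a, β a * if (j : ℕ) < n' a v then 1 else 0) -
        ∑ a, β a * if (j : ℕ) < n a v then 1 else 0| ≤ ∑ a, β a *
          |(if (j : ℕ) < n' a v then (1 : ℝ) else 0) - if (j : ℕ) < n a v then 1 else 0| := by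
      intro j
      rw [← sum_sub_distrib]
      refine (abs_sum_le_sum_abs _ _).trans (le_of_eq (sum_congr rfl fun a _ => ?_))
      rw [← mul_sub, abs_mul, abs_of_nonneg (hβ.1 a)]
    refine (sum_le_sum fun j _ => e j).trans ?_
    rw [sum_comm]
    refine sum_le_sum fun a _ => ?_
    rw [← mul_sum]
    exact mul_le_mul_of_nonneg_left (abs_ind _ _ _) (hβ.1 a)

end Vale.Agent.P304Z
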