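import Vale.Agent.P304Z.A0
import Vale.Agent.P304Z.Cpl
import Vale.Agent.P304Z.Rank

/-!
# P304Z, global assembly: addresses and ranks
-/

open Finset

namespace Vale.Agent.P304Z.A

open Vale.Agent.P304 Vale.Agent.P304.Dyn

namespace A1

variable {Λ : Type} {H k : ℕ} {r0 : ℝ}

/-- the address `v` is an initial part of the list of labels -/
def Cn (lb : Fin H → Option Λ) (v : Nd Λ H) : Prop := v.1.map some <+: List.ofFn lb

theorem cn_iff {lb : Fin H → Option Λ} {v : Nd Λ H} :
    Cn lb v ↔ ∀ (l : Fin H) (h : (l : ℕ) < v.1.length), lb l = some v.1[(l : ℕ)] := by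
  unfold Cn
  rw [List.prefix_iff_getElem]
  constructor
  · rintro ⟨_, h2⟩ l h
    have h3 := h2 l (by simpa using h)
    simpa using h3.symm
  · intro h
    refine ⟨by simpa using v.2, fun i hi => ?_⟩
    have hi' : i < v.1.length := by simpa using hi
    have h3 := h ⟨i, hi'.trans_le v.2⟩ hi'
    simpa using h3.symm

theorem cn_uniq {lb : Fin H → Option Λ} {v v' : Nd Λ H} (h : Cn lb v) (h' : Cn lb v')
    (hl : v.1.length = v'.1.length) : v = v' := by
  have h1 := (List.prefix_of_prefix_length_le h h' (by simp [hl])).eq_of_length (by simp [hl])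
  exact Subtype.ext (List.map_injective_iff.2 (Option.some_injective Λ) h1)

theorem cn_par (hr : 0 < r0) {lb : Fin H → Option Λ} {v : Nd Λ H} (h : Cn lb v) :
    Cn lb ((tr Λ H hr).par v) :=
  ((List.dropLast_prefix v.1).map some).trans h

theorem cn_root (hr : 0 < r0) (lb : Fin H → Option Λ) : Cn lb (tr Λ H hr).root :=
  List.nil_prefix

theorem cn_congr {lb lb' : Fin H → Option Λ} {v : Nd Λ H}
    (h : ∀ l : Fin H, (l : ℕ) < v.1.length → lb l = lb' l) : Cn lb v ↔ Cn lb' v := by
  rw [cn_iff, cn_iff]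
  exact forall_congr' fun l => forall_congr' fun hl => by rw [h l hl]

theorem geo (hr : 0 < r0) (a n : ℕ) : ∑ d ∈ Ico a n, r0 / 2 ^ d ≤ 2 * (r0 / 2 ^ a) := by
  have key : ∀ m, ∑ d ∈ Ico a (a + m), r0 / 2 ^ d + 2 * (r0 / 2 ^ (a + m)) = 2 * (r0 / 2 ^ a) := by
    intro m
    induction m with
    | zero => simp
    | succ m ih =>
      rw [← add_assoc, sum_Ico_succ_top (Nat.le_add_right a m), ← ih, pow_succ]
      field_simp
      ring
  rcases le_total a n with h | h
  · obtain ⟨m, rfl⟩ := Nat.exists_eq_add_of_le h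
    have h1 : 0 ≤ 2 * (r0 / 2 ^ (a + m)) := by positivity
    linarith [key m]
  · rw [Ico_eq_empty_of_le h, sum_empty]
    positivity

variable [Fintype Λ]

open Classical in
theorem tail (hr : 0 < r0) (lb : Fin H → Option Λ) (l : ℕ) :
    ∑ v : Nd Λ H, (if Cn lb v ∧ l < v.1.length then r0 / 2 ^ v.1.length else 0) ≤
      2 * (r0 / 2 ^ (l + 1)) := by
  rw [← sum_filter, ← sum_image (s := univ.filter fun v : Nd Λ H => Cn lb v ∧ l < v.1.length)
    (g := fun v => v.1.length) (f := fun d => r0 / 2 ^ d)]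
  · refine le_trans (sum_le_sum_of_subset_of_nonneg (t := Ico (l + 1) (H + 1)) ?_
      fun d _ _ => by positivity) (geo hr _ _)
    intro d hd
    obtain ⟨v, hv, rfl⟩ := mem_image.1 hd
    have h1 := (mem_filter.1 hv).2.2
    have h2 := v.2
    rw [mem_Ico]
    omega
  · intro v hv v' hv' h
    exact cn_uniq (mem_filter.1 hv).2.1 (mem_filter.1 hv').2.1 h

open Classical in
theorem pair_le (hr : 0 < r0) (lb lb' : Fin H → Option Λ) (χ : Fin H → ℝ) (h0 : ∀ l, 0 ≤ χ l)
    (h1 : ∀ l, lb l ≠ lb' l → 1 ≤ χ l) :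
    ∑ v : Nd Λ H, r0 / 2 ^ v.1.length *
        |(if Cn lb' v then (1 : ℝ) else 0) - if Cn lb v then 1 else 0| ≤
      4 * ∑ l : Fin H, r0 / 2 ^ ((l : ℕ) + 1) * χ l := by
  have hv : ∀ v : Nd Λ H, r0 / 2 ^ v.1.length *
      |(if Cn lb' v then (1 : ℝ) else 0) - if Cn lb v then 1 else 0| ≤
      ∑ l : Fin H, χ l * ((if Cn lb v ∧ (l : ℕ) < v.1.length then r0 / 2 ^ v.1.length else 0) +
        if Cn lb' v ∧ (l : ℕ) < v.1.length then r0 / 2 ^ v.1.length else 0) := by
    intro v
    have hρ : 0 < r0 / 2 ^ v.1.length := by positivity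
    have hnn : ∀ l : Fin H, 0 ≤ χ l *
        ((if Cn lb v ∧ (l : ℕ) < v.1.length then r0 / 2 ^ v.1.length else 0) +
          if Cn lb' v ∧ (l : ℕ) < v.1.length then r0 / 2 ^ v.1.length else 0) := fun l =>
      mul_nonneg (h0 l) (add_nonneg (by split_ifs; exacts [hρ.le, le_rfl])
        (by split_ifs; exacts [hρ.le, le_rfl]))
    by_cases hd : ∀ l : Fin H, (l : ℕ) < v.1.length → lb l = lb' l
    · rw [cn_congr hd, sub_self, abs_zero, mul_zero]
      exact sum_nonneg fun l _ => by simpa only [cn_congr hd] using hnn l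
    · push Not at hd
      obtain ⟨l, hl, hne⟩ := hd
      refine le_trans ?_ (single_le_sum (fun l _ => hnn l) (mem_univ l))
      have h2 := h1 l hne
      by_cases ha : Cn lb v <;> by_cases hb : Cn lb' v <;> simp [ha, hb, hl] <;> nlinarith
  refine (sum_le_sum fun v _ => hv v).trans ?_
  rw [sum_comm, mul_sum]
  refine sum_le_sum fun l _ => ?_
  rw [← mul_sum, sum_add_distrib]
  have h2 := tail hr lb l
  have h3 := tail hr lb' l
  nlinarith [h0 l]

open Classical in
/-- the number of servers below a node -/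
noncomputable def cnt (lb : Fin k → Fin H → Option Λ) (v : Nd Λ H) : ℕ :=
  (univ.filter fun i => Cn (lb i) v).card

omit [Fintype Λ] in
theorem cnt_root (hr : 0 < r0) (lb : Fin k → Fin H → Option Λ) : cnt lb (tr Λ H hr).root = k := by
  classical
  unfold cnt
  rw [filter_true_of_mem fun i _ => cn_root hr (lb i), card_univ, Fintype.card_fin]

omit [Fintype Λ] in
theorem cnt_le (lb : Fin k → Fin H → Option Λ) (v : Nd Λ H) : cnt lb v ≤ k := by
  classical
  unfold cnt
  exact (card_filter_le _ _).trans (by rw [card_univ, Fintype.card_fin])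

omit [Fintype Λ] in
open Classical in
theorem cnt_cast (lb : Fin k → Fin H → Option Λ) (v : Nd Λ H) :
    (cnt lb v : ℝ) = ∑ i, if Cn (lb i) v then 1 else 0 := by
  unfold cnt
  rw [sum_boole]

variable [DecidableEq Λ]

theorem cnt_sub (hr : 0 < r0) (lb : Fin k → Fin H → Option Λ) (w : Nd Λ H) :
    ∑ c ∈ (tr Λ H hr).ch w, cnt lb c ≤ cnt lb w := by
  unfold cnt
  rw [← card_biUnion]
  · refine card_le_card fun i hi => ?_
    obtain ⟨c, hc, hi⟩ := mem_biUnion.1 hi
    simp only [Tr.ch, mem_filter, mem_univ, true_and] at hc hi ⊢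
    exact hc.2 ▸ cn_par hr hi
  · intro c hc c' hc' hne
    simp only [Tr.ch, coe_filter, mem_univ, true_and, Set.mem_ofPred_eq] at hc hc'
    refine disjoint_left.2 fun i hi hi' => hne ?_
    simp only [mem_filter, mem_univ, true_and] at hi hi'
    have h1 := (tr Λ H hr).dep_par c hc.1
    have h2 := (tr Λ H hr).dep_par c' hc'.1
    rw [hc.2] at h1
    rw [hc'.2] at h2
    exact cn_uniq hi hi' (h1.trans h2.symm)

theorem qd_le (hr : 0 < r0) {ι : Type} [Fintype ι] (β : ι → ℝ) (hβ : β ∈ stdSimplex ℝ ι)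
    (lb lb' : ι → Fin k → Fin H → Option Λ) (χ : ι → Fin k → Fin H → ℝ)
    (h0 : ∀ a i l, 0 ≤ χ a i l) (h1 : ∀ a i l, lb a i l ≠ lb' a i l → 1 ≤ χ a i l) :
    qd (tr Λ H hr) (fun v (j : Fin k) => ∑ a, β a * if (j : ℕ) < cnt (lb a) v then 1 else 0)
        (fun v (j : Fin k) => ∑ a, β a * if (j : ℕ) < cnt (lb' a) v then 1 else 0) ≤
      4 * ∑ a, β a * ∑ i, ∑ l : Fin H, r0 / 2 ^ ((l : ℕ) + 1) * χ a i l := by
  classical
  have h := (stRank (Nd Λ H) (tr Λ H hr) k ι β (fun a => cnt (lb a)) hβ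
    (fun a => cnt_root hr _) (fun a => cnt_sub hr _) (fun a => cnt_le _)).2.2 fun a => cnt (lb' a)
  unfold qd
  have h2 : ∀ v : Nd Λ H, (tr Λ H hr).rho ((tr Λ H hr).dep v) *
      ∑ j : Fin k, |(∑ a, β a * if (j : ℕ) < cnt (lb' a) v then 1 else 0) -
        ∑ a, β a * if (j : ℕ) < cnt (lb a) v then 1 else 0| ≤
      ∑ a, β a * ∑ i, r0 / 2 ^ v.1.length *
        |(if Cn (lb' a i) v then (1 : ℝ) else 0) - if Cn (lb a i) v then 1 else 0| := by
    intro v
    have hρ : 0 < r0 / 2 ^ v.1.length := by positivity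
    refine (mul_le_mul_of_nonneg_left (h v) hρ.le).trans ?_
    rw [mul_sum]
    refine sum_le_sum fun a _ => ?_
    rw [mul_left_comm, ← mul_sum, cnt_cast, cnt_cast, ← sum_sub_distrib]
    exact mul_le_mul_of_nonneg_left
      (mul_le_mul_of_nonneg_left (abs_sum_le_sum_abs _ _) hρ.le) (hβ.1 a)
  refine (sum_le_sum fun v _ => h2 v).trans ?_
  rw [sum_comm, mul_sum]
  refine sum_le_sum fun a _ => ?_
  rw [← mul_sum, mul_left_comm, sum_comm, mul_sum univ _ (4 : ℝ)]
  exact mul_le_mul_of_nonneg_left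
    (sum_le_sum fun i _ => pair_le hr _ _ _ (h0 a i) (h1 a i)) (hβ.1 a)

theorem pm_mul {X : Type} [Fintype X] [DecidableEq X] (β : (Fin k → X) → ℝ) (f : X → ℝ) :
    ∑ u, pm β u * f u = ∑ x, β x * ∑ i, f (x i) := by
  unfold pm
  simp only [sum_mul]
  rw [sum_comm]
  refine sum_congr rfl fun x _ => ?_
  rw [← sum_oc, mul_sum]
  exact sum_congr rfl fun u _ => mul_assoc _ _ _

end A1

open A1 in
theorem stAddr : StAddr := by
  intro X _ _ _ k H N Λ Ω _ _ _ ζ εs r0 Lv hr
  have hrk : ∀ (E : ES Lv) ω β, rk Lv E ω β = fun v (j : Fin k) => ∑ x, β x *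
      if (j : ℕ) < cnt (fun i l => (Lv l).lab (E l) (x i) ω) v then 1 else 0 := fun _ _ _ => rfl
  have hst := fun (E : ES Lv) ω β hβ => stRank (Nd Λ H) (tr Λ H hr) k (Fin k → X) β
    (fun x => cnt fun i l => (Lv l).lab (E l) (x i) ω) hβ
    (fun a => cnt_root hr _) (fun a => cnt_sub hr _) (fun a => cnt_le _)
  refine ⟨fun v hv => ?_, fun _ _ => rfl, fun x0 E v l a h => ?_, fun E ω v u l a hc h => ?_,
    fun E ω v u h => cn_par hr h, fun E ω v v' u h h' hl => cn_uniq h h' hl,
    fun E ω u h => ?_, fun v hv => ?_, fun β hβ u => ?_, fun β hβ => ?_, A1.pm_mul,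
    fun E ω β hβ => (hst E ω β hβ).1, fun E ω β hβ v => ?_, fun E ω l s' β hβ => ?_,
    fun E ω r Q hQ => ?_⟩
  · have h : v.1 ≠ [] := fun h => hv (Subtype.ext h)
    have h2 := List.length_pos_of_ne_nil h
    have h3 := v.2
    exact ⟨⟨v.1.length - 1, by omega⟩, v.1.getLast h, by simp only; omega,
      List.getLast?_eq_some_getLast h⟩
  · obtain ⟨h1, h2⟩ := h
    have h3 : v.1.length - 1 < H := by have := l.2; omega
    have h4 : (⟨v.1.length - 1, h3⟩ : Fin H) = l := Fin.ext (by simp only; omega)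
    unfold loc
    rw [h2, Option.elim_some, dif_pos h3]
    subst h4
    rfl
  · obtain ⟨h1, h2⟩ := h
    have h3 := cn_iff.1 hc l (by omega)
    rw [List.getLast?_eq_getElem?, h1, Nat.add_sub_cancel,
      List.getElem?_eq_getElem (by omega)] at h2
    exact h3.trans h2
  · choose f hf using fun l => Option.ne_none_iff_exists'.1 (h l)
    refine ⟨⟨List.ofFn f, by simp⟩, by simp, cn_iff.2 fun l _ => ?_⟩
    simpa using hf l
  · refine filter_eq_empty_iff.2 fun c _ hc => ?_
    have h1 := (tr Λ H hr).dep_par c hc.1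
    rw [hc.2] at h1
    have h2 : c.1.length = v.1.length + 1 := h1
    have h3 := c.2
    omega
  · exact sum_nonneg fun x _ => mul_nonneg (hβ.1 x) (oc_nonneg x u)
  · have h := A1.pm_mul β fun _ => 1
    simp only [mul_one, sum_const, card_univ, Fintype.card_fin, nsmul_eq_mul] at h
    rw [h, ← sum_mul, hβ.2, one_mul]
  · rw [A1.pm_mul]
    refine ((hst E ω β hβ).2.1 v).trans (sum_congr rfl fun x _ => ?_)
    rw [cnt_cast]
    rfl
  · rw [hrk, hrk, A1.pm_mul]
    refine (qd_le hr β hβ _ _ (fun x i l' => if l' = l then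
      (if (Lv l).lab (E l) (x i) ω = (Lv l).lab s' (x i) ω then 0 else 1) else 0)
      (fun x i l' => by split_ifs <;> norm_num) (fun x i l' hne => ?_)).trans (le_of_eq ?_)
    · by_cases hl : l' = l
      · subst hl
        rw [Function.update_self] at hne
        rw [if_pos rfl, if_neg hne]
      · rw [Function.update_of_ne hl] at hne
        exact absurd rfl hne
    · simp only [mul_ite, mul_zero, sum_ite_eq', mem_univ, if_true, mul_sum, mul_assoc]
      refine sum_congr rfl fun x _ => sum_congr rfl fun i _ => ?_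
      split_ifs <;> ring
  · have e1 : rk Lv E ω (pre Q) = fun v (j : Fin k) => ∑ z, Q z *
        if (j : ℕ) < cnt (fun i l => (Lv l).lab (E l) (z.1 i) ω) v then 1 else 0 :=
      funext fun v => funext fun j => sum_pre Q _
    have e2 : rk Lv E ω (post Q r) = fun v (j : Fin k) => ∑ z, Q z *
        if (j : ℕ) < cnt (fun i l => (Lv l).lab (E l) (Function.update z.1 z.2 r i) ω) v
          then 1 else 0 :=
      funext fun v => funext fun j => sum_post Q r _
    rw [e1, e2]
    refine (qd_le hr Q hQ _ _ (fun z i l => if i = z.2 then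
      (if (Lv l).lab (E l) (z.1 z.2) ω = (Lv l).lab (E l) r ω then 0 else 1) else 0)
      (fun z i l => by split_ifs <;> norm_num) (fun z i l hne => ?_)).trans (le_of_eq ?_)
    · by_cases hi : i = z.2
      · subst hi
        rw [Function.update_self] at hne
        rw [if_pos rfl, if_neg hne]
      · rw [Function.update_of_ne hi] at hne
        exact absurd rfl hne
    · congr 1
      refine sum_congr rfl fun z _ => ?_
      congr 1
      rw [sum_comm]
      refine sum_congr rfl fun l _ => ?_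
      rw [← mul_sum, sum_ite_eq' univ z.2, if_pos (mem_univ _)]

end Vale.Agent.P304Z.A
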