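import Vale.Agent.P304Z.A0
import Vale.Agent.P304Z.Cpl

/-!
# P304Z, global assembly: transitions and reoptimisation
-/

open Finset

namespace Vale.Agent.P304Z.A

open Vale.Agent.P304 Vale.Agent.P304.Dyn

namespace A2

variable {X : Type} [MetricSpace X] [Fintype X] [DecidableEq X] {k H N : ℕ} {Λ Ω : Type}
  [Fintype Λ] [DecidableEq Λ] [Fintype Ω] {ζ εs r0 L : ℝ}
  {Lv : (l : Fin H) → Lev X k Λ Ω N ζ εs (r0 / 2 ^ ((l : ℕ) + 1))} {hr : 0 < r0}
  {HE : HEng (tr Λ H hr) k L} {RS : RSys (tr Λ H hr) k X}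

theorem near_loc (hA : Addr Lv hr) (x0 : X) {E : ES Lv} {ω : Ω} {v : Nd Λ H} {u : X}
    (hu : cont Lv E ω v u) {l : Fin H} {a : Λ} (h : IsAt v l a) :
    (Lv l).vis (E l) a ∧ dist u (loc Lv x0 E v) ≤ 11 * (r0 / 2 ^ v.1.length) := by
  rw [hA.loc_at x0 E v l a h, h.1]
  exact (Lv l).lab_pos _ _ _ _ (hA.cont_lab E ω v u l a hu h)

theorem par_dist (hA : Addr Lv hr) (hd : ∀ x y : X, dist x y ≤ r0) (x0 : X) {E : ES Lv} {ω : Ω}
    {v : Nd Λ H} {u : X} (hv : v ≠ (tr Λ H hr).root) (hu : cont Lv E ω v u) :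
    dist (loc Lv x0 E v) (loc Lv x0 E ((tr Λ H hr).par v)) ≤
      33 * (tr Λ H hr).rho ((tr Λ H hr).dep v) := by
  have hdep := (tr Λ H hr).dep_par v hv
  have hhalf := (tr Λ H hr).rho_half ((tr Λ H hr).dep ((tr Λ H hr).par v))
  have hpos := (tr Λ H hr).rho_pos ((tr Λ H hr).dep v)
  rw [← hdep] at hhalf
  by_cases hp : (tr Λ H hr).par v = (tr Λ H hr).root
  · rw [hp, (tr Λ H hr).dep_root] at hhalf
    have h0 : (tr Λ H hr).rho 0 = r0 := by simp [tr]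
    linarith [hd (loc Lv x0 E v) (loc Lv x0 E ((tr Λ H hr).par v))]
  · obtain ⟨l, a, h⟩ := hA.isAt_ex v hv
    obtain ⟨l', a', h'⟩ := hA.isAt_ex _ hp
    have h1 : dist u (loc Lv x0 E v) ≤ 11 * (tr Λ H hr).rho ((tr Λ H hr).dep v) :=
      (near_loc hA x0 hu h).2
    have h2 : dist u (loc Lv x0 E ((tr Λ H hr).par v)) ≤
        11 * (tr Λ H hr).rho ((tr Λ H hr).dep ((tr Λ H hr).par v)) :=
      (near_loc hA x0 (hA.cont_par E ω v u hu) h').2
    linarith [dist_triangle_left (loc Lv x0 E v) (loc Lv x0 E ((tr Λ H hr).par v)) u]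

theorem real_of_bal (hA : Addr Lv hr) {E : ES Lv} {ω : Ω} {β : (Fin k → X) → ℝ}
    (hβ : β ∈ stdSimplex ℝ (Fin k → X)) {e : HE.S} (he : HE.Bal e (rk Lv E ω β)) (v : Nd Λ H)
    (hv : 0 < HE.mu e v) : ∃ u, cont Lv E ω v u := by
  by_contra hcon
  have h := HE.mass e _ (hA.adm E ω β hβ) he v
  rw [hA.mass E ω β hβ v, Finset.sum_eq_zero fun u _ => by
    rw [if_neg fun hu => hcon ⟨u, hu⟩, mul_zero], mul_zero] at h
  exact absurd hv (not_lt.2 h)

theorem tran [Nonempty Ω] (hd : ∀ x y : X, dist x y ≤ r0) (hA : Addr Lv hr) (x0 : X) :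
    Tran Lv HE RS x0 := by
  intro s β E' fol hβ hfol hpos
  choose e' hb hle using fun ω => HE.step (s.e ω) (rk Lv E' ω β) (hA.adm E' ω β hβ)
  have hreal : ∀ ω v, v ≠ (tr Λ H hr).root → 0 < HE.mu (e' ω) v → ∃ u, cont Lv E' ω v u :=
    fun ω v _ hv => real_of_bal hA hβ (hb ω) v hv
  have hcross : ∀ ω v, 0 < HE.mu (s.e ω) v → 0 < HE.mu (e' ω) v →
      dist (loc Lv x0 s.E v) (loc Lv x0 E' v) ≤ fol v ∧ dist (loc Lv x0 s.E v) (loc Lv x0 E' v) ≤
        33 * (tr Λ H hr).rho ((tr Λ H hr).dep v + 1) := by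
    intro ω v h1 h2
    have hp := (tr Λ H hr).rho_pos ((tr Λ H hr).dep v + 1)
    by_cases hv : v = (tr Λ H hr).root
    · rw [hv, hA.loc_root, hA.loc_root, dist_self, ← hv]
      exact ⟨hfol v, by linarith⟩
    · obtain ⟨l, a, h⟩ := hA.isAt_ex v hv
      obtain ⟨u, hu⟩ := s.real ω v hv h1
      obtain ⟨u', hu'⟩ := hreal ω v hv h2
      obtain ⟨g1, g2⟩ := hpos v l a h (near_loc hA x0 hu h).1 (near_loc hA x0 hu' h).1
      rw [hA.loc_at x0 _ v l a h, hA.loc_at x0 _ v l a h]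
      refine ⟨g1, g2.trans ?_⟩
      have e : r0 / 2 ^ ((l : ℕ) + 1) = (tr Λ H hr).rho ((tr Λ H hr).dep v) := by
        rw [← h.1]; rfl
      rw [e, (tr Λ H hr).rho_half ((tr Λ H hr).dep v)]
      linarith
  choose ν' hrb hc using fun ω => RS.step (HE.mu (s.e ω)) (s.ν ω) (HE.mu (e' ω)) (HE.flow _)
    (s.rb ω) (HE.flow _) (loc Lv x0 s.E) (loc Lv x0 E') 33 fol (by norm_num) hfol
    (fun v hv h => (s.real ω v hv h).elim fun _ hu => par_dist hA hd x0 hv hu)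
    (fun v hv h => (hreal ω v hv h).elim fun _ hu => par_dist hA hd x0 hv hu)
    (fun v h1 h2 => (hcross ω v h1 h2).2) (fun v h1 h2 => (hcross ω v h1 h2).1)
  refine ⟨⟨E', e', ν', hrb, hreal⟩, _, rfl, hb, Cpl.avg hc, ?_⟩
  simp only [PhiH]
  rw [← EE_mul, ← EE_mul, ← EE_add, ← EE_add]
  exact EE_mono fun ω => by linarith [hle ω]

theorem phi_nonneg (hL : 1 ≤ L) (hA : Addr Lv hr) (s : GS Lv HE RS) {β : (Fin k → X) → ℝ}
    (hβ : β ∈ stdSimplex ℝ (Fin k → X)) : 0 ≤ Phi s β := by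
  refine add_nonneg (mul_nonneg (by norm_num) (EE_nonneg fun ω =>
    HE.Φ_nonneg _ _ (hA.adm _ ω β hβ).box)) (mul_nonneg (by linarith)
      (Finset.sum_nonneg fun l _ => mul_nonneg (by positivity) (Finset.sum_nonneg fun u _ => ?_)))
  exact mul_nonneg (hA.pm_nonneg β hβ u) ((Lv l).g_nonneg _ _)

theorem sum_update {ι : Type} [Fintype ι] [DecidableEq ι] {S : ι → Type} (F : ∀ i, S i → ℝ)
    (E : ∀ i, S i) (l : ι) (t : S l) :
    ∑ i, F i (Function.update E l t i) = ∑ i, F i (E i) - F l (E l) + F l t := by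
  rw [← Finset.add_sum_erase _ _ (mem_univ l),
    ← Finset.add_sum_erase _ (fun i => F i (E i)) (mem_univ l), Function.update_self,
    Finset.sum_congr rfl fun i hi => by rw [Function.update_of_ne (Finset.ne_of_mem_erase hi)]]
  ring

theorem phiH_relabel (hL : 1 ≤ L) (hA : Addr Lv hr) (s : GS Lv HE RS) {β : (Fin k → X) → ℝ}
    (hβ : β ∈ stdSimplex ℝ (Fin k → X)) (l : Fin H) (t : (Lv l).S) :
    PhiH s (Function.update s.E l t) β ≤ PhiH s s.E β + 105600 * L * (r0 / 2 ^ ((l : ℕ) + 1)) *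
      (1 / 8 * ∑ u, pm β u * dif ((Lv l).lab (s.E l) u) ((Lv l).lab t u)) := by
  have h1 : ∑ u, pm β u * dif ((Lv l).lab (s.E l) u) ((Lv l).lab t u) = EE fun ω =>
      ∑ u, pm β u * if (Lv l).lab (s.E l) u ω = (Lv l).lab t u ω then (0 : ℝ) else 1 := by
    rw [EE_sum]
    refine Finset.sum_congr rfl fun u _ => ?_
    rw [EE_mul, dif]
    congr 2
    funext ω
    split_ifs <;> rfl
  rw [h1]
  simp only [PhiH]
  rw [← mul_assoc, ← EE_mul, ← EE_mul, ← EE_mul, ← EE_add]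
  refine EE_mono fun ω => ?_
  have h2 := HE.lip (s.e ω) _ _ (hA.adm s.E ω β hβ).box
    (hA.adm (Function.update s.E l t) ω β hβ).box
  have h3 := mul_le_mul_of_nonneg_left (hA.relabel s.E ω l t β hβ) (by linarith : (0 : ℝ) ≤ L)
  linarith

open Classical in
theorem follow_eq (hL : 1 ≤ L) (s : GS Lv HE RS) (l : Fin H) (f : Λ → ℝ) (r : ℝ) :
    (EE fun ω => ∑ v, park (tr Λ H hr) (HE.mu (s.e ω)) v *
      ∑ a, if IsAt v l a then f a * r else 0) = 105600 * L * r * ∑ a, om s l a * f a := by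
  have hL0 : (105600 * L : ℝ) ≠ 0 := by positivity
  have h1 : ∀ a, 105600 * L * r * (om s l a * f a) = EE fun ω =>
      f a * r * ∑ v, if IsAt v l a then park (tr Λ H hr) (HE.mu (s.e ω)) v else 0 := by
    intro a
    rw [EE_mul, om]
    field_simp
  rw [Finset.mul_sum, Finset.sum_congr rfl fun a _ => h1 a, ← EE_sum]
  congr 1
  funext ω
  simp only [Finset.mul_sum]
  rw [Finset.sum_comm]
  refine Finset.sum_congr rfl fun a _ => Finset.sum_congr rfl fun v _ => ?_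
  split_ifs
  · ring
  · ring

theorem improve (hL : 1 ≤ L) (hA : Addr Lv hr) {x0 : X} (hT : Tran Lv HE RS x0)
    (s : GS Lv HE RS) {β : (Fin k → X) → ℝ} (hβ : β ∈ stdSimplex ℝ (Fin k → X)) (l : Fin H)
    (t : (Lv l).S) (ht : (Lv l).Mv (s.E l) t) :
    ∃ (s' : GS Lv HE RS) (c' : ℝ), BalAll s' β ∧ Cpl (law x0 s) (law x0 s') c' ∧
      c' + Phi s' β ≤ Phi s β + 105600 * L * (r0 / 2 ^ ((l : ℕ) + 1)) *
        (∑ u, pm β u * (Lv l).g t u +
          1 / 8 * ∑ u, pm β u * dif ((Lv l).lab (s.E l) u) ((Lv l).lab t u) +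
          ∑ a, om s l a * (Lv l).fol (s.E l) t a - ∑ u, pm β u * (Lv l).g (s.E l) u) := by
  classical
  have hterm : ∀ (v : Nd Λ H) (a : Λ), 0 ≤
      if IsAt v l a then (Lv l).fol (s.E l) t a * (r0 / 2 ^ ((l : ℕ) + 1)) else 0 := by
    intro v a
    split_ifs
    · exact mul_nonneg ((Lv l).fol_nonneg _ _ _) (by positivity)
    · exact le_rfl
  obtain ⟨s', c', hE, hb, hc, hle⟩ := hT s β (Function.update s.E l t)
    (fun v => ∑ a, if IsAt v l a then (Lv l).fol (s.E l) t a * (r0 / 2 ^ ((l : ℕ) + 1)) else 0)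
    hβ (fun v => Finset.sum_nonneg fun a _ => hterm v a) (fun v l' a h h1 h2 => by
      by_cases hl : l' = l
      · subst hl
        rw [Function.update_self] at h2 ⊢
        obtain ⟨g1, g2⟩ := (Lv l').mv_pos _ _ a ht h1 h2
        refine ⟨g1.trans ?_, g2⟩
        have h3 := Finset.single_le_sum (fun a _ => hterm v a) (mem_univ a)
        rwa [if_pos h] at h3
      · rw [Function.update_of_ne hl, dist_self]
        exact ⟨Finset.sum_nonneg fun a _ => hterm v a, by positivity⟩)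
  refine ⟨s', c', hb, hc, ?_⟩
  rw [follow_eq hL] at hle
  have h1 := phiH_relabel hL hA s hβ l t
  have h2 := sum_update (fun (i : Fin H) (z : (Lv i).S) =>
    r0 / 2 ^ ((i : ℕ) + 1) * ∑ u, pm β u * (Lv i).g z u) s.E l t
  simp only [Phi, hE]
  rw [h2]
  linarith

theorem reopt (hy : Hy k N X ζ εs r0 L H) (hA : Addr Lv hr) {x0 : X} (hT : Tran Lv HE RS x0) :
    Reopt Lv HE RS x0 := by
  intro s β hβ
  have hL := hy.hL
  have hε := hy.εs_pos
  let A : Set ℝ := {φ | ∃ (s' : GS Lv HE RS) (c' : ℝ), BalAll s' β ∧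
    Cpl (law x0 s) (law x0 s') c' ∧ c' + Phi s' β ≤ Phi s β ∧ φ = Phi s' β}
  have hne : A.Nonempty := by
    obtain ⟨s', c', hE, hb, hc, hle⟩ := hT s β s.E (fun _ => 0) hβ (fun _ => le_rfl)
      (fun v l a _ _ _ => by
        rw [dist_self]
        exact ⟨le_rfl, by positivity⟩)
    refine ⟨_, s', c', hb, hc, ?_, rfl⟩
    simp only [mul_zero, Finset.sum_const_zero, EE, zero_div, add_zero] at hle
    simp only [Phi, hE]
    linarith
  have hbdd : BddBelow A := ⟨0, by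
    rintro φ ⟨s', c', -, -, -, rfl⟩
    exact phi_nonneg hL hA s' hβ⟩
  have hδ : 0 < 105600 * L * (r0 / 2 ^ H) * εs := by positivity
  obtain ⟨φ, ⟨s', c', hb, hc, hle, rfl⟩, hlt⟩ := Real.lt_sInf_add_pos hne hδ
  refine ⟨s', c', ⟨hb, fun l t ht => ?_⟩, hc, hle⟩
  by_contra hcon
  rw [not_le] at hcon
  obtain ⟨s'', c'', hb', hc', hle'⟩ := improve hL hA hT s' hβ l t ht
  have hrl : r0 / 2 ^ H ≤ r0 / 2 ^ ((l : ℕ) + 1) :=
    div_le_div_of_nonneg_left hr.le (by positivity) (pow_le_pow_right₀ one_le_two l.2)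
  have h0 : 0 < 105600 * L * (r0 / 2 ^ ((l : ℕ) + 1)) := by positivity
  have h1 := mul_le_mul_of_nonneg_left (show ∑ u, pm β u * (Lv l).g t u +
      1 / 8 * ∑ u, pm β u * dif ((Lv l).lab (s'.E l) u) ((Lv l).lab t u) +
      ∑ a, om s' l a * (Lv l).fol (s'.E l) t a - ∑ u, pm β u * (Lv l).g (s'.E l) u ≤ -εs by
    linarith) h0.le
  have h2 : 105600 * L * (r0 / 2 ^ H) * εs ≤ 105600 * L * (r0 / 2 ^ ((l : ℕ) + 1)) * εs := by
    gcongr
  have h3 := hc'.nonneg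
  have h4 : sInf A ≤ Phi s'' β :=
    csInf_le hbdd ⟨s'', c' + c'', hb', hc.trans hc', by linarith, rfl⟩
  linarith

end A2

theorem stTran : StTran :=
  fun _ _ _ _ _ _ _ _ _ _ _ _ _ _ _ _ _ _ _ _ _ hy hA x0 => A2.tran hy.diam hA x0

theorem stReopt : StReopt :=
  fun _ _ _ _ _ _ _ _ _ _ _ _ _ _ _ _ _ _ _ _ _ hy hA _ hT => A2.reopt hy hA hT

end Vale.Agent.P304Z.A
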