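import Vale.Agent.P304Z.A0
import Vale.Agent.P304Z.RR.Tree

/-!
# P304Z, global assembly: the parked mass near a point, and the cost of a unit move
-/

set_option linter.unusedVariables false
set_option linter.unusedSectionVars false

open Finset

namespace Vale.Agent.P304Z.A

open Vale.Agent.P304 Vale.Agent.P304.Dyn

namespace A3

open Classical in
/-- the mass parked below depth `d` on an upward closed set of nodes -/
theorem park_up {M : Type} [Fintype M] [DecidableEq M] {T : Tr M} {k : ℕ} {mu : M → ℝ}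
    (h : Flow T k mu) (chi : M → Prop) (hchi : ∀ c, chi c → chi (T.par c)) (d : ℕ) :
    ∑ v ∈ univ.filter (fun v => d ≤ T.dep v ∧ chi v), park T mu v ≤
      ∑ v ∈ univ.filter (fun v => T.dep v = d ∧ chi v), mu v := by
  simp only [park, sum_sub_distrib]
  rw [RR.sum_ch_eq]
  have h1 : ∑ c ∈ univ.filter (fun c => d + 1 ≤ T.dep c ∧ chi c), mu c ≤
      ∑ c ∈ univ.filter (fun c => c ≠ T.root ∧
        T.par c ∈ univ.filter (fun v => d ≤ T.dep v ∧ chi v)), mu c := by
    refine sum_le_sum_of_subset_of_nonneg (fun c hc => ?_) fun c _ _ => h.nonneg c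
    obtain ⟨h2, h3⟩ := (mem_filter.1 hc).2
    have h4 : c ≠ T.root := RR.ne_root T (by omega)
    have h5 := T.dep_par c h4
    simp only [mem_filter, mem_univ, true_and]
    exact ⟨h4, by omega, hchi c h3⟩
  have h2 : ∑ v ∈ univ.filter (fun v => d ≤ T.dep v ∧ chi v), mu v =
      ∑ v ∈ univ.filter (fun v => T.dep v = d ∧ chi v), mu v +
        ∑ c ∈ univ.filter (fun c => d + 1 ≤ T.dep c ∧ chi c), mu c := by
    simp only [sum_filter]
    rw [← sum_add_distrib]
    refine sum_congr rfl fun v _ => ?_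
    by_cases hc : chi v
    · rcases lt_trichotomy (T.dep v) d with h3 | h3 | h3
      · rw [if_neg (by omega), if_neg (by omega), if_neg (by omega), add_zero]
      · rw [if_pos ⟨by omega, hc⟩, if_pos ⟨h3, hc⟩, if_neg (by omega), add_zero]
      · rw [if_pos ⟨by omega, hc⟩, if_neg (by omega), if_pos ⟨by omega, hc⟩, zero_add]
    · simp [hc]
  linarith

section Ball

variable {X : Type} [MetricSpace X] [Fintype X]

theorem ball_mono {p : X → ℝ} (hp : ∀ u, 0 ≤ p u) (x : X) {a b : ℝ} (hab : a ≤ b) :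
    ball p x a ≤ ball p x b := by
  unfold ball
  refine sum_le_sum fun u _ => ?_
  split_ifs with h1 h2
  · exact le_rfl
  · exact absurd (h1.trans hab) h2
  · exact hp u
  · exact le_rfl

theorem ball_le {p : X → ℝ} (hp : ∀ u, 0 ≤ p u) (x : X) (a : ℝ) : ball p x a ≤ ∑ u, p u := by
  unfold ball
  refine sum_le_sum fun u _ => ?_
  split_ifs
  · exact le_rfl
  · exact hp u

theorem ball_nonneg {p : X → ℝ} (hp : ∀ u, 0 ≤ p u) (x : X) (a : ℝ) : 0 ≤ ball p x a := by
  unfold ball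
  refine sum_nonneg fun u _ => ?_
  split_ifs
  · exact hp u
  · exact le_rfl

end Ball

theorem dif_le_one {Ω Λ : Type} [Fintype Ω] [Nonempty Ω] (a b : Ω → Option Λ) : dif a b ≤ 1 := by
  unfold dif
  refine EE_le_of_le fun ω => ?_
  split_ifs
  · exact zero_le_one
  · exact le_rfl

theorem r_anti {r0 : ℝ} (hr : 0 < r0) {l l' : ℕ} (h : l ≤ l') :
    r0 / 2 ^ (l' + 1) ≤ r0 / 2 ^ (l + 1) :=
  div_le_div_of_nonneg_left hr.le (by positivity)
    (pow_le_pow_right₀ one_le_two (Nat.succ_le_succ h))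

variable {X : Type} [MetricSpace X] [Fintype X] [DecidableEq X] {k H N : ℕ} {Λ Ω : Type}
  [Fintype Λ] [DecidableEq Λ] [Fintype Ω] {ζ εs r0 L : ℝ}
  {Lv : (l : Fin H) → Lev X k Λ Ω N ζ εs (r0 / 2 ^ ((l : ℕ) + 1))}
  {hr : 0 < r0} {HE : HEng (tr Λ H hr) k L} {RS : RSys (tr Λ H hr) k X}

theorem om_nonneg (hL : 1 ≤ L) (s : GS Lv HE RS) (l : Fin H) (a : Λ) : 0 ≤ om s l a := by
  unfold om
  refine div_nonneg (EE_nonneg fun ω => sum_nonneg fun v _ => ?_) (by positivity)
  split_ifs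
  · exact RR.park_nonneg (HE.flow _) v
  · exact le_rfl

open Classical in
/-- the mass of the marked nodes of one depth -/
theorem top_le (hA : Addr Lv hr) (s : GS Lv HE RS) {β : (Fin k → X) → ℝ}
    (hβ : β ∈ stdSimplex ℝ (Fin k → X)) (hB : BalAll s β) (x : X) (l : ℕ) (ω : Ω)
    (D : Finset (Nd Λ H)) (hD : ∀ v ∈ D, v.1.length = l + 1 ∧
      ∃ u, cont Lv s.E ω v u ∧ dist x u ≤ 14 * (r0 / 2 ^ (l + 1))) :
    ∑ v ∈ D, HE.mu (s.e ω) v ≤ 6 * ball (pm β) x (64 * (r0 / 2 ^ (l + 1))) := by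
  have h1 : ∀ v, HE.mu (s.e ω) v ≤ 6 * ∑ u, pm β u * if cont Lv s.E ω v u then 1 else 0 := by
    intro v
    rw [← hA.mass s.E ω β hβ v]
    exact HE.mass _ _ (hA.adm s.E ω β hβ) (hB ω) v
  refine (sum_le_sum fun v _ => h1 v).trans ?_
  rw [← mul_sum, sum_comm]
  refine mul_le_mul_of_nonneg_left ?_ (by norm_num)
  unfold ball
  refine sum_le_sum fun u _ => ?_
  rw [← mul_sum]
  have hp := hA.pm_nonneg β hβ u
  by_cases hex : ∃ v ∈ D, cont Lv s.E ω v u
  · obtain ⟨v, hv, hvu⟩ := hex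
    obtain ⟨hv1', u0, hu0, hd0⟩ := hD v hv
    have hv1 : (tr Λ H hr).dep v = l + 1 := hv1'
    have hne : v ≠ (tr Λ H hr).root := RR.ne_root _ (by omega)
    obtain ⟨l0, a, hla⟩ := hA.isAt_ex v hne
    have hl0 : (l0 : ℕ) = l := by
      have := hla.1
      omega
    have e1 := ((Lv l0).lab_pos _ _ _ _ (hA.cont_lab _ _ _ _ _ _ hvu hla)).2
    have e2 := ((Lv l0).lab_pos _ _ _ _ (hA.cont_lab _ _ _ _ _ _ hu0 hla)).2
    have hrl : 0 < r0 / 2 ^ (l + 1) := by positivity
    have e3 : dist x u ≤ 64 * (r0 / 2 ^ (l + 1)) := by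
      have t1 := dist_triangle x u0 u
      have t2 := dist_triangle_right u0 u ((Lv l0).pos (s.E l0) a)
      have e4 : r0 / 2 ^ ((l0 : ℕ) + 1) = r0 / 2 ^ (l + 1) := by rw [hl0]
      linarith
    rw [if_pos e3]
    have e5 : ∑ v' ∈ D, (if cont Lv s.E ω v' u then (1 : ℝ) else 0) = 1 := by
      rw [sum_eq_single_of_mem v hv, if_pos hvu]
      intro v' hv' hne'
      rw [if_neg]
      intro hc
      have hv2 : v'.1.length = l + 1 := (hD v' hv').1
      exact hne' (hA.cont_uniq _ _ _ _ _ hc hvu (by omega))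
    rw [e5, mul_one]
  · have e5 : ∑ v' ∈ D, (if cont Lv s.E ω v' u then (1 : ℝ) else 0) = 0 :=
      sum_eq_zero fun v' hv' => if_neg fun hc => hex ⟨v', hv', hc⟩
    rw [e5, mul_zero]
    split_ifs
    · exact hp
    · exact le_rfl

open Classical in
/-- the bound for one seed -/
theorem seed_le (hA : Addr Lv hr) (s : GS Lv HE RS) {β : (Fin k → X) → ℝ}
    (hβ : β ∈ stdSimplex ℝ (Fin k → X)) (hB : BalAll s β) (x : X) (l : ℕ) (ω : Ω) :
    ∑ l' : Fin H, (if l ≤ (l' : ℕ) then ((Lv l').near (s.E l') x).elim 0 (fun a =>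
        ∑ v, if IsAt v l' a then park (tr Λ H hr) (HE.mu (s.e ω)) v else 0) else 0) ≤
      6 * ball (pm β) x (64 * (r0 / 2 ^ (l + 1))) := by
  obtain ⟨chi, hchi⟩ : ∃ chi : Nd Λ H → Prop, ∀ v, chi v ↔
    ∃ u, cont Lv s.E ω v u ∧ dist x u ≤ 14 * (r0 / 2 ^ (l + 1)) := ⟨_, fun _ => Iff.rfl⟩
  have hF := HE.flow (s.e ω)
  have hup : ∀ c, chi c → chi ((tr Λ H hr).par c) := by
    intro c hc
    obtain ⟨u, h1, h2⟩ := (hchi c).1 hc
    exact (hchi _).2 ⟨u, hA.cont_par _ _ _ _ h1, h2⟩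
  refine le_trans ?_ ((park_up hF chi hup (l + 1)).trans (top_le hA s hβ hB x l ω _
    fun v hv => ⟨(mem_filter.1 hv).2.1, (hchi v).1 (mem_filter.1 hv).2.2⟩))
  have h1 : ∀ l' : Fin H, (if l ≤ (l' : ℕ) then ((Lv l').near (s.E l') x).elim 0 (fun a =>
        ∑ v, if IsAt v l' a then park (tr Λ H hr) (HE.mu (s.e ω)) v else 0) else 0) ≤
      ∑ v : Nd Λ H, if v.1.length = (l' : ℕ) + 1 then
        (if l + 1 ≤ (tr Λ H hr).dep v ∧ chi v then park (tr Λ H hr) (HE.mu (s.e ω)) v else 0)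
        else 0 := by
    intro l'
    have h0 : ∀ v : Nd Λ H, 0 ≤ (if v.1.length = (l' : ℕ) + 1 then
        (if l + 1 ≤ (tr Λ H hr).dep v ∧ chi v then park (tr Λ H hr) (HE.mu (s.e ω)) v else 0)
        else 0) := by
      intro v
      split_ifs
      · exact RR.park_nonneg hF v
      · exact le_rfl
      · exact le_rfl
    split_ifs with hl
    · rcases hn : (Lv l').near (s.E l') x with _ | a
      · exact sum_nonneg fun v _ => h0 v
      · refine sum_le_sum fun v _ => ?_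
        split_ifs with h2 h3 h4
        · exact le_rfl
        · by_contra hpos
          have hpos' : 0 < HE.mu (s.e ω) v := (not_le.1 hpos).trans_le (RR.park_le hF v)
          have hdep : (tr Λ H hr).dep v = (l' : ℕ) + 1 := h3
          obtain ⟨u, hu⟩ := s.real ω v (RR.ne_root _ (by omega)) hpos'
          have e1 := ((Lv l').lab_pos _ _ _ _ (hA.cont_lab _ _ _ _ _ _ hu h2)).2
          have e2 := (Lv l').near_pos _ _ _ hn
          have e3 := r_anti hr hl
          have t := dist_triangle_right x u ((Lv l').pos (s.E l') a)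
          exact h4 ⟨by omega, (hchi v).2 ⟨u, hu, by linarith⟩⟩
        · exact absurd h2.1 h3
        · exact RR.park_nonneg hF v
        · exact le_rfl
        · exact le_rfl
    · exact sum_nonneg fun v _ => h0 v
  refine (sum_le_sum fun l' _ => h1 l').trans ?_
  rw [sum_comm, sum_filter]
  refine sum_le_sum fun v _ => ?_
  have h0 : 0 ≤ (if l + 1 ≤ (tr Λ H hr).dep v ∧ chi v then park (tr Λ H hr) (HE.mu (s.e ω)) v
      else 0) := by
    split_ifs
    · exact RR.park_nonneg hF v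
    · exact le_rfl
  by_cases hex : ∃ l' : Fin H, v.1.length = (l' : ℕ) + 1
  · obtain ⟨l', hl'⟩ := hex
    rw [sum_eq_single_of_mem l' (mem_univ _), if_pos hl']
    intro l'' _ hne
    exact if_neg fun h => hne (Fin.ext (by omega))
  · rw [sum_eq_zero fun l' _ => if_neg fun h => hex ⟨l', h⟩]
    exact h0

end A3

open A3

theorem stParked : StParked := by
  intro X _ _ _ k H N Λ Ω _ _ _ _ ζ εs r0 L Lv hr HE RS hy hA s β hβ hB x l
  classical
  have hL := hy.hL
  have hpos : 0 < 105600 * L := by positivity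
  have e : ∑ l' : Fin H, (if l ≤ (l' : ℕ) then ((Lv l').near (s.E l') x).elim 0 (om s l') else 0)
      = (EE fun ω => ∑ l' : Fin H, (if l ≤ (l' : ℕ) then ((Lv l').near (s.E l') x).elim 0
        (fun a => ∑ v, if IsAt v l' a then park (tr Λ H hr) (HE.mu (s.e ω)) v else 0) else 0)) /
        (105600 * L) := by
    rw [EE_sum, sum_div]
    refine sum_congr rfl fun l' _ => ?_
    split_ifs with hl
    · rcases (Lv l').near (s.E l') x with _ | a
      · simp [EE]
      · simp only [Option.elim, om]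
    · simp [EE]
  rw [e, div_le_iff₀ hpos]
  have h1 := EE_le_of_le fun ω => seed_le hA s hβ hB x l ω
  have h2 := ball_nonneg (hA.pm_nonneg β hβ) x (64 * (r0 / 2 ^ (l + 1)))
  refine le_trans (le_of_eq ?_) (h1.trans ?_)
  · congr
  · nlinarith

theorem stLevels (hT : Tel) : StLevels := by
  intro X _ _ _ k H N Λ Ω _ _ _ _ ζ εs r0 L Lv hr HE RS hy hA hP s β hβ hO x r a hd hζ ha hab
  classical
  set d := dist x r with hdd
  set p := pm β with hp
  have hp0 : ∀ u, 0 ≤ p u := hA.pm_nonneg β hβ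
  have hpk : ∑ u, p u = k := hA.pm_sum β hβ
  have hN : (0 : ℝ) < N := by exact_mod_cast hy.hN
  have hk : (1 : ℝ) ≤ k := by exact_mod_cast hy.hk
  have hd0 : 0 < d := lt_of_lt_of_le (div_pos hr hN) hd
  have hlg : 0 ≤ lgk k := Real.log_nonneg (by linarith)
  have hb1 : ∀ ρ, a ≤ ball p x (max ρ (2 * d)) := fun ρ =>
    hab.trans (ball_mono hp0 x (le_max_right _ _))
  have hb2 : ∀ ρ, ball p x ρ ≤ k := fun ρ => hpk ▸ ball_le hp0 x ρ
  have hak : a ≤ k := hab.trans (hb2 _)
  set μ : ℝ → ℝ := fun ρ => Real.log (ball p x (max ρ (2 * d))) with hμ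
  have hμm : Monotone μ := fun ρ ρ' h =>
    Real.log_le_log (ha.trans_le (hb1 ρ)) (ball_mono hp0 x (max_le_max_right _ h))
  have hμb : ∀ ρ, Real.log a ≤ μ ρ ∧ μ ρ ≤ Real.log k := fun ρ =>
    ⟨Real.log_le_log ha (hb1 ρ), Real.log_le_log (ha.trans_le (hb1 ρ)) (hb2 _)⟩
  set A : ℕ → ℝ := fun l => (∑ i ∈ range N,
    (μ (64 * (r0 / 2 ^ (l + 1))) - μ (((i : ℝ) + 1) / N * (r0 / 2 ^ (l + 1))))) / N with hAdef
  have hA0 : ∀ l, 0 ≤ A l := by
    intro l
    refine div_nonneg (sum_nonneg fun i hi => sub_nonneg.2 (hμm ?_)) hN.le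
    have h1 : ((i : ℝ) + 1) / N ≤ 64 := by
      rw [div_le_iff₀ hN]
      have : ((i : ℝ) + 1) ≤ N := by exact_mod_cast mem_range.1 hi
      linarith
    exact mul_le_mul_of_nonneg_right h1 (by positivity)
  have hAs : ∑ l ∈ range H, A l ≤ 9 * (Real.log k - Real.log a) :=
    hT.bud μ _ _ r0 N H hμm hμb hr hy.hN
  set M : ℕ → ℝ := fun l => ball p x (max (64 * (r0 / 2 ^ (l + 1))) (2 * d)) with hM
  set o : ℕ → ℝ := fun l =>
    if h : l < H then ((Lv ⟨l, h⟩).near (s.E ⟨l, h⟩) x).elim 0 (om s ⟨l, h⟩) else 0 with ho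
  have hoF : ∀ l : Fin H, o l = ((Lv l).near (s.E l) x).elim 0 (om s l) := fun l => by
    simp only [ho, dif_pos l.2]
  have ho0 : ∀ l, 0 ≤ o l := by
    intro l
    simp only [ho]
    split_ifs with h
    · rcases (Lv ⟨l, h⟩).near (s.E ⟨l, h⟩) x with _ | b
      · exact le_rfl
      · exact om_nonneg hy.hL s _ b
    · exact le_rfl
  have hMa : Antitone M := fun l l' h =>
    ball_mono hp0 x (max_le_max_right _ (mul_le_mul_of_nonneg_left (r_anti hr h) (by norm_num)))
  have hoM : ∀ l, ∑ l' ∈ Ico l H, o l' ≤ 6 * M l := by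
    intro l
    have h1 := hP s β hβ hO.1 x l
    have h2 : ∑ l' ∈ Ico l H, o l' = ∑ l' : Fin H,
        (if l ≤ (l' : ℕ) then ((Lv l').near (s.E l') x).elim 0 (om s l') else 0) := by
      simp only [← hoF]
      rw [Fin.sum_univ_eq_sum_range (fun l' => if l ≤ l' then o l' else 0) H, ← sum_filter]
      refine sum_congr ?_ fun _ _ => rfl
      ext l'
      simp only [mem_Ico, mem_filter, mem_range]
      exact and_comm
    have h3 : ball p x (64 * (r0 / 2 ^ (l + 1))) ≤ M l := ball_mono hp0 x (le_max_left _ _)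
    rw [h2]
    linarith
  have hos : ∑ l ∈ range H, o l / M l ≤ 6 * (1 + Real.log (k / a)) :=
    hT.abel H M o a k 6 ha hak (by norm_num) (fun l => ⟨hb1 _, hb2 _⟩) hMa ho0 hoM
  have hgs := hT.geo_small H r0 d hr hd0.le
  have hgl := hT.geo_large H r0 d hr hd0.le
  set B : ℕ → ℝ := fun l => 2000000 * d * (ζ + A l + o l / M l +
      (if d ≤ r0 / 2 ^ (l + 1) / 8 then d / (r0 / 2 ^ (l + 1)) else 0) * lgk k) +
      (if d ≤ r0 / 2 ^ (l + 1) / 8 then 0 else r0 / 2 ^ (l + 1)) * (10 + 3 * lgk k) with hB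
  have key : ∀ l : Fin H, r0 / 2 ^ ((l : ℕ) + 1) *
      (dif ((Lv l).lab (s.E l) x) ((Lv l).lab (s.E l) r) + (Lv l).g (s.E l) r -
        (Lv l).g (s.E l) x) ≤ B l := by
    intro l
    have hrl : 0 < r0 / 2 ^ ((l : ℕ) + 1) := by positivity
    simp only [hB]
    split_ifs with hs
    · have h1 : r0 / 2 ^ ((l : ℕ) + 1) / N ≤ d := by
        refine le_trans (div_le_div_of_nonneg_right ?_ hN.le) hd
        exact div_le_self hr.le (one_le_pow₀ one_le_two)
      have h2 := (Lv l).small p (om s l) (s.E l) x r hp0 hpk (om_nonneg hy.hL s l) (hO.2 l) hζ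
        h1 hs
      have h3 : max (64 * (r0 / 2 ^ ((l : ℕ) + 1))) (2 * d) = 64 * (r0 / 2 ^ ((l : ℕ) + 1)) :=
        max_eq_left (by linarith)
      have h4 : Bud N p x (r0 / 2 ^ ((l : ℕ) + 1)) d = A l := by
        simp only [hAdef, hμ, Bud, h3]
      have h5 : M l = ball p x (64 * (r0 / 2 ^ ((l : ℕ) + 1))) := by
        simp only [hM, h3]
      rw [← hdd, h4, ← h5, ← hoF] at h2
      refine (mul_le_mul_of_nonneg_left h2 hrl.le).trans (le_of_eq ?_)
      generalize r0 / 2 ^ ((l : ℕ) + 1) = ρ at hrl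
      generalize o l / M l = t
      field_simp
      ring
    · have h1 := dif_le_one ((Lv l).lab (s.E l) x) ((Lv l).lab (s.E l) r)
      have h2 := (Lv l).g_le (s.E l) r
      have h3 := (Lv l).g_nonneg (s.E l) x
      have h4 : 0 ≤ 2000000 * d * (ζ + A l + o l / M l + 0 * lgk k) := by
        have := hy.ζ_pos
        have := hA0 l
        have := div_nonneg (ho0 l) (ha.le.trans (hb1 (64 * (r0 / 2 ^ ((l : ℕ) + 1)))))
        have h5 : 0 ≤ ζ + A l + o l / M l + 0 * lgk k := by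
          simp only [hM]
          linarith
        positivity
      have h5 := mul_le_mul_of_nonneg_left (show dif ((Lv l).lab (s.E l) x) ((Lv l).lab (s.E l) r) +
        (Lv l).g (s.E l) r - (Lv l).g (s.E l) x ≤ 10 + 3 * lgk k by linarith) hrl.le
      linarith
  refine (sum_le_sum fun l _ => key l).trans ?_
  rw [Fin.sum_univ_eq_sum_range B H]
  simp only [hB]
  rw [sum_add_distrib, ← mul_sum, ← sum_mul, sum_add_distrib, sum_add_distrib, sum_add_distrib,
    ← sum_mul, sum_const, card_range, nsmul_eq_mul]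
  have hlog : Real.log (k / a) = Real.log k - Real.log a := Real.log_div (by linarith) ha.ne'
  refine add_le_add (mul_le_mul_of_nonneg_left ?_ (by positivity))
    (mul_le_mul_of_nonneg_right hgl (by linarith))
  have h6 := mul_le_mul_of_nonneg_right hgs hlg
  linarith

end Vale.Agent.P304Z.A
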