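import Vale.Agent.P304Z.A5

/-!
# P304Z, global assembly: the move of a hidden server
-/

open Finset

namespace Vale.Agent.P304Z.A

open Vale.Agent.P304 Vale.Agent.P304.Dyn A5

namespace A4

theorem lgk_le {k : ℕ} (hk : 1 ≤ k) : lgk k ≤ 8 + Real.log k := by
  have h1 : (0 : ℝ) < k := by exact_mod_cast hk
  have h2 : Real.log 2000 ≤ Real.log (2 ^ 11) := Real.log_le_log (by norm_num) (by norm_num)
  rw [Real.log_pow] at h2
  have h3 := Real.log_two_lt_d9
  rw [lgk, Real.log_mul (by norm_num) h1.ne']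
  push_cast at h2
  linarith

theorem dif_nonneg {Ω Λ : Type} [Fintype Ω] (a b : Ω → Option Λ) : 0 ≤ dif a b :=
  EE_nonneg fun ω => by split_ifs <;> norm_num

theorem dif_le {Ω Λ : Type} [Fintype Ω] [Nonempty Ω] (a b : Ω → Option Λ) : dif a b ≤ 1 :=
  EE_le_of_le fun ω => by split_ifs <;> norm_num

theorem dif_self {Ω Λ : Type} [Fintype Ω] (a : Ω → Option Λ) : dif a a = 0 := by
  simp [dif, EE]

variable {X : Type} [MetricSpace X] [Fintype X] [DecidableEq X] {k H N : ℕ} {Λ Ω : Type}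
  [Fintype Λ] [DecidableEq Λ] [Fintype Ω] {ζ εs r0 L : ℝ}
  {Lv : (l : Fin H) → Lev X k Λ Ω N ζ εs (r0 / 2 ^ ((l : ℕ) + 1))}
  {hr : 0 < r0} {HE : HEng (tr Λ H hr) k L} {RS : RSys (tr Λ H hr) k X}

/-- the cost of a unit move -/
noncomputable def T (s : GS Lv HE RS) (r x : X) : ℝ := ∑ l : Fin H, r0 / 2 ^ ((l : ℕ) + 1) *
  (dif ((Lv l).lab (s.E l) x) ((Lv l).lab (s.E l) r) + (Lv l).g (s.E l) r - (Lv l).g (s.E l) x)

/-- the law of the point which is left -/
noncomputable def qq (Q : (Fin k → X) × Fin k → ℝ) (x : X) : ℝ :=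
  ∑ z, if z.1 z.2 = x then Q z else 0

omit [MetricSpace X] in
theorem sum_qq (Q : (Fin k → X) × Fin k → ℝ) (f : X → ℝ) :
    ∑ x, qq Q x * f x = ∑ z, Q z * f (z.1 z.2) := by
  simp only [qq, sum_mul, ite_mul, zero_mul]
  rw [sum_comm]
  simp only [sum_ite_eq, mem_univ, if_true]

omit [MetricSpace X] in
theorem qq_le {Q : (Fin k → X) × Fin k → ℝ} (hQ : ∀ z, 0 ≤ Q z) (x : X) :
    qq Q x ≤ pm (pre Q) x := by
  classical
  rw [pm, sum_pre]
  refine sum_le_sum fun z _ => ?_
  split_ifs with h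
  · refine le_mul_of_one_le_right (hQ z) ?_
    unfold oc
    refine le_trans ?_ (single_le_sum (fun j _ => ?_) (mem_univ z.2))
    · rw [if_pos h]
    · split_ifs <;> norm_num
  · exact mul_nonneg (hQ z) (oc_nonneg _ _)

theorem step1 [Nonempty Ω] (hL : 0 ≤ L) (A : Addr Lv hr) (s : GS Lv HE RS)
    {Q : (Fin k → X) × Fin k → ℝ} (r : X) (hQ : Q ∈ stdSimplex ℝ ((Fin k → X) × Fin k)) :
    Phi s (post Q r) ≤ Phi s (pre Q) + 105600 * L * ∑ z, Q z * T s r (z.1 z.2) := by
  set D := ∑ z, Q z * ∑ l : Fin H, r0 / 2 ^ ((l : ℕ) + 1) *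
    dif ((Lv l).lab (s.E l) (z.1 z.2)) ((Lv l).lab (s.E l) r) with hD
  have hD0 : 0 ≤ D := sum_nonneg fun z _ => mul_nonneg (hQ.1 z) (sum_nonneg fun l _ =>
    mul_nonneg (by positivity) (dif_nonneg _ _))
  have h1 := EE_mono fun ω => (HE.lip (s.e ω) _ _ (A.adm s.E ω _ (pre_mem hQ)).box
    (A.adm s.E ω _ (post_mem hQ r)).box).trans
      (add_le_add le_rfl (mul_le_mul_of_nonneg_left (A.move s.E ω r Q hQ) hL))
  rw [EE_add] at h1
  simp only [EE_mul, EE_sum] at h1
  replace h1 := h1.trans_eq (congrArg (fun t => _ + L * (4 * t)) (show _ = D from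
    sum_congr rfl fun z _ => congrArg _ (sum_congr rfl fun l _ => congrArg _ (by
      unfold dif; congr; funext ω; congr))))
  have h2 : ∀ g : X → ℝ, ∑ u, pm (post Q r) u * g u =
      ∑ u, pm (pre Q) u * g u + ∑ z, Q z * (g r - g (z.1 z.2)) := fun g => by
    rw [A.pm_mul, A.pm_mul, sum_pre, sum_post, ← sum_add_distrib]
    refine sum_congr rfl fun z _ => ?_
    rw [← mul_add, ← add_sum_erase _ _ (mem_univ z.2), ← add_sum_erase _ _ (mem_univ z.2),
      Function.update_self, sum_congr rfl fun i hi => by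
        rw [Function.update_of_ne (ne_of_mem_erase hi)]]
    ring
  have h3 : ∑ z, Q z * T s r (z.1 z.2) = D + ∑ l : Fin H, r0 / 2 ^ ((l : ℕ) + 1) *
      ∑ z, Q z * ((Lv l).g (s.E l) r - (Lv l).g (s.E l) (z.1 z.2)) := by
    simp only [hD, T, mul_sum]
    rw [sum_comm (s := (univ : Finset (Fin H))), ← sum_add_distrib]
    refine sum_congr rfl fun z _ => ?_
    rw [← sum_add_distrib]
    exact sum_congr rfl fun l _ => by ring
  simp only [Phi, PhiH, h2, h3, mul_add, sum_add_distrib]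
  nlinarith [mul_nonneg hL hD0]

theorem T_le [Nonempty Ω] (hk : 1 ≤ k) (s : GS Lv HE RS) (r x : X) :
    T s r x ≤ r0 * (10 + 3 * lgk k) := by
  have h0 := lgk_nonneg hk
  refine le_trans (sum_le_sum fun l _ => ?_)
    ((sum_mul _ _ _).symm.trans_le (mul_le_mul_of_nonneg_right (geo H hr.le) (by positivity)))
  refine mul_le_mul_of_nonneg_left ?_ (by positivity)
  linarith [dif_le ((Lv l).lab (s.E l) x) ((Lv l).lab (s.E l) r), (Lv l).g_le (s.E l) r,
    (Lv l).g_nonneg (s.E l) x]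

end A4

open A4

theorem stMove (hT : Tel) : StMove := by
  classical
  intro X _ _ _ k H N Λ Ω _ _ _ _ ζ εs r0 L Lv hr HE RS hy A hLev s Q r hQ ho
  have hL : 0 ≤ L := zero_le_one.trans hy.hL
  have hk : (1 : ℝ) ≤ k := by exact_mod_cast hy.hk
  have hζ := hy.ζ_pos
  have hl0 := lgk_nonneg hy.hk
  have hl1 := lgk_le hy.hk
  have hl2 := Real.log_nonneg hk
  have hq0 : ∀ x, 0 ≤ qq Q x := fun x => sum_nonneg fun z _ => by
    split_ifs
    exacts [hQ.1 z, le_rfl]
  have hq1 : ∑ x, qq Q x = 1 := by simpa [hQ.2] using sum_qq Q fun _ => 1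
  set a : X → ℝ := fun x => ∑ y, if dist y r ≤ dist x r then qq Q y else 0 with ha
  have ha0 : ∀ x, qq Q x ≤ a x := fun x => by
    refine le_trans ?_ (single_le_sum (f := fun y => if dist y r ≤ dist x r then qq Q y else 0)
      (fun y _ => ?_) (mem_univ x))
    · rw [if_pos le_rfl]
    · split_ifs
      exacts [hq0 y, le_rfl]
  have ha1 : ∀ x, a x ≤ 1 := fun x => hq1 ▸ sum_le_sum fun y _ => by
    split_ifs
    exacts [le_rfl, hq0 y]
  have ha2 : ∀ x, a x ≤ ball (pm (pre Q)) x (2 * dist x r) := fun x => sum_le_sum fun y _ => by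
    have h1 := (hq0 y).trans (qq_le hQ.1 y)
    split_ifs with h2 h3 h3
    · exact qq_le hQ.1 y
    · exact absurd (by linarith [dist_triangle_right x y r]) h3
    · exact h1
    · exact le_rfl
  have key : ∀ x, qq Q x * T s r x ≤ 70000000 * (1 + Real.log k) * (qq Q x * dist x r) +
      30000000 * (qq Q x * dist x r * Real.log (1 / a x)) + 2000000 * r0 * H * ζ * qq Q x +
        r0 * (10 + 3 * lgk k) * ζ := fun x => by
    have h0 := hq0 x
    have h1 : 0 ≤ qq Q x * dist x r * Real.log (1 / a x) := by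
      rcases h0.eq_or_lt with h | h
      · rw [← h, zero_mul, zero_mul]
      · exact mul_nonneg (by positivity)
          (Real.log_nonneg (one_le_one_div (h.trans_le (ha0 x)) (ha1 x)))
    have h2 : 0 ≤ 70000000 * (1 + Real.log k) * (qq Q x * dist x r) := by positivity
    have h3 : 0 ≤ 2000000 * r0 * H * ζ * qq Q x := by positivity
    have h4 : 0 ≤ r0 * (10 + 3 * lgk k) := by positivity
    by_cases hx : x = r
    · have : T s r x = 0 := by simp [T, hx, dif_self]
      rw [this, mul_zero]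
      positivity
    rcases le_total (qq Q x) ζ with h5 | h5
    · have h6 := mul_le_mul_of_nonneg_left (T_le hy.hk s r x) h0
      nlinarith [mul_le_mul_of_nonneg_left h5 h4]
    have h6 := hζ.trans_le (h5.trans (ha0 x))
    have h7 := hLev s _ (pre_mem hQ) ho x r (a x) (hy.sepN x r hx) (h5.trans (qq_le hQ.1 x)) h6
      (ha2 x)
    rw [div_eq_mul_one_div (k : ℝ), Real.log_mul (by positivity) (by positivity)] at h7
    have h8 : T s r x ≤ 70000000 * (1 + Real.log k) * dist x r +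
        30000000 * (dist x r * Real.log (1 / a x)) + 2000000 * r0 * H * ζ := by
      refine h7.trans ?_
      have d0 : 0 ≤ dist x r := dist_nonneg
      have h9 : dist x r * (H * ζ) ≤ r0 * (H * ζ) :=
        mul_le_mul_of_nonneg_right (hy.diam x r) (by positivity)
      nlinarith [mul_le_mul_of_nonneg_left hl1 d0, mul_nonneg d0 hl2]
    nlinarith [mul_le_mul_of_nonneg_left h8 h0, mul_nonneg h4 hζ.le]
  have h1 := sum_le_sum fun x (_ : x ∈ univ) => key x
  have h2 := hT.cheb X (qq Q) (fun x => dist x r) hq0 hq1 fun _ => dist_nonneg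
  simp only [sum_add_distrib, ← mul_sum, hq1, sum_const, card_univ, nsmul_eq_mul] at h1
  have h3 : 0 ≤ ∑ x, qq Q x * dist x r := sum_nonneg fun x _ => mul_nonneg (hq0 x) dist_nonneg
  have h4 : ∑ x, qq Q x * T s r x ≤ 100000000 * (1 + Real.log k) * ∑ x, qq Q x * dist x r +
      (2000000 * r0 * H + Fintype.card X * r0 * (10 + 3 * lgk k)) * ζ := by
    have h5 : ∑ x, qq Q x * dist x r * Real.log (1 / a x) ≤ ∑ x, qq Q x * dist x r := by
      convert h2
    nlinarith [mul_nonneg hl2 h3]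
  rw [sum_qq, sum_qq Q fun x => dist x r] at h4
  have h5 := mul_le_mul_of_nonneg_left h4 (by positivity : 0 ≤ 105600 * L)
  linarith [step1 hL A s r hQ]

end Vale.Agent.P304Z.A
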