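import Vale.Agent.P304Z.A0
import Vale.Agent.P304Z.Cpl

/-!
# P304Z, global assembly: the remaining fields of the engine
-/

open Finset

namespace Vale.Agent.P304Z.A

open Vale.Agent.P304 Vale.Agent.P304.Dyn

namespace A5

theorem geo (H : ℕ) {r0 : ℝ} (hr : 0 ≤ r0) : ∑ l : Fin H, r0 / 2 ^ ((l : ℕ) + 1) ≤ r0 := by
  have h : ∀ n : ℕ, ∑ l ∈ range n, r0 / 2 ^ (l + 1) = r0 - r0 / 2 ^ n := fun n => by
    induction n with
    | zero => simp
    | succ n ih => rw [sum_range_succ, ih, pow_succ]; field_simp; ring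
  rw [Fin.sum_univ_eq_sum_range (fun l => r0 / 2 ^ (l + 1)), h]
  exact sub_le_self _ (by positivity)

theorem lgk_nonneg {k : ℕ} (hk : 1 ≤ k) : 0 ≤ lgk k := by
  have : (1 : ℝ) ≤ k := by exact_mod_cast hk
  exact Real.log_nonneg (by linarith)

variable {X : Type} [MetricSpace X] [Fintype X] [DecidableEq X] {k H N : ℕ} {Λ Ω : Type}
  [Fintype Λ] [DecidableEq Λ] [Fintype Ω] {ζ εs r0 L : ℝ}
  {Lv : (l : Fin H) → Lev X k Λ Ω N ζ εs (r0 / 2 ^ ((l : ℕ) + 1))}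
  {hr : 0 < r0} {HE : HEng (tr Λ H hr) k L} {RS : RSys (tr Λ H hr) k X}

theorem om_nonneg (hL : 0 ≤ L) (s : GS Lv HE RS) (l : Fin H) (a : Λ) : 0 ≤ om s l a := by
  refine div_nonneg (EE_nonneg fun ω => sum_nonneg fun v _ => ?_) (by positivity)
  split_ifs
  · exact sub_nonneg.2 ((HE.flow _).sub v)
  · exact le_rfl

omit [DecidableEq Λ] in
theorem rk_lin (E : ES Lv) (ω : Ω) (β β' : (Fin k → X) → ℝ) (a b : ℝ) :
    rk Lv E ω (a • β + b • β') = a • rk Lv E ω β + b • rk Lv E ω β' := by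
  funext v j
  simp only [rk, Pi.add_apply, Pi.smul_apply, smul_eq_mul, add_mul, sum_add_distrib, mul_sum,
    mul_assoc]

omit [MetricSpace X] in
theorem pm_lin (β β' : (Fin k → X) → ℝ) (a b : ℝ) (u : X) :
    pm (a • β + b • β') u = a * pm β u + b * pm β' u := by
  simp only [pm, Pi.add_apply, Pi.smul_apply, smul_eq_mul, add_mul, sum_add_distrib, mul_sum,
    mul_assoc]

theorem concave (A : Addr Lv hr) (s : GS Lv HE RS) :
    ConcaveOn ℝ (stdSimplex ℝ (Fin k → X)) (Phi s) := by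
  refine ⟨convex_stdSimplex _ _, fun β hβ β' hβ' a b ha hb hab => ?_⟩
  have h1 := EE_mono fun ω => (HE.concave (s.e ω)).2 (A.adm s.E ω β hβ).box
    (A.adm s.E ω β' hβ').box ha hb hab
  simp only [smul_eq_mul] at h1
  rw [EE_add, EE_mul, EE_mul] at h1
  have h2 : ∑ l : Fin H, r0 / 2 ^ ((l : ℕ) + 1) * ∑ u, pm (a • β + b • β') u * (Lv l).g (s.E l) u =
      a * ∑ l : Fin H, r0 / 2 ^ ((l : ℕ) + 1) * ∑ u, pm β u * (Lv l).g (s.E l) u +
        b * ∑ l : Fin H, r0 / 2 ^ ((l : ℕ) + 1) * ∑ u, pm β' u * (Lv l).g (s.E l) u := by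
    simp only [pm_lin, mul_sum, ← sum_add_distrib]
    exact sum_congr rfl fun l _ => sum_congr rfl fun u _ => by ring
  simp only [Phi, PhiH, smul_eq_mul, rk_lin, h2]
  linarith

theorem cover (hy : Hy k N X ζ εs r0 L H) (A : Addr Lv hr) (x0 : X) (s : GS Lv HE RS)
    (β : (Fin k → X) → ℝ) (r : X) (hβ : β ∈ stdSimplex ℝ (Fin k → X)) (ho : Opt s β)
    (hc : ∀ x, β x ≠ 0 → ∃ i, x i = r) (y : Fin k → X) (h : law x0 s y ≠ 0) : ∃ i, y i = r := by
  classical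
  have h1 : 1 ≤ pm β r := by
    rw [← hβ.2]
    refine sum_le_sum fun x _ => ?_
    by_cases h0 : β x = 0
    · rw [h0, zero_mul]
    obtain ⟨i, hi⟩ := hc x h0
    refine le_mul_of_one_le_right (hβ.1 x) ?_
    unfold oc
    refine le_trans ?_ (single_le_sum (fun j _ => ?_) (mem_univ i))
    · rw [if_pos hi]
    · split_ifs <;> norm_num
  obtain ⟨ω, -, hω⟩ := exists_ne_zero_of_sum_ne_zero (div_ne_zero_iff.1 h).1
  obtain ⟨Y, hY, rfl⟩ := push_supp _ _ _ hω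
  obtain ⟨v, hv, hvr⟩ := A.cont_full s.E ω r fun l => (Lv l).cover _ _ _ r (A.pm_nonneg β hβ)
    (A.pm_sum β hβ) (om_nonneg (zero_le_one.trans hy.hL) s l) (ho.2 l) h1 ω
  have h2 : rk Lv s.E ω β v ⟨0, hy.hk⟩ = 1 := by
    rw [← hβ.2]
    refine sum_congr rfl fun x _ => ?_
    by_cases h0 : β x = 0
    · rw [h0, zero_mul]
    obtain ⟨i, hi⟩ := hc x h0
    rw [if_pos, mul_one]
    exact card_pos.2 ⟨i, mem_filter.2 ⟨mem_univ _, hi ▸ hvr⟩⟩
  have h3 := HE.cover _ _ (A.adm s.E ω β hβ) (ho.1 ω) v _ h2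
  obtain ⟨i, hi⟩ := RS.cover _ _ (s.rb ω) v (by rwa [park, A.ch_leaf v hv, sum_empty, sub_zero]) Y hY
  obtain ⟨l, a, hl⟩ := A.isAt_ex v fun h0 => by
    have := hy.hH
    rw [h0] at hv
    exact absurd hv (by change 0 ≠ H; omega)
  have h4 := ((Lv l).lab_pos _ _ _ _ (A.cont_lab s.E ω v r l a hvr hl)).2
  refine ⟨i, ?_⟩
  dsimp only
  rw [hi, A.loc_at x0 s.E v l a hl]
  by_contra hne
  have h5 := hy.sepH _ _ (Ne.symm hne)
  exact absurd (h4.trans_eq (by rw [← hl.1, hv])) (not_le.2 h5)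

end A5

open A5

theorem stRest : StRest := by
  intro X _ _ _ k H N Λ Ω _ _ _ _ ζ εs r0 L Lv hr HE RS hy A x0
  have hL : 0 ≤ L := zero_le_one.trans hy.hL
  refine ⟨fun s => ⟨fun y => EE_nonneg fun ω => (push_mem _ (RS.mem _ _ (s.rb ω))).1 y, ?_⟩,
    fun s β hβ => ?_, ?_, concave A, cover hy A x0⟩
  · unfold law
    rw [← EE_sum]
    simp only [fun ω => (push_mem (loc Lv x0 s.E) (RS.mem _ _ (s.rb ω))).2, EE_const]
  · refine add_nonneg (mul_nonneg (by norm_num) (EE_nonneg fun ω =>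
      HE.Φ_nonneg _ _ (A.adm s.E ω β hβ).box)) (mul_nonneg (by positivity) ?_)
    exact sum_nonneg fun l _ => mul_nonneg (by positivity) (sum_nonneg fun u _ =>
      mul_nonneg (A.pm_nonneg β hβ u) ((Lv l).g_nonneg _ u))
  · obtain ⟨ν, hν⟩ := RS.init _ (HE.flow HE.e0).root HE.mu_e0
    refine ⟨⟨fun l => (Lv l).s0, fun _ => HE.e0, fun _ => ν, fun _ => hν, fun ω v hv h =>
      absurd (HE.mu_e0 v hv) h.ne'⟩, fun β hβ => add_le_add ?_ ?_⟩
    · refine mul_le_mul_of_nonneg_left (EE_le_of_le fun ω => ?_) (by norm_num)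
      simpa [tr] using HE.Φ_e0 _ (A.adm (fun l => (Lv l).s0) ω β hβ)
    · have h0 := lgk_nonneg hy.hk
      refine mul_le_mul_of_nonneg_left (le_trans (sum_le_sum fun l _ => ?_)
        ((sum_mul _ _ _).symm.trans_le (mul_le_mul_of_nonneg_right (geo H hr.le) (by positivity))))
        (by positivity)
      refine mul_le_mul_of_nonneg_left ?_ (by positivity)
      rw [← A.pm_sum β hβ, sum_mul]
      exact sum_le_sum fun u _ => mul_le_mul_of_nonneg_left ((Lv l).g_le _ u) (A.pm_nonneg β hβ u)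

end Vale.Agent.P304Z.A
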