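import Vale.Agent.P304Z.A0

/-!
# P304Z: choice of the parameters and construction of the engine
-/

open Finset

namespace Vale.Agent.P304Z.A

open Vale.Agent.P304 Vale.Agent.P304.Dyn

/-- the Lipschitz constant of a tree engine may be enlarged -/
def A6.mono {N : Type} [Fintype N] [DecidableEq N] {T : Tr N} {k : ℕ} {L L' : ℝ}
    (h : HEng T k L) (hL : L ≤ L') : HEng T k L' where
  S := h.S
  mu := h.mu
  Φ := h.Φ
  Bal := h.Bal
  e0 := h.e0
  flow := h.flow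
  mu_e0 := h.mu_e0
  Φ_e0 q hq := (h.Φ_e0 q hq).trans (mul_le_mul_of_nonneg_right
    (mul_le_mul_of_nonneg_right hL (Nat.cast_nonneg k)) (T.rho_pos 0).le)
  Φ_nonneg := h.Φ_nonneg
  concave := h.concave
  lip e q q' hq hq' := (h.lip e q q' hq hq').trans (by
    have : 0 ≤ qd T q q' := Finset.sum_nonneg fun v _ =>
      mul_nonneg (T.rho_pos _).le (Finset.sum_nonneg fun j _ => abs_nonneg _)
    have := mul_le_mul_of_nonneg_right hL this
    linarith)
  step := h.step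
  mass := h.mass
  cover := h.cover

theorem stGlob (hH : StH) (hR : StRR) (hLev : StLev) (hA : StAddr) (hT : StTran) (hRe : StReopt)
    (hP : StParked) (hL : StLevels) (hM : StMove) (hRest : StRest) : StGlob := by
  classical
  obtain ⟨C, hC, hH⟩ := hH
  refine ⟨105600 * (C + 1) * 100000000, by positivity, fun k hk X _ _ _ _ => ?_⟩
  have hk1 : (1 : ℝ) ≤ k := by exact_mod_cast hk
  have hlog : 0 ≤ Real.log k := Real.log_nonneg hk1
  set L : ℝ := (C + 1) * (1 + Real.log k) with hLdef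
  have hL1 : 1 ≤ L := by rw [hLdef]; nlinarith
  have hCL : C * (1 + Real.log k) ≤ L := by rw [hLdef]; nlinarith
  obtain ⟨δ, hδ, hsep⟩ := exists_delta X
  obtain ⟨D0, hD0⟩ := (Set.finite_range fun z : X × X => dist z.1 z.2).bddAbove
  set r0 : ℝ := max D0 1 with hr0
  have hr : 0 < r0 := lt_of_lt_of_le one_pos (le_max_right _ _)
  have hdiam : ∀ x y : X, dist x y ≤ r0 := fun x y =>
    (hD0 ⟨(x, y), rfl⟩).trans (le_max_left _ _)
  obtain ⟨H0, hH0⟩ := pow_unbounded_of_one_lt (11 * r0 / δ) (one_lt_two (α := ℝ))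
  set H : ℕ := H0 + 1 with hHdef
  have hsepH : 11 * (r0 / 2 ^ H) < δ := by
    have h1 : (2 : ℝ) ^ H0 ≤ 2 ^ H := pow_le_pow_right₀ one_le_two (Nat.le_succ _)
    have h2 : 11 * r0 / δ < 2 ^ H := hH0.trans_le h1
    rw [div_lt_iff₀ hδ] at h2
    rw [← mul_div_assoc, div_lt_iff₀ (by positivity)]
    linarith
  obtain ⟨N0, hN0⟩ := exists_nat_ge (r0 / δ)
  have hlg : 0 ≤ lgk k := Real.log_nonneg (by linarith)
  obtain ⟨x0⟩ := ‹Nonempty X›
  refine ⟨3300 * (L * k * r0) + 105600 * L * (r0 * (k * (9 + 3 * lgk k))), fun ε hε => ?_⟩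
  set Z : ℝ := 105600 * L * (2000000 * r0 * H + Fintype.card X * r0 * (10 + 3 * lgk k)) with hZ
  have hZ0 : 0 ≤ Z := by rw [hZ]; positivity
  set ζ : ℝ := min 1 (ε / (Z + 1)) with hζ
  have hζ0 : 0 < ζ := lt_min one_pos (by positivity)
  have hζ1 : ζ ≤ 1 := min_le_left _ _
  have hZζ : Z * ζ ≤ ε := by
    have h1 : ζ ≤ ε / (Z + 1) := min_le_right _ _
    rw [le_div_iff₀ (by positivity)] at h1
    nlinarith
  obtain ⟨Λ, Ω, _, _, _, N, εs, hN0N, hN1, hεs, hlev⟩ := hLev X k ζ N0 hk hζ0 hζ1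
  let Lv : (l : Fin H) → Lev X k Λ Ω N ζ εs (r0 / 2 ^ ((l : ℕ) + 1)) :=
    fun l => Classical.choice (hlev _ (by positivity))
  obtain ⟨HE0⟩ := hH (Nd Λ H) (tr Λ H hr) k hk
  let HE : HEng (tr Λ H hr) k L := A6.mono HE0 hCL
  obtain ⟨RS⟩ := hR (Nd Λ H) (tr Λ H hr) k X
  have hy : Hy k N X ζ εs r0 L H := by
    refine ⟨hk, hN1, Nat.le_add_left _ _, hL1, hζ0, hεs, hdiam, fun x y hxy => ?_,
      fun x y hxy => hsepH.trans_le (hsep x y hxy)⟩
    refine le_trans ?_ (hsep x y hxy)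
    have h1 : (N0 : ℝ) ≤ N := by exact_mod_cast hN0N
    have h2 : (0 : ℝ) < N := by exact_mod_cast hN1
    rw [div_le_iff₀ hδ] at hN0
    rw [div_le_iff₀ h2]
    nlinarith
  have had : Addr Lv hr := hA X k H N Λ Ω ζ εs r0 Lv hr
  have htr := hT X k H N Λ Ω ζ εs r0 L Lv hr HE RS hy had x0
  have hre := hRe X k H N Λ Ω ζ εs r0 L Lv hr HE RS hy had x0 htr
  have hpk := hP X k H N Λ Ω ζ εs r0 L Lv hr HE RS hy had
  have hlv := hL X k H N Λ Ω ζ εs r0 L Lv hr HE RS hy had hpk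
  have hmv := hM X k H N Λ Ω ζ εs r0 L Lv hr HE RS hy had hlv
  obtain ⟨h1, h2, ⟨s0, h3⟩, h4, h5⟩ := hRest X k H N Λ Ω ζ εs r0 L Lv hr HE RS hy had x0
  refine ⟨{ S := GS Lv HE RS, law := law x0, Φ := Phi, Opt := Opt, st0 := s0, law_mem := h1,
            Φ_nonneg := fun s β hβ => h2 s β hβ, Φ_st0 := fun β hβ => h3 β hβ, concave := h4,
            reopt := hre, move := fun s Q r hQ hO => ?_, cover := h5 }⟩
  have h6 := hmv s Q r hQ hO
  have e : 105600 * (C + 1) * 100000000 * (1 + Real.log k) ^ 2 =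
      105600 * L * (100000000 * (1 + Real.log k)) := by rw [hLdef]; ring
  rw [e]
  linarith

end Vale.Agent.P304Z.A
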