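import Vale.Agent.P304.Bdl.B2

/-!
# P304Z: interfaces of the proof of `R k = O(log ^ 2 k)`

* `Eng`: Bayesian engine on a finite metric space (layer G turns it into a bound for the ratio).
* `Tr`, `Adm`, `HEng`: fractional engine on a weighted tree driven by posterior ranks (layer H).
* `RSys`: rounding on a tree and physical realisation (layer RR).
-/

open Finset

namespace Vale.Agent.P304Z

open Vale.Agent.P304

section Game

variable {X : Type} [MetricSpace X] [Fintype X] [DecidableEq X] {k : ℕ}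

/-- there is a coupling of the laws `p`, `q` of configurations with expected matching cost `≤ c` -/
def Cpl (p q : (Fin k → X) → ℝ) (c : ℝ) : Prop :=
  ∃ π : (Fin k → X) → (Fin k → X) → ℝ, (∀ a b, 0 ≤ π a b) ∧ (∀ a, ∑ b, π a b = p a) ∧
    (∀ b, ∑ a, π a b = q b) ∧ ∑ a, ∑ b, π a b * mdist a b ≤ c

/-- law of the hidden configuration before the move; `Q` is the joint law of the configuration and
of the index of the server which moves -/
noncomputable def pre (Q : (Fin k → X) × Fin k → ℝ) (x : Fin k → X) : ℝ := ∑ i, Q (x, i)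

/-- law of the hidden configuration after the move to `r` -/
noncomputable def post (Q : (Fin k → X) × Fin k → ℝ) (r : X) (y : Fin k → X) : ℝ :=
  ∑ z : (Fin k → X) × Fin k, if Function.update z.1 z.2 r = y then Q z else 0

end Game

/-- Bayesian engine: states, law of the own configuration, potential (concave in the belief). -/
structure Eng (X : Type) [MetricSpace X] [Fintype X] [DecidableEq X] (k : ℕ) (c B ε : ℝ) where
  S : Type
  law : S → (Fin k → X) → ℝ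
  Φ : S → ((Fin k → X) → ℝ) → ℝ
  Opt : S → ((Fin k → X) → ℝ) → Prop
  st0 : S
  law_mem : ∀ s, law s ∈ stdSimplex ℝ (Fin k → X)
  Φ_nonneg : ∀ s β, β ∈ stdSimplex ℝ (Fin k → X) → 0 ≤ Φ s β
  Φ_st0 : ∀ β, β ∈ stdSimplex ℝ (Fin k → X) → Φ st0 β ≤ B
  concave : ∀ s, ConcaveOn ℝ (stdSimplex ℝ (Fin k → X)) (Φ s)
  reopt : ∀ s β, β ∈ stdSimplex ℝ (Fin k → X) →
    ∃ s' c', Opt s' β ∧ Cpl (law s) (law s') c' ∧ c' + Φ s' β ≤ Φ s β
  move : ∀ s (Q : (Fin k → X) × Fin k → ℝ) (r : X), Q ∈ stdSimplex ℝ ((Fin k → X) × Fin k) →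
    Opt s (pre Q) → Φ s (post Q r) ≤ Φ s (pre Q) + c * ∑ z, Q z * dist (z.1 z.2) r + ε
  cover : ∀ s β (r : X), β ∈ stdSimplex ℝ (Fin k → X) → Opt s β →
    (∀ x, β x ≠ 0 → ∃ i, x i = r) → ∀ y, law s y ≠ 0 → ∃ i, y i = r

/-- a rooted tree on a finite set of nodes, with weights `rho d` of the edges from depth `d` up -/
structure Tr (N : Type) where
  root : N
  par : N → N
  dep : N → ℕ
  rho : ℕ → ℝ
  dep_root : dep root = 0
  dep_par : ∀ v, v ≠ root → dep v = dep (par v) + 1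
  rho_pos : ∀ d, 0 < rho d
  rho_half : ∀ d, rho d = 2 * rho (d + 1)

section Tree

variable {N : Type} [Fintype N] [DecidableEq N]

/-- the children of `w` -/
def Tr.ch (T : Tr N) (w : N) : Finset N := univ.filter fun c => c ≠ T.root ∧ T.par c = w

/-- the box of rank vectors -/
def Box (N : Type) (k : ℕ) : Set (N → Fin k → ℝ) := {q | ∀ v j, 0 ≤ q v j ∧ q v j ≤ 1}

/-- admissible rank vectors; `q v j` is the probability that more than `j` hidden servers are in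
the subtree of `v` -/
structure Adm (T : Tr N) {k : ℕ} (q : N → Fin k → ℝ) : Prop where
  box : q ∈ Box N k
  root : ∀ j, q T.root j = 1
  sa : ∀ w, ∀ t : ℝ, 0 ≤ t →
    ∑ c ∈ T.ch w, ∑ j, (max (q c j - t) 0) ^ 2 ≤ ∑ j, (max (q w j - t) 0) ^ 2
  sa1 : ∀ w, ∑ c ∈ T.ch w, ∑ j, q c j ≤ ∑ j, q w j

/-- fractional server masses of the subtrees -/
structure Flow (T : Tr N) (k : ℕ) (mu : N → ℝ) : Prop where
  root : mu T.root = k
  nonneg : ∀ v, 0 ≤ mu v
  sub : ∀ w, ∑ c ∈ T.ch w, mu c ≤ mu w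

/-- the mass parked at the node `v` itself -/
noncomputable def park (T : Tr N) (mu : N → ℝ) (v : N) : ℝ := mu v - ∑ c ∈ T.ch v, mu c

/-- tree movement between two flows -/
noncomputable def tmv (T : Tr N) (mu mu' : N → ℝ) : ℝ := ∑ v, T.rho (T.dep v) * |mu' v - mu v|

/-- weighted distance of two rank vectors -/
noncomputable def qd (T : Tr N) {k : ℕ} (q q' : N → Fin k → ℝ) : ℝ :=
  ∑ v, T.rho (T.dep v) * ∑ j, |q' v j - q v j|

end Tree

/-- fractional engine on a tree with Lipschitz constant `L` -/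
structure HEng {N : Type} [Fintype N] [DecidableEq N] (T : Tr N) (k : ℕ) (L : ℝ) where
  S : Type
  mu : S → N → ℝ
  Φ : S → (N → Fin k → ℝ) → ℝ
  Bal : S → (N → Fin k → ℝ) → Prop
  e0 : S
  flow : ∀ e, Flow T k (mu e)
  mu_e0 : ∀ v, v ≠ T.root → mu e0 v = 0
  Φ_e0 : ∀ q, Adm T q → Φ e0 q ≤ L * k * T.rho 0
  Φ_nonneg : ∀ e q, q ∈ Box N k → 0 ≤ Φ e q
  concave : ∀ e, ConcaveOn ℝ (Box N k) (Φ e)
  lip : ∀ e q q', q ∈ Box N k → q' ∈ Box N k → Φ e q' ≤ Φ e q + L * qd T q q'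
  step : ∀ e q, Adm T q → ∃ e', Bal e' q ∧ tmv T (mu e) (mu e') + Φ e' q ≤ Φ e q
  mass : ∀ e q, Adm T q → Bal e q → ∀ v, mu e v ≤ 6 * ∑ j, q v j
  cover : ∀ e q, Adm T q → Bal e q → ∀ v j, q v j = 1 → 1 ≤ mu e v

/-- image of a law of slot configurations under the location map -/
noncomputable def push {N X : Type} [Fintype N] [DecidableEq X] {k : ℕ} (loc : N → X)
    (ν : (Fin k → N) → ℝ) (y : Fin k → X) : ℝ :=
  ∑ Y : Fin k → N, if (fun i => loc (Y i)) = y then ν Y else 0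

/-- rounding system: laws `ν` of `k` servers sitting at nodes, balanced for a flow -/
structure RSys {N : Type} [Fintype N] [DecidableEq N] (T : Tr N) (k : ℕ)
    (X : Type) [MetricSpace X] [Fintype X] [DecidableEq X] where
  RB : (N → ℝ) → ((Fin k → N) → ℝ) → Prop
  mem : ∀ mu ν, RB mu ν → ν ∈ stdSimplex ℝ (Fin k → N)
  init : ∀ mu : N → ℝ, mu T.root = k → (∀ v, v ≠ T.root → mu v = 0) → ∃ ν, RB mu ν
  cover : ∀ mu ν, RB mu ν → ∀ v, 1 ≤ park T mu v → ∀ Y, ν Y ≠ 0 → ∃ i, Y i = v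
  step : ∀ mu ν mu', Flow T k mu → RB mu ν → Flow T k mu' →
    ∀ (loc loc' : N → X) (K : ℝ) (fol : N → ℝ), 0 ≤ K → (∀ v, 0 ≤ fol v) →
    (∀ v, v ≠ T.root → 0 < mu v → dist (loc v) (loc (T.par v)) ≤ K * T.rho (T.dep v)) →
    (∀ v, v ≠ T.root → 0 < mu' v → dist (loc' v) (loc' (T.par v)) ≤ K * T.rho (T.dep v)) →
    (∀ v, 0 < mu v → 0 < mu' v → dist (loc v) (loc' v) ≤ K * T.rho (T.dep v + 1)) →
    (∀ v, 0 < mu v → 0 < mu' v → dist (loc v) (loc' v) ≤ fol v) →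
    ∃ ν', RB mu' ν' ∧
      Cpl (push loc ν) (push loc' ν') (100 * K * tmv T mu mu' + ∑ v, park T mu v * fol v)

/-- layer G -/
def StG : Prop := ∀ (k : ℕ) (c : ℝ), 1 ≤ k → 0 ≤ c →
  (∀ (X : Type) [MetricSpace X] [Fintype X] [DecidableEq X] [Nonempty X],
    ∃ B : ℝ, ∀ ε : ℝ, 0 < ε → Nonempty (Eng X k c B ε)) → R k ≤ ENNReal.ofReal (2 * c)

/-- layer RR -/
def StRR : Prop := ∀ (N : Type) [Fintype N] [DecidableEq N] (T : Tr N) (k : ℕ)
  (X : Type) [MetricSpace X] [Fintype X] [DecidableEq X], Nonempty (RSys T k X)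

/-- layer H -/
def StH : Prop := ∃ C : ℝ, 0 < C ∧ ∀ (N : Type) [Fintype N] [DecidableEq N] (T : Tr N) (k : ℕ),
  1 ≤ k → Nonempty (HEng T k (C * (1 + Real.log k)))

/-- ranks of a random family of subtree counts are admissible, and are Lipschitz in the counts -/
def StRank : Prop := ∀ (N : Type) [Fintype N] [DecidableEq N] (T : Tr N) (k : ℕ)
  (ι : Type) [Fintype ι] (β : ι → ℝ) (n : ι → N → ℕ), β ∈ stdSimplex ℝ ι →
  (∀ a, n a T.root = k) → (∀ a w, ∑ c ∈ T.ch w, n a c ≤ n a w) → (∀ a v, n a v ≤ k) →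
  Adm T (fun v (j : Fin k) => ∑ a, β a * if (j : ℕ) < n a v then 1 else 0) ∧
  (∀ v, ∑ j : Fin k, (∑ a, β a * if (j : ℕ) < n a v then 1 else 0) = ∑ a, β a * (n a v : ℝ)) ∧
  ∀ n' : ι → N → ℕ, ∀ v,
    ∑ j : Fin k, |(∑ a, β a * if (j : ℕ) < n' a v then 1 else 0) -
      ∑ a, β a * if (j : ℕ) < n a v then 1 else 0| ≤ ∑ a, β a * |(n' a v : ℝ) - n a v|

end Vale.Agent.P304Z
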