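import Vale.Agent.P304Z.Defs

/-!
# P304Z, layer E: interface of one level of the evolving embedding
-/

open Finset

namespace Vale.Agent.P304Z

open Vale.Agent.P304 Vale.Agent.P304.Dyn

/-- the logarithm of the inverse floor of the token density -/
noncomputable def lgk (k : ℕ) : ℝ := Real.log (2000 * k)

section

variable {X : Type} [MetricSpace X] [Fintype X]

open Classical in
/-- mass of the closed ball -/
noncomputable def ball (p : X → ℝ) (x : X) (ρ : ℝ) : ℝ := ∑ u, if dist x u ≤ ρ then p u else 0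

/-- budget of the level with scale `r` at the point `x` for a move of length `d` -/
noncomputable def Bud (N : ℕ) (p : X → ℝ) (x : X) (r d : ℝ) : ℝ :=
  (∑ i ∈ range N, (Real.log (ball p x (64 * r)) -
    Real.log (ball p x (max (((i : ℝ) + 1) / N * r) (2 * d))))) / N

open Classical in
/-- probability that two random labels differ -/
noncomputable def dif {Ω Λ : Type} [Fintype Ω] (a b : Ω → Option Λ) : ℝ :=
  EE fun ω => if a ω = b ω then (0 : ℝ) else 1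

/-- local optimality of the level state `s` for the masses `p` of the hidden servers and the
weights `om` of the own servers which ride on the labels -/
def LOpt {S Ω Λ : Type} [Fintype Ω] [Fintype Λ] (g : S → X → ℝ) (lab : S → X → Ω → Option Λ)
    (Mv : S → S → Prop) (fol : S → S → Λ → ℝ) (εs : ℝ) (p : X → ℝ) (om : Λ → ℝ) (s : S) : Prop :=
  ∀ s', Mv s s' → ∑ u, p u * g s u - εs ≤
    ∑ u, p u * g s' u + 1 / 8 * ∑ u, p u * dif (lab s u) (lab s' u) + ∑ a, om a * fol s s' a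

end

/-- one level, with scale `r` -/
structure Lev (X : Type) [MetricSpace X] [Fintype X] (k : ℕ) (Λ Ω : Type) [Fintype Λ] [Fintype Ω]
    (N : ℕ) (ζ εs r : ℝ) where
  S : Type
  lab : S → X → Ω → Option Λ
  pos : S → Λ → X
  vis : S → Λ → Prop
  near : S → X → Option Λ
  g : S → X → ℝ
  Mv : S → S → Prop
  fol : S → S → Λ → ℝ
  s0 : S
  g_nonneg : ∀ s u, 0 ≤ g s u
  g_le : ∀ s u, g s u ≤ 9 + 3 * lgk k
  lab_pos : ∀ s u ω a, lab s u ω = some a → vis s a ∧ dist u (pos s a) ≤ 11 * r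
  near_pos : ∀ s x a, near s x = some a → dist x (pos s a) ≤ 3 * r
  fol_nonneg : ∀ s s' a, 0 ≤ fol s s' a
  mv_pos : ∀ s s' a, Mv s s' → vis s a → vis s' a →
    dist (pos s a) (pos s' a) ≤ fol s s' a * r ∧ dist (pos s a) (pos s' a) ≤ 3 * r
  small : ∀ (p : X → ℝ) (om : Λ → ℝ) (s : S) (x y : X), (∀ u, 0 ≤ p u) → ∑ u, p u = k →
    (∀ a, 0 ≤ om a) → LOpt g lab Mv fol εs p om s → ζ ≤ p x → r / N ≤ dist x y →
    dist x y ≤ r / 8 →
    dif (lab s x) (lab s y) + g s y - g s x ≤ 2000000 * (dist x y / r) *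
      (ζ + Bud N p x r (dist x y) + (near s x).elim 0 om / ball p x (64 * r) +
        dist x y / r * lgk k)
  cover : ∀ (p : X → ℝ) (om : Λ → ℝ) (s : S) (x : X), (∀ u, 0 ≤ p u) → ∑ u, p u = k →
    (∀ a, 0 ≤ om a) → LOpt g lab Mv fol εs p om s → 1 ≤ p x → ∀ ω, lab s x ω ≠ none

/-- existence of levels -/
def StLev : Prop := ∀ (X : Type) [MetricSpace X] [Fintype X] [Nonempty X] (k : ℕ) (ζ : ℝ) (N0 : ℕ),
  1 ≤ k → 0 < ζ → ζ ≤ 1 →
  ∃ (Λ Ω : Type) (_ : Fintype Λ) (_ : Fintype Ω) (_ : Nonempty Ω) (N : ℕ) (εs : ℝ),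
    N0 ≤ N ∧ 1 ≤ N ∧ 0 < εs ∧ ∀ r : ℝ, 0 < r → Nonempty (Lev X k Λ Ω N ζ εs r)

open Classical in
/-- pure summation facts -/
structure Tel : Prop where
  cheb : ∀ (X : Type) [Fintype X] (q d : X → ℝ), (∀ x, 0 ≤ q x) → ∑ x, q x = 1 → (∀ x, 0 ≤ d x) →
    ∑ x, q x * d x * Real.log (1 / ∑ y, if d y ≤ d x then q y else 0) ≤ ∑ x, q x * d x
  bud : ∀ (μ : ℝ → ℝ) (a b r0 : ℝ) (N H : ℕ), Monotone μ → (∀ ρ, a ≤ μ ρ ∧ μ ρ ≤ b) → 0 < r0 →
    1 ≤ N → ∑ l ∈ range H, (∑ i ∈ range N,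
      (μ (64 * (r0 / 2 ^ (l + 1))) - μ (((i : ℝ) + 1) / N * (r0 / 2 ^ (l + 1))))) / N ≤ 9 * (b - a)
  abel : ∀ (H : ℕ) (M om : ℕ → ℝ) (a b K : ℝ), 0 < a → a ≤ b → 0 ≤ K →
    (∀ l, a ≤ M l ∧ M l ≤ b) →
    Antitone M → (∀ l, 0 ≤ om l) → (∀ l, ∑ l' ∈ Ico l H, om l' ≤ K * M l) →
    ∑ l ∈ range H, om l / M l ≤ K * (1 + Real.log (b / a))
  geo_small : ∀ (H : ℕ) (r0 d : ℝ), 0 < r0 → 0 ≤ d →
    ∑ l ∈ range H, (if d ≤ r0 / 2 ^ (l + 1) / 8 then d / (r0 / 2 ^ (l + 1)) else 0) ≤ 1 / 4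
  geo_large : ∀ (H : ℕ) (r0 d : ℝ), 0 < r0 → 0 ≤ d →
    ∑ l ∈ range H, (if d ≤ r0 / 2 ^ (l + 1) / 8 then 0 else r0 / 2 ^ (l + 1)) ≤ 16 * d
  logsum : ∀ N : ℕ, ∑ i ∈ range N, Real.log ((N : ℝ) / ((i : ℝ) + 1)) ≤ N

/-- the global statement -/
def StGlob : Prop := ∃ C : ℝ, 0 < C ∧ ∀ k : ℕ, 1 ≤ k →
  ∀ (X : Type) [MetricSpace X] [Fintype X] [DecidableEq X] [Nonempty X],
    ∃ B : ℝ, ∀ ε : ℝ, 0 < ε → Nonempty (Eng X k (C * (1 + Real.log k) ^ 2) B ε)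

end Vale.Agent.P304Z
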