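import Vale.Agent.P304Z.E0

/-!
# P304Z, layer E: one level in scaled distances `D`; definitions and statements of the blocks
-/

open Finset

namespace Vale.Agent.P304Z.E

open Vale.Agent.P304 Vale.Agent.P304.Dyn

/-- token names -/
abbrev Tid (X : Type) (Q : ℕ) : Type := Option X × Fin Q

/-- slots of the random order: tokens and empty slots -/
abbrev Slot (X : Type) (Q Ne : ℕ) : Type := Tid X Q ⊕ Fin Ne

/-- labels: centres or tokens -/
abbrev Lb (X : Type) (Q : ℕ) : Type := Option X ⊕ Tid X Q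

/-- seeds: threshold for the centres, radius for the tokens, order of the slots -/
abbrev Seed (X : Type) [Fintype X] [DecidableEq X] (N Q Ne : ℕ) : Type := Fin N × Fin N × Dyn.Ord (Slot X Q Ne)

/-- level states: places and heights of the centres, places of the living tokens -/
structure LS (X : Type) (Q : ℕ) where
  z : Option X → X
  h : Option X → ℝ
  tk : Tid X Q → Option X

/-- the parameters; `n` is the number of points -/
structure Prm (n k N Q Ne : ℕ) (ε εs ζ : ℝ) : Prop where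
  hk : 1 ≤ k
  hN : 8 ≤ N
  hQ : 1 ≤ Q
  hε : ε = 1 / (1000 * k)
  Ne_lo : ε * Q ≤ Ne
  Ne_hi : (Ne : ℝ) ≤ ε * Q + 1
  e1 : ((n : ℝ) + 1) / Q ≤ ε / 4
  ζ_pos : 0 < ζ
  ζ_le : ζ ≤ 1
  εs_pos : 0 < εs
  err : k * (4 * (((n : ℝ) + 1) / Q) / ε + 1 / N) + εs ≤ ε * ζ ^ 3 / 8

variable {X : Type} [Fintype X] [DecidableEq X] {Q : ℕ} (D : X → X → ℝ)

open Classical in
/-- mass of the closed ball -/
noncomputable def bl (p : X → ℝ) (x : X) (ρ : ℝ) : ℝ := ∑ u, if D x u ≤ ρ then p u else 0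

open Classical in
/-- living tokens within distance `R` of `u` -/
noncomputable def toks (s : LS X Q) (u : X) (R : ℝ) : Finset (Tid X Q) :=
  univ.filter fun t => ∃ c, s.tk t = some c ∧ D u c ≤ R

structure Valid (s : LS X Q) : Prop where
  h_nonneg : ∀ i, 0 ≤ s.h i
  sep : ∀ i j, i ≠ j → 6 ≤ D (s.z i) (s.z j) + s.h i + s.h j
  cap : ∀ w, (toks D s w 12).card ≤ Q

noncomputable def val (s : LS X Q) (u : X) (i : Option X) : ℝ := D u (s.z i) + s.h i

/-- the best centre -/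
noncomputable def cid (s : LS X Q) (u : X) : Option X :=
  Classical.choose (Finite.exists_min (val D s u))

/-- the truncated distance to the centres -/
noncomputable def En (s : LS X Q) (u : X) : ℝ := min 3 (val D s u (cid D s u))

noncomputable def Rad (N i : ℕ) : ℝ := 9 + (i : ℝ) / N

/-- token density -/
noncomputable def SS (N : ℕ) (ε : ℝ) (s : LS X Q) (u : X) (i : ℕ) : ℝ :=
  ε + ((toks D s u (Rad N i)).card : ℝ) / Q

noncomputable def LL (N : ℕ) (ε : ℝ) (s : LS X Q) (u : X) (i : ℕ) : ℝ := Real.log (2 / SS D N ε s u i)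

open Classical in
/-- the tokens of `T`, filled up with empty slots -/
noncomputable def cand (Ne : ℕ) (T : Finset (Tid X Q)) : Finset (Slot X Q Ne) :=
  T.image Sum.inl ∪ (univ.filter fun j : Fin Ne => (j : ℕ) < Ne - T.card).image Sum.inr

/-- the label chosen from the token set `T` -/
noncomputable def pick (Ne : ℕ) (T : Finset (Tid X Q)) (π : Dyn.Ord (Slot X Q Ne)) : Option (Lb X Q) :=
  (mh π (cand Ne T)).bind (Sum.elim (fun t => some (Sum.inr t)) fun _ => none)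

open Classical in
noncomputable def lab (N Ne : ℕ) (s : LS X Q) (u : X) (ω : Seed X N Q Ne) : Option (Lb X Q) :=
  if En D s u < 2 + (((ω.1 : ℕ) : ℝ) + 1) / N then some (Sum.inl (cid D s u))
  else pick Ne (toks D s u (Rad N (N + 1 + ω.2.1))) ω.2.2

noncomputable def pos (s : LS X Q) : Lb X Q → X :=
  Sum.elim s.z fun t => (s.tk t).getD (s.z none)

def vis (s : LS X Q) : Lb X Q → Prop := Sum.elim (fun i => s.h i < 3) fun t => s.tk t ≠ none

open Classical in
noncomputable def near (s : LS X Q) (x : X) : Option (Lb X Q) :=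
  if En D s x < 3 then some (Sum.inl (cid D s x)) else none

noncomputable def yy (t : ℝ) : ℝ := min 1 (max (t - 1) 0)

noncomputable def ell (N : ℕ) (ε : ℝ) (s : LS X Q) (u : X) : ℝ :=
  ∑ i ∈ range (2 * N + 1), (i : ℝ) / (N : ℝ) ^ 2 * LL D N ε s u i

noncomputable def Lbar (N : ℕ) (ε : ℝ) (s : LS X Q) (u : X) : ℝ :=
  (∑ i ∈ range (2 * N + 1), LL D N ε s u i) / N

/-- the potential of a unit of hidden mass at `u` -/
noncomputable def gl (N : ℕ) (ε : ℝ) (s : LS X Q) (u : X) : ℝ :=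
  En D s u ^ 2 + yy (En D s u) ^ 2 * ell D N ε s u

/-- admissible moves -/
structure Mv (s s' : LS X Q) : Prop where
  core : ∀ i, s.h i < 3 → s'.h i < 3 → D (s.z i) (s'.z i) ≤ 3
  tok : ∀ t c c', s.tk t = some c → s'.tk t = some c' → c = c'

open Classical in
noncomputable def fol (s s' : LS X Q) : Lb X Q → ℝ :=
  Sum.elim (fun i => if s.h i < 3 ∧ s'.h i < 3 then D (s.z i) (s'.z i) else 0) fun _ => 0

/-- local optimality -/
def Opt (N Ne : ℕ) (ε εs : ℝ) (p : X → ℝ) (om : Lb X Q → ℝ) (s : LS X Q) : Prop :=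
  ∀ s', Valid D s' → Mv D s s' → ∑ u, p u * gl D N ε s u - εs ≤
    ∑ u, p u * gl D N ε s' u + 1 / 8 * ∑ u, p u * dif (lab D N Ne s u) (lab D N Ne s' u) +
      ∑ a, om a * fol D s s' a

/-- budget in scaled distances -/
noncomputable def bud (N : ℕ) (p : X → ℝ) (x : X) (δ : ℝ) : ℝ :=
  (∑ i ∈ range N, (Real.log (bl D p x 64) -
    Real.log (bl D p x (max (((i : ℝ) + 1) / N) (2 * δ))))) / N

open Classical in
/-- `tk'` arises from the tokens of `s` by thinning around `w` and adding new tokens at `w` -/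
structure Thin (s : LS X Q) (w : X) (θ : ℝ) (tk' : Tid X Q → Option X) : Prop where
  cap : ∀ w', (toks D ⟨s.z, s.h, tk'⟩ w' 12).card ≤ Q
  tok : ∀ t c c', s.tk t = some c → tk' t = some c' → c = c'
  rem : ∀ u R, ((toks D s u R \ toks D ⟨s.z, s.h, tk'⟩ u R).card : ℝ) ≤
    θ * (toks D s u R).card + Fintype.card X
  add : ∀ u R, ((toks D ⟨s.z, s.h, tk'⟩ u R \ toks D s u R).card : ℝ) =
    if D u w ≤ R then (⌊θ * Q⌋₊ : ℝ) else 0
  far : ∀ u R, 24 + R < D u w → toks D ⟨s.z, s.h, tk'⟩ u R = toks D s u R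

open Classical in
/-- probability that the threshold lies between `a` and `b` or above `c` -/
noncomputable def thr (N : ℕ) (P : ℝ → Prop) : ℝ :=
  EE fun i : Fin N => if P (2 + (((i : ℕ) : ℝ) + 1) / N) then (1 : ℝ) else 0

/-- the standing assumptions -/
structure Cx (k N Ne : ℕ) (ε εs ζ : ℝ) (p : X → ℝ) (om : Lb X Q → ℝ) (s : LS X Q) : Prop where
  pm : PM D
  prm : Prm (Fintype.card X) k N Q Ne ε εs ζ
  valid : Valid D s
  p_nonneg : ∀ u, 0 ≤ p u
  p_sum : ∑ u, p u = k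
  om_nonneg : ∀ a, 0 ≤ om a
  opt : Opt D N Ne ε εs p om s

/-! ### the blocks -/

open Classical in
/-- min-hash with empty slots -/
def StMH : Prop := ∀ (X : Type) [Fintype X] [DecidableEq X] (Q Ne : ℕ) (ε : ℝ), 0 < ε → 1 ≤ Q → ε * Q ≤ Ne →
  (∀ T T' : Finset (Tid X Q), dif (pick Ne T) (pick Ne T') ≤
    4 * (((T \ T').card + (T' \ T).card : ℝ) / Q) / (ε + ((T ∪ T').card : ℝ) / Q)) ∧
  (∀ (T : Finset (Tid X Q)) π, Ne ≤ T.card → pick Ne T π ≠ none) ∧
  (∀ (T : Finset (Tid X Q)) π a, pick Ne T π = some a → ∃ t ∈ T, a = Sum.inr t)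

/-- existence of the thinning -/
def StThin : Prop := ∀ (X : Type) [Fintype X] [DecidableEq X] (Q : ℕ) (D : X → X → ℝ) (s : LS X Q) (w : X) (θ : ℝ),
  PM D → Valid D s → 0 ≤ θ → θ ≤ 1 → ∃ tk', Thin D s w θ tk'

open Classical in
/-- elementary facts on centres, densities and labels -/
structure Basic : Prop where
  val_uniq : ∀ (X : Type) [Fintype X] [DecidableEq X] (Q : ℕ) (D : X → X → ℝ) (s : LS X Q) (u : X) (i : Option X),
    PM D → Valid D s → val D s u i < 3 → cid D s u = i ∧ En D s u = val D s u i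
  En_le : ∀ (X : Type) [Fintype X] [DecidableEq X] (Q : ℕ) (D : X → X → ℝ) (s : LS X Q) (u : X) (i : Option X),
    En D s u ≤ val D s u i
  En_range : ∀ (X : Type) [Fintype X] [DecidableEq X] (Q : ℕ) (D : X → X → ℝ) (s : LS X Q) (u : X),
    PM D → Valid D s → 0 ≤ En D s u ∧ En D s u ≤ 3
  En_lip : ∀ (X : Type) [Fintype X] [DecidableEq X] (Q : ℕ) (D : X → X → ℝ) (s : LS X Q) (u v : X),
    PM D → En D s u ≤ En D s v + D u v
  SS_range : ∀ (X : Type) [Fintype X] [DecidableEq X] (Q N : ℕ) (ε : ℝ) (D : X → X → ℝ) (s : LS X Q) (u : X) (i : ℕ),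
    Valid D s → 1 ≤ Q → 1 ≤ N → 0 < ε → ε ≤ 1 → i ≤ 3 * N →
    ε ≤ SS D N ε s u i ∧ SS D N ε s u i ≤ 2 ∧ 0 ≤ LL D N ε s u i ∧ LL D N ε s u i ≤ Real.log (2 / ε)
  SS_mono : ∀ (X : Type) [Fintype X] [DecidableEq X] (Q N : ℕ) (ε : ℝ) (D : X → X → ℝ) (s : LS X Q) (u v : X)
    (i i' : ℕ), PM D → 1 ≤ N → D u v + (i : ℝ) / N ≤ (i' : ℝ) / N →
    toks D s u (Rad N i) ⊆ toks D s v (Rad N i') ∧ SS D N ε s u i ≤ SS D N ε s v i'
  thr_le : ∀ (N : ℕ) (a b : ℝ), 1 ≤ N → a ≤ b → thr N (fun R => a < R ∧ R ≤ b) ≤ b - a + 1 / N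
  /-- the labels of `u` in `s` and of `v` in `s'` differ only through the threshold or the tokens -/
  dif_le : ∀ (X : Type) [Fintype X] [DecidableEq X] (Q N Ne : ℕ) (D : X → X → ℝ) (s s' : LS X Q) (u v : X), 1 ≤ N →
    dif (lab D N Ne s u) (lab D N Ne s' v) ≤
      thr N (fun R => ¬ (En D s u < R ↔ En D s' v < R)) +
      thr N (fun R => En D s u < R ∧ En D s' v < R ∧ cid D s u ≠ cid D s' v) +
      (if 2 < En D s u ∧ 2 < En D s' v then
        (∑ i ∈ range N, dif (pick Ne (toks D s u (Rad N (N + 1 + i))))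
          (pick Ne (toks D s' v (Rad N (N + 1 + i))))) / N else 0)

open Classical in
/-- effect of a thinning on the token part, for one point -/
def StTE : Prop := ∀ (X : Type) [Fintype X] [DecidableEq X] (k N Q Ne : ℕ) (ε εs ζ : ℝ) (D : X → X → ℝ) (s : LS X Q)
  (w : X) (θ : ℝ) (s' : LS X Q), PM D → Prm (Fintype.card X) k N Q Ne ε εs ζ → Valid D s →
  0 ≤ θ → θ ≤ 1 / 4 → Thin D s w θ s'.tk → ∀ (u : X) (i : ℕ), i ≤ 2 * N →
  (LL D N ε s' u i - LL D N ε s u i ≤ 2 * θ + ((Fintype.card X : ℝ) + 1) / Q / ε -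
      (if D u w ≤ Rad N i then θ / SS D N ε s' u i else 0)) ∧
  (dif (pick Ne (toks D s u (Rad N i))) (pick Ne (toks D s' u (Rad N i))) ≤
      4 * θ + 4 * (((Fintype.card X : ℝ) + 1) / Q / ε) +
      (if D u w ≤ Rad N i then 4 * (θ / SS D N ε s' u i) else 0)) ∧
  SS D N ε s' u i ≤ SS D N ε s u i + θ ∧ SS D N ε s' u i ≤ 2 ∧
  (D u w ≤ Rad N i → θ ≤ SS D N ε s' u i) ∧
  (35 < D u w → toks D s' u (Rad N i) = toks D s u (Rad N i))

/-- optimality against thinning: lower bound for the token density -/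
def StPT : Prop := ∀ (X : Type) [Fintype X] [DecidableEq X] (k N Q Ne : ℕ) (ε εs ζ : ℝ) (D : X → X → ℝ)
  (p : X → ℝ) (om : Lb X Q → ℝ) (s : LS X Q), Cx D k N Ne ε εs ζ p om s → ∀ x : X, ζ ≤ p x →
  ∀ i j : ℕ, i ≤ 2 * N → (j : ℝ) / N ≤ yy (En D s x) / 2 →
  yy (En D s x) ^ 2 * bl D p x ((j : ℝ) / N) * ((i : ℝ) / N) ^ 2 ≤
    216 * bl D p x 64 * SS D N ε s x (i + j)

open Classical in
/-- optimality against moving a centre to `x` -/
def StPO : Prop := ∀ (X : Type) [Fintype X] [DecidableEq X] (k N Q Ne : ℕ) (ε εs ζ : ℝ) (D : X → X → ℝ)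
  (p : X → ℝ) (om : Lb X Q → ℝ) (s : LS X Q), Cx D k N Ne ε εs ζ p om s → ∀ x : X, ζ ≤ p x →
  En D s x ≤ ζ + 445 * ((∑ u, if D x u ≤ 64 then p u * min (D x u) 1 else 0) / bl D p x 64) +
    2 * ((near D s x).elim 0 om / bl D p x 64)

open Classical in
/-- the averaged density term, and the spread of the mass -/
def StYL : Prop := ∀ (X : Type) [Fintype X] [DecidableEq X] (k N Q Ne : ℕ) (ε εs ζ : ℝ) (D : X → X → ℝ)
  (p : X → ℝ) (om : Lb X Q → ℝ) (s : LS X Q), Cx D k N Ne ε εs ζ p om s → ∀ x : X, ζ ≤ p x →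
  ∀ δ : ℝ, 1 / (N : ℝ) ≤ δ → δ ≤ 1 / 8 →
  yy (En D s x) * Lbar D N ε s x ≤ 29 * En D s x + 14 * bud D N p x δ + 24 * δ * lgk k ∧
  (∑ u, if D x u ≤ 64 then p u * min (D x u) 1 else 0) / bl D p x 64 ≤ 3 * δ + bud D N p x δ ∧
  0 ≤ bud D N p x δ

/-- a short move of a unit of hidden mass -/
def StOM : Prop := ∀ (X : Type) [Fintype X] [DecidableEq X] (k N Q Ne : ℕ) (ε εs ζ : ℝ) (D : X → X → ℝ) (s : LS X Q),
  PM D → Prm (Fintype.card X) k N Q Ne ε εs ζ → Valid D s → ∀ x y : X,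
  1 / (N : ℝ) ≤ D x y → D x y ≤ 1 / 8 →
  dif (lab D N Ne s x) (lab D N Ne s y) + gl D N ε s y - gl D N ε s x ≤
    6 * D x y * En D s x + 28 * D x y * (yy (En D s x) * Lbar D N ε s x) +
      17 * D x y ^ 2 * lgk k

end Vale.Agent.P304Z.E
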