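import Vale.Agent.P304Z.E1

/-!
# P304Z, layer E: min-hash with empty slots, thinning, elementary facts
-/

open Finset

namespace Vale.Agent.P304Z.E

open Vale.Agent.P304 Vale.Agent.P304.Dyn

namespace E2

section MH

variable {X : Type} [Fintype X] [DecidableEq X] {Q : ℕ}

theorem mem_inl {Ne : ℕ} {T : Finset (Tid X Q)} {t : Tid X Q} :
    (Sum.inl t : Slot X Q Ne) ∈ cand Ne T ↔ t ∈ T := by
  simp [cand]

theorem mem_inr {Ne : ℕ} {T : Finset (Tid X Q)} {j : Fin Ne} :
    (Sum.inr j : Slot X Q Ne) ∈ cand Ne T ↔ (j : ℕ) < Ne - T.card := by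
  simp [cand]

theorem card_split {α β : Type} [Fintype α] [Fintype β] (A : Finset (α ⊕ β)) :
    A.card = A.toLeft.card + A.toRight.card := (Finset.card_toLeft_add_card_toRight).symm

theorem card_lt_fin (n m : ℕ) (S : Finset (Fin n)) (h : ∀ j : Fin n, j ∈ S ↔ (j : ℕ) < m)
    (hm : m ≤ n) : S.card = m := by
  have h1 : S.map Fin.valEmbedding = range m := by
    ext x
    simp only [mem_map, Fin.valEmbedding_apply, mem_range]
    constructor
    · rintro ⟨j, hj, rfl⟩
      exact (h j).1 hj
    · intro hx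
      exact ⟨⟨x, by omega⟩, (h _).2 hx, rfl⟩
  rw [← card_map Fin.valEmbedding, h1, card_range]

theorem card_Ico_fin (n a b : ℕ) (S : Finset (Fin n))
    (h : ∀ j ∈ S, a ≤ (j : ℕ) ∧ (j : ℕ) < b) : S.card ≤ b - a := by
  have h1 : S.map Fin.valEmbedding ⊆ Ico a b := by
    intro x hx
    simp only [mem_map, Fin.valEmbedding_apply] at hx
    obtain ⟨j, hj, rfl⟩ := hx
    exact mem_Ico.2 (h j hj)
  have := card_le_card h1
  rwa [card_map, Nat.card_Ico] at this

theorem card_cand (Ne : ℕ) (T : Finset (Tid X Q)) : Ne ≤ (cand Ne T).card := by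
  rw [card_split]
  have h1 : (cand Ne T).toLeft = T := by
    ext t
    rw [mem_toLeft, mem_inl]
  have h2 : (cand Ne T).toRight.card = Ne - T.card :=
    card_lt_fin Ne _ _ (fun j => by rw [mem_toRight, mem_inr]) (Nat.sub_le _ _)
  rw [h1, h2]
  omega

theorem card_sdiff_cand (Ne : ℕ) (T T' : Finset (Tid X Q)) :
    (cand Ne T \ cand Ne T').card ≤ (T \ T').card + (T' \ T).card := by
  rw [card_split]
  have h1 : (cand Ne T \ cand Ne T').toLeft = T \ T' := by
    ext t
    rw [mem_toLeft, mem_sdiff, mem_sdiff, mem_inl, mem_inl]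
  have h2 : (cand Ne T \ cand Ne T').toRight.card ≤ (Ne - T.card) - (Ne - T'.card) :=
    card_Ico_fin Ne _ _ _ (fun j hj => by
      rw [mem_toRight, mem_sdiff, mem_inr, mem_inr] at hj
      omega)
  have h3 : T'.card ≤ (T' \ T).card + T.card := card_le_card_sdiff_add_card
  rw [h1]
  omega

theorem card_union_cand (Ne : ℕ) (T T' : Finset (Tid X Q)) :
    (T ∪ T').card ≤ (cand Ne T ∪ cand Ne T').card := by
  rw [card_split (cand Ne T ∪ cand Ne T')]
  have h1 : (cand Ne T ∪ cand Ne T').toLeft = T ∪ T' := by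
    ext t
    rw [mem_toLeft, mem_union, mem_union, mem_inl, mem_inl]
  rw [h1]
  omega

theorem pick_some {Ne : ℕ} {T : Finset (Tid X Q)} {π : Dyn.Ord (Slot X Q Ne)} {a : Lb X Q}
    (h : pick Ne T π = some a) : ∃ t ∈ T, a = Sum.inr t := by
  unfold pick at h
  rcases hm : mh π (cand Ne T) with _ | g
  · rw [hm] at h
    simp at h
  · rw [hm] at h
    have hg := mh_mem hm
    rcases g with t | j
    · refine ⟨t, mem_inl.1 hg, ?_⟩
      simpa using h.symm
    · simp at h

end MH

end E2

open E2 in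
theorem stMH : StMH := by
  intro X _ _ Q Ne ε hε hQ hNe
  have hQ' : (0 : ℝ) < Q := by exact_mod_cast hQ
  have hNe1 : 1 ≤ Ne := by
    have : (0 : ℝ) < Ne := lt_of_lt_of_le (mul_pos hε hQ') hNe
    exact_mod_cast this
  refine ⟨fun T T' => ?_, fun T π hT => ?_, fun T π a h => pick_some h⟩
  · have hc1 : Ne ≤ (cand Ne T ∪ cand Ne T').card :=
      (card_cand Ne T).trans (card_le_card subset_union_left)
    have hne : (cand Ne T ∪ cand Ne T').Nonempty := card_pos.1 (by omega)
    have h1 := EE_mh_ne hne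
    have h2 : dif (pick Ne T) (pick Ne T') ≤ EE (fun π : Dyn.Ord (Slot X Q Ne) =>
        open Classical in if mh π (cand Ne T) = mh π (cand Ne T') then (0 : ℝ) else 1) := by
      unfold dif
      apply EE_mono
      intro π
      by_cases h : mh π (cand Ne T) = mh π (cand Ne T')
      · have : pick Ne T π = pick Ne T' π := by
          unfold pick
          rw [h]
        rw [if_pos this, if_pos h]
      · rw [if_neg h]
        split_ifs <;> norm_num
    refine h2.trans (h1.trans ?_)
    have h3 : ((cand Ne T \ cand Ne T').card : ℝ) ≤ (T \ T').card + (T' \ T).card := by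
      exact_mod_cast card_sdiff_cand Ne T T'
    have h4 : ((cand Ne T' \ cand Ne T).card : ℝ) ≤ (T' \ T).card + (T \ T').card := by
      exact_mod_cast card_sdiff_cand Ne T' T
    have h5 : ((T ∪ T').card : ℝ) ≤ (cand Ne T ∪ cand Ne T').card := by
      exact_mod_cast card_union_cand Ne T T'
    have h6 : (Ne : ℝ) ≤ (cand Ne T ∪ cand Ne T').card := by exact_mod_cast hc1
    have h7 : (0 : ℝ) ≤ (T ∪ T').card := Nat.cast_nonneg _
    have h8 : (0 : ℝ) ≤ ((T \ T').card : ℝ) + (T' \ T).card := by positivity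
    have hεQ : 0 < ε * Q := mul_pos hε hQ'
    have e : 4 * ((((T \ T').card : ℝ) + (T' \ T).card) / Q) / (ε + ((T ∪ T').card : ℝ) / Q) =
        2 * (((T \ T').card : ℝ) + (T' \ T).card) / ((ε * Q + (T ∪ T').card) / 2) := by
      field_simp
      ring
    rw [e]
    apply div_le_div₀ (by linarith) (by linarith) (by linarith) (by linarith)
  · have hne : (cand Ne T).Nonempty := card_pos.1 (lt_of_lt_of_le hNe1 (card_cand Ne T))
    obtain ⟨g, hg, hm⟩ := exists_mh (π := π) hne
    unfold pick
    rw [hm]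
    rcases g with t | j
    · simp
    · rw [mem_inr] at hg
      omega

namespace E2

section Thin

variable {X : Type} [Fintype X] [DecidableEq X] {Q : ℕ} {D : X → X → ℝ}

theorem D_nonneg (h : PM D) (x y : X) : 0 ≤ D x y := by
  have h1 := h.tri x y x
  rw [h.self, h.symm y x] at h1
  linarith

theorem mem_toks {s : LS X Q} {u : X} {R : ℝ} {t : Tid X Q} :
    t ∈ toks D s u R ↔ ∃ c, s.tk t = some c ∧ D u c ≤ R := by
  simp [toks]

/-- the tokens at one place -/
def at_ (s : LS X Q) (c : X) : Finset (Tid X Q) := univ.filter fun t => s.tk t = some c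

theorem mem_at {s : LS X Q} {c : X} {t : Tid X Q} : t ∈ at_ s c ↔ s.tk t = some c := by
  simp [at_]

open Classical in
theorem card_inter (s : LS X Q) (u : X) (R : ℝ) (A : Finset (Tid X Q)) :
    (toks D s u R ∩ A).card = ∑ c ∈ univ.filter (fun c => D u c ≤ R), (at_ s c ∩ A).card := by
  rw [← card_biUnion]
  · congr 1
    ext t
    simp only [mem_inter, mem_toks, mem_biUnion, mem_filter, mem_univ, true_and, mem_at]
    constructor
    · rintro ⟨⟨c, h1, h2⟩, h3⟩
      exact ⟨c, h2, h1, h3⟩
    · rintro ⟨c, h2, h1, h3⟩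
      exact ⟨⟨c, h1, h2⟩, h3⟩
  · intro c _ c' _ hcc
    rw [Function.onFun, disjoint_left]
    intro t h1 h2
    rw [mem_inter, mem_at] at h1 h2
    exact hcc (Option.some.inj (h1.1.symm.trans h2.1))

open Classical in
theorem card_toks (s : LS X Q) (u : X) (R : ℝ) :
    (toks D s u R).card = ∑ c ∈ univ.filter (fun c => D u c ≤ R), (at_ s c).card := by
  simpa using card_inter (D := D) s u R univ

theorem card_at (hD : PM D) {s : LS X Q} (hs : Valid D s) (c : X) : (at_ s c).card ≤ Q := by
  refine le_trans (card_le_card ?_) (hs.cap c)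
  intro t ht
  exact mem_toks.2 ⟨c, mem_at.1 ht, by rw [hD.self]; norm_num⟩

theorem card_dead (hD : PM D) {s : LS X Q} (hs : Valid D s) :
    Q ≤ (univ.filter fun t : Tid X Q => s.tk t = none).card := by
  have h1 : (univ : Finset (Tid X Q)) ⊆
      (univ.filter fun t : Tid X Q => s.tk t = none) ∪ univ.biUnion (at_ s) := by
    intro t _
    rcases h : s.tk t with _ | c
    · exact mem_union_left _ (by simp [h])
    · exact mem_union_right _ (mem_biUnion.2 ⟨c, mem_univ _, mem_at.2 h⟩)
  have h2 := (card_le_card h1).trans (card_union_le _ _)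
  have h3 : (univ.biUnion (at_ s)).card ≤ Fintype.card X * Q :=
    card_biUnion_le.trans (by
      have := sum_le_card_nsmul univ (fun c => (at_ s c).card) Q fun c _ => card_at hD hs c
      simpa using this)
  have h4 : (univ : Finset (Tid X Q)).card = Fintype.card X * Q + Q := by
    simp [add_mul]
  omega

end Thin

end E2

open E2 in
theorem stThin : StThin := by
  classical
  intro X _ _ Q D s w θ hD hs h0 h1
  have hK : ∀ c : X, ∃ K ⊆ at_ s c,
      K.card = if D w c ≤ 24 then ⌈θ * ((at_ s c).card : ℝ)⌉₊ else 0 := by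
    intro c
    apply exists_subset_card_eq
    split_ifs
    · rw [Nat.ceil_le]
      have : (0 : ℝ) ≤ (at_ s c).card := Nat.cast_nonneg _
      nlinarith
    · exact Nat.zero_le _
  choose K hKs hKc using hK
  have hQ0 : (0 : ℝ) ≤ Q := Nat.cast_nonneg _
  have hfl : (⌊θ * Q⌋₊ : ℝ) ≤ θ * Q := Nat.floor_le (mul_nonneg h0 hQ0)
  obtain ⟨Nw, hNs, hNc⟩ : ∃ Nw ⊆ (univ.filter fun t : Tid X Q => s.tk t = none),
      Nw.card = ⌊θ * Q⌋₊ := by
    apply exists_subset_card_eq
    refine le_trans ?_ (card_dead hD hs)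
    have : (⌊θ * Q⌋₊ : ℝ) ≤ Q := by nlinarith
    exact_mod_cast this
  have hNd : ∀ t ∈ Nw, s.tk t = none := fun t ht => by simpa using hNs ht
  set KK : Finset (Tid X Q) := univ.biUnion K with hKK
  have hKi : ∀ c, at_ s c ∩ KK = K c := by
    intro c
    ext t
    simp only [mem_inter, hKK, mem_biUnion, mem_univ, true_and]
    constructor
    · rintro ⟨h2, c', h3⟩
      have : c = c' := Option.some.inj ((mem_at.1 h2).symm.trans (mem_at.1 (hKs c' h3)))
      rw [this]
      exact h3
    · intro h2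
      exact ⟨hKs c h2, c, h2⟩
  let tk' : Tid X Q → Option X := fun t => if t ∈ Nw then some w else if t ∈ KK then none else s.tk t
  have hmem : ∀ u R t, t ∈ toks D ⟨s.z, s.h, tk'⟩ u R ↔
      (t ∈ Nw ∧ D u w ≤ R) ∨ (t ∈ toks D s u R ∧ t ∉ KK) := by
    intro u R t
    rw [mem_toks, mem_toks]
    by_cases h2 : t ∈ Nw
    · simp [tk', h2, hNd t h2]
    · by_cases h3 : t ∈ KK
      · simp [tk', h2, h3]
      · simp [tk', h2, h3]
  have hNt : ∀ u R t, t ∈ Nw → t ∉ toks D s u R := by
    intro u R t h2 h3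
    obtain ⟨c, h4, _⟩ := mem_toks.1 h3
    rw [hNd t h2] at h4
    exact absurd h4 (by simp)
  have hcardK : ∀ u R, (toks D s u R ∩ KK).card =
      ∑ c ∈ univ.filter (fun c => D u c ≤ R), (K c).card := by
    intro u R
    rw [E2.card_inter]
    exact sum_congr rfl fun c _ => by rw [hKi]
  refine ⟨tk', ⟨fun w' => ?_, fun t c c' h2 h3 => ?_, fun u R => ?_, fun u R => ?_,
    fun u R h2 => ?_⟩⟩
  · by_cases hw : D w' w ≤ 12
    · have h2 : toks D ⟨s.z, s.h, tk'⟩ w' 12 ⊆ Nw ∪ (toks D s w' 12 \ KK) := by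
        intro t ht
        rcases (hmem _ _ _).1 ht with h | h
        · exact mem_union_left _ h.1
        · exact mem_union_right _ (mem_sdiff.2 h)
      have h3 := (card_le_card h2).trans (card_union_le _ _)
      have h4 : (toks D s w' 12 \ KK).card + (toks D s w' 12 ∩ KK).card = (toks D s w' 12).card :=
        card_sdiff_add_card_inter _ _
      have h5 : θ * ((toks D s w' 12).card : ℝ) ≤ (toks D s w' 12 ∩ KK).card := by
        rw [hcardK, card_toks]
        push_cast
        rw [mul_sum]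
        refine sum_le_sum fun c hc => ?_
        have h6 : D w c ≤ 24 := by
          have := hD.tri w w' c
          rw [hD.symm w w'] at this
          have h7 := (mem_filter.1 hc).2
          linarith
        rw [hKc, if_pos h6]
        exact Nat.le_ceil _
      have h6 : ((toks D s w' 12).card : ℝ) ≤ Q := by exact_mod_cast hs.cap w'
      have h3' : ((toks D ⟨s.z, s.h, tk'⟩ w' 12).card : ℝ) ≤
          Nw.card + (toks D s w' 12 \ KK).card := by exact_mod_cast h3
      have h4' : ((toks D s w' 12 \ KK).card : ℝ) + (toks D s w' 12 ∩ KK).card =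
          (toks D s w' 12).card := by exact_mod_cast h4
      rw [hNc] at h3'
      have : ((toks D ⟨s.z, s.h, tk'⟩ w' 12).card : ℝ) ≤ Q := by nlinarith
      exact_mod_cast this
    · refine le_trans (card_le_card fun t ht => ?_) (hs.cap w')
      rcases (hmem _ _ _).1 ht with h | h
      · exact absurd h.2 hw
      · exact h.1
  · have h4 : t ∉ Nw := fun h => by
      rw [hNd t h] at h2
      exact absurd h2 (by simp)
    by_cases h5 : t ∈ KK
    · simp [tk', h4, h5] at h3
    · simp only [tk', if_neg h4, if_neg h5] at h3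
      exact Option.some.inj (h2.symm.trans h3)
  · have h2 : toks D s u R \ toks D ⟨s.z, s.h, tk'⟩ u R ⊆ toks D s u R ∩ KK := by
      intro t ht
      rw [mem_sdiff, hmem] at ht
      refine mem_inter.2 ⟨ht.1, ?_⟩
      by_contra h
      exact ht.2 (Or.inr ⟨ht.1, h⟩)
    have h3 : ((toks D s u R \ toks D ⟨s.z, s.h, tk'⟩ u R).card : ℝ) ≤
        (toks D s u R ∩ KK).card := by exact_mod_cast card_le_card h2
    refine h3.trans ?_
    rw [hcardK, card_toks]
    push_cast
    rw [mul_sum]
    have h4 : ∑ c ∈ univ.filter (fun c => D u c ≤ R), ((K c).card : ℝ) ≤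
        ∑ c ∈ univ.filter (fun c => D u c ≤ R), (θ * ((at_ s c).card : ℝ) + 1) := by
      refine sum_le_sum fun c _ => ?_
      have h5 : (0 : ℝ) ≤ θ * ((at_ s c).card : ℝ) := mul_nonneg h0 (Nat.cast_nonneg _)
      rw [hKc]
      split_ifs
      · exact (Nat.ceil_lt_add_one h5).le
      · push_cast
        linarith
    rw [sum_add_distrib, sum_const, nsmul_eq_mul, mul_one] at h4
    have h5 : ((univ.filter (fun c => D u c ≤ R)).card : ℝ) ≤ Fintype.card X := by
      exact_mod_cast card_le_univ _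
    linarith
  · split_ifs with h2
    · have : toks D ⟨s.z, s.h, tk'⟩ u R \ toks D s u R = Nw := by
        ext t
        rw [mem_sdiff, hmem]
        constructor
        · rintro ⟨h | h, h3⟩
          · exact h.1
          · exact absurd h.1 h3
        · intro h
          exact ⟨Or.inl ⟨h, h2⟩, hNt u R t h⟩
      rw [this, hNc]
    · have : toks D ⟨s.z, s.h, tk'⟩ u R \ toks D s u R = ∅ := by
        ext t
        rw [mem_sdiff, hmem]
        constructor
        · rintro ⟨h | h, h3⟩
          · exact absurd h.2 h2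
          · exact absurd h.1 h3
        · intro h
          exact absurd h (by simp)
      rw [this]
      simp
  · ext t
    rw [hmem]
    constructor
    · rintro (h | h)
      · exact absurd h.2 (by linarith)
      · exact h.1
    · intro h
      refine Or.inr ⟨h, fun h3 => ?_⟩
      obtain ⟨c, h4, h5⟩ := mem_toks.1 h
      have h6 : t ∈ K c := by
        rw [← hKi]
        exact mem_inter.2 ⟨mem_at.2 h4, h3⟩
      have h7 : ¬ D w c ≤ 24 := by
        have := hD.tri u c w
        rw [hD.symm c w] at this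
        linarith
      have h8 := hKc c
      rw [if_neg h7, card_eq_zero] at h8
      rw [h8] at h6
      exact absurd h6 (by simp)

namespace E2

section Bas

variable {X : Type} [Fintype X] [DecidableEq X] {Q : ℕ} {D : X → X → ℝ}

theorem cid_min (s : LS X Q) (u : X) (i : Option X) : val D s u (cid D s u) ≤ val D s u i :=
  Classical.choose_spec (Finite.exists_min (val D s u)) i

theorem toks_mono (s : LS X Q) (u : X) {R R' : ℝ} (h : R ≤ R') : toks D s u R ⊆ toks D s u R' := by
  intro t ht
  obtain ⟨c, h1, h2⟩ := mem_toks.1 ht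
  exact mem_toks.2 ⟨c, h1, h2.trans h⟩

theorem EE_fst {A B : Type} [Fintype A] [Fintype B] [Nonempty B] (f : A → ℝ) :
    EE (fun ω : A × B => f ω.1) = EE f := by
  have h : (Fintype.card B : ℝ) ≠ 0 := by exact_mod_cast Fintype.card_ne_zero
  simp only [EE, Fintype.sum_prod_type, sum_const, card_univ, nsmul_eq_mul, Fintype.card_prod,
    Nat.cast_mul, ← mul_sum]
  rw [mul_comm (Fintype.card A : ℝ), mul_div_mul_left _ _ h]

theorem EE_snd {A B : Type} [Fintype A] [Fintype B] [Nonempty A] (f : B → ℝ) :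
    EE (fun ω : A × B => f ω.2) = EE f := by
  have h : (Fintype.card A : ℝ) ≠ 0 := by exact_mod_cast Fintype.card_ne_zero
  simp only [EE, Fintype.sum_prod_type, sum_const, card_univ, nsmul_eq_mul, Fintype.card_prod,
    Nat.cast_mul]
  rw [mul_div_mul_left _ _ h]

theorem EE_fin {B : Type} [Fintype B] (N : ℕ) (f : ℕ → B → ℝ) :
    EE (fun ω : Fin N × B => f ω.1 ω.2) = (∑ i ∈ range N, EE (f i)) / N := by
  simp only [EE, Fintype.sum_prod_type, Fintype.card_prod, Nat.cast_mul, Fintype.card_fin]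
  rw [← sum_div, Fin.sum_univ_eq_sum_range (fun i => ∑ b, f i b) N, div_div, mul_comm]

theorem card_window (N : ℕ) (S : Finset (Fin N)) (a b : ℝ) (hab : a ≤ b)
    (h : ∀ i ∈ S, a < ((i : ℕ) : ℝ) ∧ ((i : ℕ) : ℝ) ≤ b) : (S.card : ℝ) ≤ b - a + 1 := by
  rcases S.eq_empty_or_nonempty with rfl | hS
  · simp only [card_empty, Nat.cast_zero]
    linarith
  · have h1 := card_Ico_fin N (S.min' hS) (S.max' hS + 1) S fun j hj =>
      ⟨S.min'_le j hj, Nat.lt_succ_of_le (S.le_max' j hj)⟩
    have h2 : ((S.min' hS : Fin N) : ℕ) ≤ (S.max' hS : Fin N) := S.min'_le _ (S.max'_mem hS)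
    have h3 : (S.card : ℝ) ≤ ((S.max' hS : Fin N) : ℕ) + 1 - ((S.min' hS : Fin N) : ℕ) := by
      have h4 : S.card + ((S.min' hS : Fin N) : ℕ) ≤ ((S.max' hS : Fin N) : ℕ) + 1 := by omega
      have h5 : (S.card : ℝ) + ((S.min' hS : Fin N) : ℕ) ≤ ((S.max' hS : Fin N) : ℕ) + 1 := by
        exact_mod_cast h4
      linarith
    have h6 := (h _ (S.min'_mem hS)).1
    have h7 := (h _ (S.max'_mem hS)).2
    linarith

theorem thr_le (N : ℕ) (a b : ℝ) (hN : 1 ≤ N) (hab : a ≤ b) :
    thr N (fun R => a < R ∧ R ≤ b) ≤ b - a + 1 / N := by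
  classical
  have hN' : (0 : ℝ) < N := by exact_mod_cast hN
  set S : Finset (Fin N) := univ.filter fun i : Fin N =>
    a < 2 + (((i : ℕ) : ℝ) + 1) / N ∧ 2 + (((i : ℕ) : ℝ) + 1) / N ≤ b with hS
  have h1 : thr N (fun R => a < R ∧ R ≤ b) = (S.card : ℝ) / N := by
    unfold thr EE
    rw [Fintype.card_fin, hS, card_filter]
    push_cast
    congr 1
    exact sum_congr rfl fun i _ => by split_ifs <;> rfl
  have h2 := card_window N S ((a - 2) * N - 1) ((b - 2) * N - 1) (by nlinarith) fun i hi => by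
    obtain ⟨h3, h4⟩ := (mem_filter.1 hi).2
    have h5 : a - 2 < (((i : ℕ) : ℝ) + 1) / N := by linarith
    have h6 : (((i : ℕ) : ℝ) + 1) / N ≤ b - 2 := by linarith
    rw [lt_div_iff₀ hN'] at h5
    rw [div_le_iff₀ hN'] at h6
    constructor <;> linarith
  rw [h1, div_le_iff₀ hN', add_mul, one_div, inv_mul_cancel₀ hN'.ne']
  linarith

open Classical in
theorem dif_le (N Ne : ℕ) (s s' : LS X Q) (u v : X) (hN : 1 ≤ N) :
    dif (lab D N Ne s u) (lab D N Ne s' v) ≤
      thr N (fun R => ¬ (En D s u < R ↔ En D s' v < R)) +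
      thr N (fun R => En D s u < R ∧ En D s' v < R ∧ cid D s u ≠ cid D s' v) +
      (if 2 < En D s u ∧ 2 < En D s' v then
        (∑ i ∈ range N, dif (pick Ne (toks D s u (Rad N (N + 1 + i))))
          (pick Ne (toks D s' v (Rad N (N + 1 + i))))) / N else 0) := by
  have hN' : (0 : ℝ) < N := by exact_mod_cast hN
  have : Nonempty (Fin N) := ⟨⟨0, hN⟩⟩
  let f1 : Fin N → ℝ := fun i => if ¬ (En D s u < 2 + (((i : ℕ) : ℝ) + 1) / N ↔
    En D s' v < 2 + (((i : ℕ) : ℝ) + 1) / N) then 1 else 0
  let f2 : Fin N → ℝ := fun i => if En D s u < 2 + (((i : ℕ) : ℝ) + 1) / N ∧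
    En D s' v < 2 + (((i : ℕ) : ℝ) + 1) / N ∧ cid D s u ≠ cid D s' v then 1 else 0
  let f3 : ℕ → Dyn.Ord (Slot X Q Ne) → ℝ := fun i π =>
    if pick Ne (toks D s u (Rad N (N + 1 + i))) π = pick Ne (toks D s' v (Rad N (N + 1 + i))) π
    then 0 else 1
  let c : ℝ := if 2 < En D s u ∧ 2 < En D s' v then 1 else 0
  have e1 : thr N (fun R => ¬ (En D s u < R ↔ En D s' v < R)) = EE f1 := by
    unfold thr
    congr 1
    funext i
    simp only [f1]
    split_ifs <;> rfl
  have e2 : thr N (fun R => En D s u < R ∧ En D s' v < R ∧ cid D s u ≠ cid D s' v) = EE f2 := by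
    unfold thr
    congr 1
    funext i
    simp only [f2]
    split_ifs <;> rfl
  have e3 : ∀ i, dif (pick Ne (toks D s u (Rad N (N + 1 + i))))
      (pick Ne (toks D s' v (Rad N (N + 1 + i)))) = EE (f3 i) := by
    intro i
    unfold dif
    congr 1
    funext π
    simp only [f3]
    split_ifs <;> rfl
  have e4 : (if 2 < En D s u ∧ 2 < En D s' v then
        (∑ i ∈ range N, dif (pick Ne (toks D s u (Rad N (N + 1 + i))))
          (pick Ne (toks D s' v (Rad N (N + 1 + i))))) / N else 0) =
      c * ((∑ i ∈ range N, EE (f3 i)) / N) := by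
    simp only [c, e3]
    split_ifs
    · rw [one_mul]
    · rw [zero_mul]
  rw [e1, e2, e4, ← EE_fin N f3,
    ← EE_snd (A := Fin N) (fun ω : Fin N × Dyn.Ord (Slot X Q Ne) => f3 ω.1 ω.2),
    ← EE_fst (B := Fin N × Dyn.Ord (Slot X Q Ne)) f1,
    ← EE_fst (B := Fin N × Dyn.Ord (Slot X Q Ne)) f2, ← EE_mul, ← EE_add, ← EE_add]
  unfold dif
  apply EE_mono
  rintro ⟨i, j, π⟩
  have hR : (2 : ℝ) < 2 + (((i : ℕ) : ℝ) + 1) / N := by
    have : (0 : ℝ) < (((i : ℕ) : ℝ) + 1) / N := by positivity
    linarith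
  have p1 : 0 ≤ f1 i := by
    simp only [f1]
    split_ifs <;> norm_num
  have p2 : 0 ≤ f2 i := by
    simp only [f2]
    split_ifs <;> norm_num
  have p3 : 0 ≤ c * f3 j π := by
    simp only [c, f3]
    split_ifs <;> norm_num
  by_cases h : lab D N Ne s u (i, j, π) = lab D N Ne s' v (i, j, π)
  · rw [if_pos h]
    show 0 ≤ f1 i + f2 i + c * f3 j π
    linarith
  rw [if_neg h]
  show 1 ≤ f1 i + f2 i + c * f3 j π
  by_cases a1 : En D s u < 2 + (((i : ℕ) : ℝ) + 1) / N
  · by_cases a2 : En D s' v < 2 + (((i : ℕ) : ℝ) + 1) / N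
    · have a3 : cid D s u ≠ cid D s' v := by
        intro a3
        apply h
        simp only [lab, if_pos a1, if_pos a2, a3]
      have : f2 i = 1 := if_pos ⟨a1, a2, a3⟩
      linarith
    · have : f1 i = 1 := if_pos fun hh => a2 (hh.1 a1)
      linarith
  · by_cases a2 : En D s' v < 2 + (((i : ℕ) : ℝ) + 1) / N
    · have : f1 i = 1 := if_pos fun hh => a1 (hh.2 a2)
      linarith
    · have a3 : c = 1 := if_pos ⟨by linarith [not_lt.1 a1], by linarith [not_lt.1 a2]⟩
      have a4 : f3 j π = 1 := by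
        apply if_neg
        intro a4
        apply h
        simp only [lab, if_neg a1, if_neg a2]
        exact a4
      rw [a3, a4]
      linarith

end Bas

end E2

open E2 in
theorem basic : Basic where
  val_uniq X _ _ Q D s u i hD hs hi := by
    have h1 := cid_min (D := D) s u i
    have h2 : cid D s u = i := by
      by_contra h
      have h3 := hs.sep _ _ h
      have h4 := hD.tri (s.z (cid D s u)) u (s.z i)
      rw [hD.symm _ u] at h4
      unfold val at h1 hi
      linarith
    refine ⟨h2, ?_⟩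
    unfold En
    rw [h2]
    exact min_eq_right hi.le
  En_le X _ _ Q D s u i := (min_le_right _ _).trans (cid_min s u i)
  En_range X _ _ Q D s u hD hs :=
    ⟨le_min (by norm_num) (add_nonneg (D_nonneg hD _ _) (hs.h_nonneg _)), min_le_left _ _⟩
  En_lip X _ _ Q D s u v hD := by
    have h1 : En D s u ≤ val D s u (cid D s v) := (min_le_right _ _).trans (cid_min s u _)
    have h2 : En D s u ≤ 3 := min_le_left _ _
    have h3 := hD.tri u v (s.z (cid D s v))
    have h4 := D_nonneg hD u v
    have h5 : En D s u - D u v ≤ En D s v := by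
      apply le_min
      · linarith
      · unfold val at h1 ⊢
        linarith
    linarith
  SS_range X _ _ Q N ε D s u i hs hQ hN h0 h1 hi := by
    have hQ' : (0 : ℝ) < Q := by exact_mod_cast hQ
    have hN' : (0 : ℝ) < N := by exact_mod_cast hN
    have h2 : Rad N i ≤ 12 := by
      have h3 : (i : ℝ) ≤ 3 * N := by exact_mod_cast hi
      have h4 : (i : ℝ) / N ≤ 3 := by rwa [div_le_iff₀ hN']
      unfold Rad
      linarith
    have h3 : ((toks D s u (Rad N i)).card : ℝ) ≤ Q := by
      exact_mod_cast (card_le_card (toks_mono s u h2)).trans (hs.cap u)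
    have h4 : ((toks D s u (Rad N i)).card : ℝ) / Q ≤ 1 := by rwa [div_le_one hQ']
    have h5 : 0 ≤ ((toks D s u (Rad N i)).card : ℝ) / Q := by positivity
    have h6 : ε ≤ SS D N ε s u i := by
      unfold SS
      linarith
    have h7 : SS D N ε s u i ≤ 2 := by
      unfold SS
      linarith
    have h8 : 0 < SS D N ε s u i := h0.trans_le h6
    refine ⟨h6, h7, Real.log_nonneg ?_, Real.log_le_log (by positivity) ?_⟩
    · rwa [le_div_iff₀ h8, one_mul]
    · exact div_le_div_of_nonneg_left (by norm_num) h0 h6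
  SS_mono X _ _ Q N ε D s u v i i' hD _ h := by
    have h1 : toks D s u (Rad N i) ⊆ toks D s v (Rad N i') := by
      intro t ht
      obtain ⟨c, h1, h2⟩ := mem_toks.1 ht
      refine mem_toks.2 ⟨c, h1, ?_⟩
      have h3 := hD.tri v u c
      rw [hD.symm v u] at h3
      unfold Rad at h2 ⊢
      linarith
    refine ⟨h1, ?_⟩
    have h2 : ((toks D s u (Rad N i)).card : ℝ) ≤ (toks D s v (Rad N i')).card := by
      exact_mod_cast card_le_card h1
    unfold SS
    have := div_le_div_of_nonneg_right h2 (Nat.cast_nonneg Q : (0 : ℝ) ≤ Q)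
    linarith
  thr_le := E2.thr_le
  dif_le X _ _ Q N Ne D s s' u v hN := E2.dif_le N Ne s s' u v hN

end Vale.Agent.P304Z.E
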