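import Vale.Agent.P304Z.E1

/-!
# P304Z, layer E: the effect of a thinning, and optimality against thinning
-/

open Finset

namespace Vale.Agent.P304Z.E

open Vale.Agent.P304 Vale.Agent.P304.Dyn

set_option linter.unusedSectionVars false

namespace E3

theorem log_step {S S' : ℝ} (hS : 0 < S) (hS' : 0 < S') :
    Real.log (2 / S') - Real.log (2 / S) ≤ (S - S') / S' := by
  rw [← Real.log_div (by positivity) (by positivity)]
  refine (Real.log_le_sub_one_of_pos (by positivity)).trans (le_of_eq ?_)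
  field_simp

/-- the arithmetic of the first claim; `t, r, a` are divided by `Q` -/
theorem te_log {ε θ t r a m q b : ℝ} (hε : 0 < ε) (hθ : 0 ≤ θ) (hθ' : θ ≤ 1 / 4) (ht : 0 ≤ t)
    (hm : 0 ≤ m) (hq : 0 ≤ q) (he : m + q ≤ ε / 4) (hr : r ≤ θ * t + m) (hrt : r ≤ t)
    (ha : 0 ≤ a) (hb : b - q ≤ a) :
    ((ε + t) - (ε + (t - r + a))) / (ε + (t - r + a)) ≤
      2 * θ + (m + q) / ε - b / (ε + (t - r + a)) := by
  set S' := ε + (t - r + a) with hS'
  have h1 : ε ≤ S' := by linarith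
  have h2 : 0 < S' := hε.trans_le h1
  have h3 : t ≤ 2 * S' := by nlinarith
  have h4 : (m + q) / S' ≤ (m + q) / ε := div_le_div_of_nonneg_left (by linarith) hε h1
  have h5 : (ε + t - S' + b - (m + q)) / S' ≤ 2 * θ := by
    rw [div_le_iff₀ h2]
    nlinarith
  have h6 : (ε + t - S' + b - (m + q)) / S' = (ε + t - S') / S' + b / S' - (m + q) / S' := by ring
  linarith

/-- the arithmetic of the second claim -/
theorem te_dif {ε θ t t' U r a m q b : ℝ} (hε : 0 < ε) (hθ : 0 ≤ θ) (ht : 0 ≤ t) (ht' : 0 ≤ t')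
    (hm : 0 ≤ m) (hq : 0 ≤ q) (hr : r ≤ θ * t + m) (hU : t ≤ U) (hU' : t' ≤ U) (hb : 0 ≤ b)
    (ha : a ≤ b) :
    4 * (r + a) / (ε + U) ≤ 4 * θ + 4 * ((m + q) / ε) + 4 * (b / (ε + t')) := by
  have h0 : 0 < ε + U := by linarith
  have h1 : (m + q) / (ε + U) ≤ (m + q) / ε :=
    div_le_div_of_nonneg_left (by linarith) hε (by linarith)
  have h2 : b / (ε + U) ≤ b / (ε + t') :=
    div_le_div_of_nonneg_left hb (by linarith) (by linarith)
  have h3 : (r + a - (m + q) - b) / (ε + U) ≤ θ := by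
    rw [div_le_iff₀ h0]
    nlinarith
  have h4 : 4 * (r + a) / (ε + U) =
      4 * ((r + a - (m + q) - b) / (ε + U) + (m + q) / (ε + U) + b / (ε + U)) := by ring
  linarith

theorem eps_range {n k N Q Ne : ℕ} {ε εs ζ : ℝ} (h : Prm n k N Q Ne ε εs ζ) :
    0 < ε ∧ ε ≤ 1 / 4 := by
  have hk : (1 : ℝ) ≤ k := by exact_mod_cast h.hk
  rw [h.hε]
  exact ⟨by positivity, one_div_le_one_div_of_le (by norm_num) (by linarith)⟩

theorem Rad_range {N i : ℕ} (hN : 1 ≤ N) (hi : i ≤ 2 * N) : 9 ≤ Rad N i ∧ Rad N i ≤ 11 := by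
  have h1 : (0 : ℝ) < N := by exact_mod_cast hN
  have h2 : (i : ℝ) ≤ 2 * N := by exact_mod_cast hi
  have h3 : (i : ℝ) / N ≤ 2 := by rwa [div_le_iff₀ h1]
  have h4 : (0 : ℝ) ≤ (i : ℝ) / N := by positivity
  unfold Rad
  constructor <;> linarith

variable {X : Type} [Fintype X] [DecidableEq X] {Q : ℕ} {D : X → X → ℝ}

theorem toks_mono (s : LS X Q) (u : X) {R R' : ℝ} (h : R ≤ R') : toks D s u R ⊆ toks D s u R' := by
  classical
  intro t ht
  simp only [toks, mem_filter, mem_univ, true_and] at ht ⊢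
  obtain ⟨c, h1, h2⟩ := ht
  exact ⟨c, h1, h2.trans h⟩

theorem te_sets {α : Type} [DecidableEq α] (T T' : Finset α) {q : ℝ} (hq : 0 < q) :
    (T.card : ℝ) / q ≤ (T ∪ T').card / q ∧ (T'.card : ℝ) / q ≤ (T ∪ T').card / q ∧
      ((T \ T').card : ℝ) / q ≤ T.card / q ∧ ((T' \ T).card : ℝ) / q ≤ T'.card / q ∧
      (T'.card : ℝ) / q = T.card / q - (T \ T').card / q + (T' \ T).card / q := by
  have c1 : ((T \ T').card : ℝ) + (T ∩ T').card = T.card := by
    exact_mod_cast card_sdiff_add_card_inter T T'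
  have c2 : ((T' \ T).card : ℝ) + (T ∩ T').card = T'.card := by
    rw [inter_comm]; exact_mod_cast card_sdiff_add_card_inter T' T
  refine ⟨?_, ?_, ?_, ?_, ?_⟩
  · gcongr; exact subset_union_left
  · gcongr; exact subset_union_right
  · gcongr; exact sdiff_subset
  · gcongr; exact sdiff_subset
  · rw [← c1, ← c2]; ring

theorem te_add {θ q a : ℝ} {P : Prop} [Decidable P] (hθ : 0 ≤ θ) (hq : 0 < q)
    (ha : a = if P then (⌊θ * q⌋₊ : ℝ) else 0) :
    ∃ b : ℝ, 0 ≤ b ∧ b ≤ θ ∧ a / q ≤ b ∧ b - 1 / q ≤ a / q ∧ (P → b = θ) ∧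
      (∀ S : ℝ, (if P then θ / S else 0) = b / S) ∧
      ∀ S : ℝ, (if P then 4 * (θ / S) else 0) = 4 * (b / S) := by
  by_cases h : P
  · rw [if_pos h] at ha
    refine ⟨θ, hθ, le_rfl, ?_, ?_, fun _ => rfl, fun S => if_pos h, fun S => if_pos h⟩
    · rw [div_le_iff₀ hq, ha]; exact Nat.floor_le (by positivity)
    · rw [sub_le_iff_le_add, ← add_div, le_div_iff₀ hq, ha]; exact (Nat.lt_floor_add_one _).le
  · rw [if_neg h] at ha
    refine ⟨0, le_rfl, hθ, by simp [ha], by simp [ha, hq.le], fun h' => (h h').elim,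
      fun S => by simp [h], fun S => by simp [h]⟩

end E3

open E3

theorem stTE (hM : StMH) : StTE := by
  classical
  intro X _ _ k N Q Ne ε εs ζ D s w θ s' _ prm _ hθ hθ' th u i hi
  obtain ⟨hε, hε'⟩ := eps_range prm
  obtain ⟨-, hR⟩ := Rad_range (le_trans (by norm_num) prm.hN) hi
  have hQ : (0 : ℝ) < Q := by exact_mod_cast prm.hQ
  have hrem : ((toks D s u (Rad N i) \ toks D s' u (Rad N i)).card : ℝ) ≤
      θ * (toks D s u (Rad N i)).card + Fintype.card X := th.rem u _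
  have hadd : ((toks D s' u (Rad N i) \ toks D s u (Rad N i)).card : ℝ) =
      if D u w ≤ Rad N i then (⌊θ * Q⌋₊ : ℝ) else 0 := th.add u _
  have hcap : (toks D s' u 12).card ≤ Q := th.cap u
  have hfar : 24 + Rad N i < D u w → toks D s' u (Rad N i) = toks D s u (Rad N i) := th.far u _
  have hcap' : ((toks D s' u (Rad N i)).card : ℝ) / Q ≤ 1 := (div_le_one hQ).2 (by
    exact_mod_cast (card_le_card (toks_mono s' u (by linarith))).trans hcap)
  have hmh := (hM X Q Ne ε hε prm.hQ prm.Ne_lo).1 (toks D s u (Rad N i)) (toks D s' u (Rad N i))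
  unfold LL SS
  generalize toks D s u (Rad N i) = T at *
  generalize toks D s' u (Rad N i) = T' at *
  obtain ⟨c1, c2, c3, c4, c5⟩ := te_sets T T' hQ
  obtain ⟨b, b0, b1, b2, b3, b4, b5, b6⟩ := te_add hθ hQ hadd
  have hr : ((T \ T').card : ℝ) / Q ≤ θ * (T.card / Q) + Fintype.card X / Q := by
    rw [← mul_div_assoc, ← add_div]; gcongr
  have he : (Fintype.card X : ℝ) / Q + 1 / Q ≤ ε / 4 := by rw [← add_div]; exact prm.e1
  have hm : (0 : ℝ) ≤ (Fintype.card X : ℝ) / Q := div_nonneg (Nat.cast_nonneg _) hQ.le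
  have hq : (0 : ℝ) ≤ 1 / (Q : ℝ) := by positivity
  have hT : (0 : ℝ) ≤ (T.card : ℝ) / Q := div_nonneg (Nat.cast_nonneg _) hQ.le
  have hT' : (0 : ℝ) ≤ (T'.card : ℝ) / Q := div_nonneg (Nat.cast_nonneg _) hQ.le
  have h1 : (0 : ℝ) ≤ ((T \ T').card : ℝ) / Q := div_nonneg (Nat.cast_nonneg _) hQ.le
  have h2 : (0 : ℝ) ≤ ((T' \ T).card : ℝ) / Q := div_nonneg (Nat.cast_nonneg _) hQ.le
  rw [b5, b6, add_div _ (1 : ℝ)]
  rw [mul_div_assoc, add_div, ← mul_div_assoc] at hmh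
  generalize ((T \ T').card : ℝ) / Q = r at *
  generalize ((T' \ T).card : ℝ) / Q = a at *
  generalize ((T ∪ T').card : ℝ) / Q = U at *
  generalize (T.card : ℝ) / Q = t at *
  generalize (T'.card : ℝ) / Q = t' at *
  refine ⟨?_, hmh.trans (te_dif hε hθ hT hT' hm hq hr c1 c2 b0 b2), by linarith, by linarith,
    fun h => by linarith [b4 h], fun h => hfar (by linarith)⟩
  refine (log_step (by linarith) (by linarith)).trans ?_
  rw [c5]
  exact te_log hε hθ hθ' hT hm hq he hr c3 h2 b3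

namespace E3

theorem sum_f (N n : ℕ) :
    ∑ i ∈ range (n + 1), (i : ℝ) / (N : ℝ) ^ 2 = n * (n + 1) / 2 / (N : ℝ) ^ 2 := by
  rw [← sum_div]
  congr 1
  induction n with
  | zero => simp
  | succ n ih => rw [sum_range_succ, ih]; push_cast; ring

theorem ell_step {N : ℕ} (hN : 1 ≤ N) {L L' a : ℕ → ℝ} {A : ℝ} (hA : 0 ≤ A)
    (h : ∀ i, i ≤ 2 * N → L' i - L i ≤ A - a i) :
    ∑ i ∈ range (2 * N + 1), (i : ℝ) / (N : ℝ) ^ 2 * L' i -
        ∑ i ∈ range (2 * N + 1), (i : ℝ) / (N : ℝ) ^ 2 * L i ≤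
      3 * A - ∑ i ∈ range (2 * N + 1), (i : ℝ) / (N : ℝ) ^ 2 * a i := by
  have hN' : (1 : ℝ) ≤ N := by exact_mod_cast hN
  have h1 : ∑ i ∈ range (2 * N + 1), (i : ℝ) / (N : ℝ) ^ 2 ≤ 3 := by
    rw [sum_f, div_le_iff₀ (by positivity)]
    push_cast
    nlinarith
  have h2 : ∑ i ∈ range (2 * N + 1), (i : ℝ) / (N : ℝ) ^ 2 * (L' i - L i) ≤
      ∑ i ∈ range (2 * N + 1), (i : ℝ) / (N : ℝ) ^ 2 * (A - a i) :=
    sum_le_sum fun i hi => mul_le_mul_of_nonneg_left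
      (h i (by have := mem_range.1 hi; omega)) (by positivity)
  simp only [mul_sub, sum_sub_distrib] at h2
  rw [← sum_mul] at h2
  nlinarith

theorem dif_step {N : ℕ} (hN : 1 ≤ N) {d a : ℕ → ℝ} {B : ℝ} (ha : ∀ i, 0 ≤ a i)
    (h : ∀ i, i ≤ 2 * N → d i ≤ B + 4 * a i) :
    (∑ i ∈ range N, d (N + 1 + i)) / N ≤
      B + 4 * ∑ i ∈ range (2 * N + 1), (i : ℝ) / (N : ℝ) ^ 2 * a i := by
  have hN' : (0 : ℝ) < N := by exact_mod_cast hN
  have h1 : ∑ i ∈ range N, d (N + 1 + i) ≤ ∑ i ∈ range N, (B + 4 * a (N + 1 + i)) :=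
    sum_le_sum fun i hi => h _ (by have := mem_range.1 hi; omega)
  rw [sum_add_distrib, sum_const, card_range, nsmul_eq_mul, ← mul_sum] at h1
  have h2 : (∑ i ∈ range N, a (N + 1 + i)) / N ≤
      ∑ i ∈ range (2 * N + 1), (i : ℝ) / (N : ℝ) ^ 2 * a i := by
    rw [show 2 * N + 1 = N + 1 + N by ring, sum_range_add, sum_div]
    refine le_add_of_nonneg_of_le (sum_nonneg fun i _ => mul_nonneg (by positivity) (ha i))
      (sum_le_sum fun i _ => ?_)
    rw [div_eq_inv_mul]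
    refine mul_le_mul_of_nonneg_right ?_ (ha _)
    rw [le_div_iff₀ (by positivity), sq, inv_mul_cancel_left₀ hN'.ne']
    push_cast
    have : (0 : ℝ) ≤ i := Nat.cast_nonneg i
    linarith
  rw [div_le_iff₀ hN'] at h2 ⊢
  linarith

theorem low_step {N i : ℕ} (hi : i ≤ 2 * N) {a : ℕ → ℝ} {c : ℝ} (hc : 0 ≤ c) (ha : ∀ l, 0 ≤ a l)
    (h : ∀ l, l ≤ i → c ≤ a l) :
    ((i : ℝ) / N) ^ 2 / 2 * c ≤ ∑ l ∈ range (2 * N + 1), (l : ℝ) / (N : ℝ) ^ 2 * a l := by
  have h1 : ((i : ℝ) / N) ^ 2 / 2 ≤ ∑ l ∈ range (i + 1), (l : ℝ) / (N : ℝ) ^ 2 := by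
    rw [sum_f, div_pow, div_right_comm]
    have : (0 : ℝ) ≤ i := Nat.cast_nonneg i
    exact div_le_div_of_nonneg_right (by nlinarith) (by positivity)
  refine (mul_le_mul_of_nonneg_right h1 hc).trans ?_
  rw [sum_mul]
  refine (sum_le_sum fun l hl => mul_le_mul_of_nonneg_left
    (h l (by have := mem_range.1 hl; omega)) (by positivity)).trans ?_
  exact sum_le_sum_of_subset_of_nonneg (range_subset_range.2 (by omega))
    fun l _ _ => mul_nonneg (by positivity) (ha l)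

theorem yy_range (t : ℝ) : 0 ≤ yy t ∧ yy t ≤ 1 :=
  ⟨le_min zero_le_one (le_max_right _ _), min_le_left _ _⟩

theorem yy_of_two {t : ℝ} (h : 2 < t) : yy t = 1 :=
  min_eq_left (le_max_of_le_left (by linarith))

theorem yy_lip {a b d : ℝ} (hd : 0 ≤ d) (h : a ≤ b + d) : yy a ≤ yy b + d := by
  unfold yy
  rw [← min_add_add_right, ← max_add_add_right]
  exact min_le_min (by linarith) (max_le_max (by linarith) (by linarith))

theorem thr_false (N : ℕ) {P : ℝ → Prop} (h : ∀ R, ¬ P R) : thr N P = 0 := by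
  unfold thr EE
  simp only [h, if_false, sum_const_zero, zero_div]

theorem dif_self {Ω Λ : Type} [Fintype Ω] (a : Ω → Option Λ) : dif a a = 0 := by
  unfold dif EE
  simp only [if_true, sum_const_zero, zero_div]

variable {X : Type} [Fintype X] [DecidableEq X] {Q : ℕ} {D : X → X → ℝ}

open Classical in
/-- only the token part of the labels changes -/
theorem dif_thin (hB : Basic) {N : ℕ} (Ne : ℕ) (hN : 1 ≤ N) (s : LS X Q)
    (tk' : Tid X Q → Option X) (u : X) :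
    dif (lab D N Ne s u) (lab D N Ne ⟨s.z, s.h, tk'⟩ u) ≤ if 2 < En D s u then
      (∑ i ∈ range N, dif (pick Ne (toks D s u (Rad N (N + 1 + i))))
        (pick Ne (toks D ⟨s.z, s.h, tk'⟩ u (Rad N (N + 1 + i))))) / N else 0 := by
  have h := hB.dif_le X Q N Ne D s ⟨s.z, s.h, tk'⟩ u u hN
  have e1 : En D ⟨s.z, s.h, tk'⟩ u = En D s u := rfl
  have e2 : cid D ⟨s.z, s.h, tk'⟩ u = cid D s u := rfl
  rw [e1, e2, thr_false N fun R h => h Iff.rfl, thr_false N fun R h => h.2.2 rfl] at h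
  simpa only [zero_add, and_self] using h

/-- the change of the potential at `u` -/
noncomputable def dch (D : X → X → ℝ) (N Ne : ℕ) (ε : ℝ) (s s' : LS X Q) (u : X) : ℝ :=
  gl D N ε s' u - gl D N ε s u + 1 / 8 * dif (lab D N Ne s u) (lab D N Ne s' u)

theorem gl_thin (N : ℕ) (ε : ℝ) (s : LS X Q) (tk' : Tid X Q → Option X) (u : X) :
    gl D N ε ⟨s.z, s.h, tk'⟩ u - gl D N ε s u =
      yy (En D s u) ^ 2 * (ell D N ε ⟨s.z, s.h, tk'⟩ u - ell D N ε s u) := by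
  have e1 : En D ⟨s.z, s.h, tk'⟩ u = En D s u := rfl
  rw [gl, gl, e1]
  ring

theorem chg_far (hB : Basic) {N : ℕ} (Ne : ℕ) (ε : ℝ) (hN : 1 ≤ N) (s : LS X Q)
    (tk' : Tid X Q → Option X) (u : X)
    (h : ∀ i, i ≤ 2 * N → toks D ⟨s.z, s.h, tk'⟩ u (Rad N i) = toks D s u (Rad N i)) :
    dch D N Ne ε s ⟨s.z, s.h, tk'⟩ u ≤ 0 := by
  have h1 : ell D N ε ⟨s.z, s.h, tk'⟩ u = ell D N ε s u :=
    sum_congr rfl fun i hi => by rw [LL, LL, SS, SS, h i (by have := mem_range.1 hi; omega)]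
  have h2 := dif_thin (D := D) hB Ne hN s tk' u
  rw [sum_eq_zero fun i hi => by
    rw [h _ (by have := mem_range.1 hi; omega), dif_self], zero_div, ite_self] at h2
  rw [dch, gl_thin, h1, sub_self, mul_zero]
  linarith

theorem chg_near (hB : Basic) {N : ℕ} (Ne : ℕ) (ε : ℝ) (hN : 1 ≤ N) (s : LS X Q)
    (tk' : Tid X Q → Option X) (u : X) {a : ℕ → ℝ} {θ e : ℝ} (hθ : 0 ≤ θ) (he : 0 ≤ e)
    (ha : ∀ i, 0 ≤ a i)
    (h1 : ∀ i, i ≤ 2 * N → LL D N ε ⟨s.z, s.h, tk'⟩ u i - LL D N ε s u i ≤ 2 * θ + e - a i)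
    (h2 : ∀ i, i ≤ 2 * N → dif (pick Ne (toks D s u (Rad N i)))
      (pick Ne (toks D ⟨s.z, s.h, tk'⟩ u (Rad N i))) ≤ 4 * θ + 4 * e + 4 * a i) :
    dch D N Ne ε s ⟨s.z, s.h, tk'⟩ u ≤ 13 / 2 * θ + 7 / 2 * e -
      yy (En D s u) ^ 2 * (∑ i ∈ range (2 * N + 1), (i : ℝ) / (N : ℝ) ^ 2 * a i) / 2 := by
  have h3 : ell D N ε ⟨s.z, s.h, tk'⟩ u - ell D N ε s u ≤ _ := ell_step hN (by linarith) h1
  have h4 := dif_step hN ha h2
  have h5 := dif_thin (D := D) hB Ne hN s tk' u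
  have hW : 0 ≤ ∑ i ∈ range (2 * N + 1), (i : ℝ) / (N : ℝ) ^ 2 * a i :=
    sum_nonneg fun i _ => mul_nonneg (by positivity) (ha i)
  obtain ⟨y0, y1⟩ := yy_range (En D s u)
  have y2 : yy (En D s u) ^ 2 ≤ 1 := pow_le_one₀ y0 y1
  have y3 := sq_nonneg (yy (En D s u))
  have h6 := mul_le_mul_of_nonneg_left h3 y3
  rw [dch, gl_thin]
  split_ifs at h5 with h
  · rw [yy_of_two h] at h6 ⊢
    linarith
  · have h7 := mul_nonneg y3 hW
    have h8 := mul_le_of_le_one_left (show 0 ≤ 2 * θ + e by linarith) y2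
    linarith

theorem eps_le_SS (N : ℕ) (ε : ℝ) (s : LS X Q) (u : X) (i : ℕ) : ε ≤ SS D N ε s u i :=
  le_add_of_nonneg_right (div_nonneg (Nat.cast_nonneg _) (Nat.cast_nonneg _))

theorem pm_nonneg (pm : PM D) (x y : X) : 0 ≤ D x y := by
  have h1 := pm.tri x y x
  rw [pm.self, pm.symm y x] at h1
  linarith

open Classical in
theorem chg_le (hB : Basic) (hE : StTE) {k N Ne : ℕ} {ε εs ζ : ℝ} (pm : PM D)
    (prm : Prm (Fintype.card X) k N Q Ne ε εs ζ) {s : LS X Q} (hv : Valid D s) {x : X}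
    {tk' : Tid X Q → Option X} (th : Thin D s x ε tk') {i j : ℕ} (hi : i ≤ 2 * N)
    (hj : (j : ℝ) / N ≤ yy (En D s x) / 2) (u : X) :
    dch D N Ne ε s ⟨s.z, s.h, tk'⟩ u ≤ (if D x u ≤ 64 then 13 / 2 * ε else 0) +
      7 / 2 * (((Fintype.card X : ℝ) + 1) / Q / ε) - (if D x u ≤ (j : ℝ) / N then
        ε * (yy (En D s x) ^ 2 * ((i : ℝ) / N) ^ 2 / (32 * SS D N ε s x (i + j))) else 0) := by
  obtain ⟨hε, hε'⟩ := eps_range prm
  have hN : 1 ≤ N := le_trans (by norm_num) prm.hN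
  have hE' := hE X k N Q Ne ε εs ζ D s x ε ⟨s.z, s.h, tk'⟩ pm prm hv hε.le hε' th u
  have he : 0 ≤ ((Fintype.card X : ℝ) + 1) / Q / ε :=
    div_nonneg (div_nonneg (add_nonneg (Nat.cast_nonneg _) zero_le_one) (Nat.cast_nonneg _)) hε.le
  obtain ⟨y0, y1⟩ := yy_range (En D s x)
  by_cases h64 : D x u ≤ 64
  swap
  · have h1 := chg_far (D := D) hB Ne ε hN s tk' u fun l hl =>
      (hE' l hl).2.2.2.2.2 (by rw [pm.symm]; linarith)
    rw [if_neg h64, if_neg (by linarith)]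
    linarith
  set a : ℕ → ℝ := fun l => if D u x ≤ Rad N l then ε / SS D N ε ⟨s.z, s.h, tk'⟩ u l else 0
    with ha
  have ha0 : ∀ l, 0 ≤ a l := fun l => by
    simp only [ha]
    split_ifs
    · exact div_nonneg hε.le (hε.le.trans (eps_le_SS _ _ _ _ _))
    · exact le_rfl
  have h1 := chg_near (D := D) hB Ne ε hN s tk' u hε.le he ha0 (fun l hl => (hE' l hl).1)
    fun l hl => (hE' l hl).2.1.trans (le_of_eq (by simp only [ha, mul_ite, mul_zero]))
  have hW : 0 ≤ ∑ l ∈ range (2 * N + 1), (l : ℝ) / (N : ℝ) ^ 2 * a l :=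
    sum_nonneg fun l _ => mul_nonneg (by positivity) (ha0 l)
  rw [if_pos h64]
  split_ifs with hx
  swap
  · have := mul_nonneg (sq_nonneg (yy (En D s u))) hW
    linarith
  have hS := eps_le_SS (D := D) N ε s x (i + j)
  have hS0 := hε.trans_le hS
  have h2 := low_step (c := ε / (2 * SS D N ε s x (i + j))) hi (by positivity) ha0 fun l hl => by
    have hN' : (0 : ℝ) < N := by exact_mod_cast hN
    have h3 := (Rad_range hN (hl.trans hi)).1
    have h4 : D u x ≤ Rad N l := by rw [pm.symm]; linarith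
    have h5 := (hE' l (hl.trans hi)).2.2.1
    have h6 := (hB.SS_mono X Q N ε D s u x l (i + j) pm hN (by
      have h7 : (l : ℝ) / N ≤ (i : ℝ) / N := by gcongr
      rw [pm.symm, Nat.cast_add, add_div]
      linarith)).2
    simp only [ha, if_pos h4]
    exact div_le_div_of_nonneg_left hε.le (hε.trans_le (eps_le_SS _ _ _ _ _)) (by linarith)
  have h3 := yy_lip (pm_nonneg pm x u) (hB.En_lip X Q D s x u pm)
  have h4 : (yy (En D s x) / 2) ^ 2 ≤ yy (En D s u) ^ 2 :=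
    pow_le_pow_left₀ (by linarith) (by linarith) 2
  have h5 := mul_le_mul h4 h2 (by positivity) (sq_nonneg _)
  have h6 : ε * (yy (En D s x) ^ 2 * ((i : ℝ) / N) ^ 2 / (32 * SS D N ε s x (i + j))) =
      (yy (En D s x) / 2) ^ 2 * (((i : ℝ) / N) ^ 2 / 2 * (ε / (2 * SS D N ε s x (i + j)))) / 2 := by
    field_simp
    ring
  rw [h6]
  linarith

open Classical in
theorem sum_ite_bl (p : X → ℝ) (x : X) (ρ c : ℝ) :
    ∑ u, p u * (if D x u ≤ ρ then c else 0) = c * bl D p x ρ := by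
  rw [bl, mul_sum]
  exact sum_congr rfl fun u _ => by split_ifs <;> ring

theorem le_bl (pm : PM D) {p : X → ℝ} (hp : ∀ u, 0 ≤ p u) (x : X) {ρ : ℝ} (hρ : 0 ≤ ρ) :
    p x ≤ bl D p x ρ := by
  classical
  refine le_trans (le_of_eq ?_) (single_le_sum (f := fun u => if D x u ≤ ρ then p u else 0)
    (fun u _ => ?_) (mem_univ x))
  · rw [if_pos (by rwa [pm.self])]
  · split_ifs
    · exact hp u
    · exact le_rfl

theorem pt_arith {ε εs ζ k q n B b c : ℝ} (hε : 0 < ε) (hk : 0 ≤ k) (hq : 0 ≤ q) (hn : 0 ≤ n)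
    (hζ : 0 < ζ) (hζ' : ζ ≤ 1) (hB : ζ ≤ B) (err : k * (4 * q / ε + n) + εs ≤ ε * ζ ^ 3 / 8)
    (h : -εs ≤ 13 / 2 * ε * B + k * (7 / 2 * (q / ε)) - ε * c * b) : c * b ≤ 27 / 4 * B := by
  have h1 : 0 ≤ k * (q / ε) := by positivity
  have h2 : 0 ≤ k * n := by positivity
  have h3 : ζ ^ 3 ≤ B := (pow_le_of_le_one hζ.le hζ' (by norm_num)).trans hB
  have h4 := mul_le_mul_of_nonneg_left h3 hε.le
  have h5 : 0 ≤ ε * B := mul_nonneg hε.le (by linarith)
  rw [mul_div_assoc] at err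
  refine le_of_mul_le_mul_left ?_ hε
  linarith

end E3

theorem stPT (hB : Basic) (hT : StThin) (hE : StTE) : StPT := by
  classical
  intro X _ _ k N Q Ne ε εs ζ D p om s cx x hx i j hi hj
  obtain ⟨hε, hε'⟩ := eps_range cx.prm
  obtain ⟨tk', th⟩ := hT X Q D s x ε cx.pm cx.valid hε.le (by linarith)
  have h1 := cx.opt ⟨s.z, s.h, tk'⟩ ⟨cx.valid.h_nonneg, cx.valid.sep, th.cap⟩
    ⟨fun l _ _ => (cx.pm.self (s.z l)).trans_le (by norm_num), th.tok⟩
  have h2 : ∑ a, om a * fol D s ⟨s.z, s.h, tk'⟩ a = 0 := by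
    refine sum_eq_zero fun a _ => mul_eq_zero_of_right _ ?_
    rcases a with l | t
    · simp only [fol, Sum.elim_inl, cx.pm.self, ite_self]
    · rfl
  have h3 := sum_le_sum fun u (_ : u ∈ univ) => mul_le_mul_of_nonneg_left
    (chg_le hB hE cx.pm cx.prm cx.valid th hi hj u) (cx.p_nonneg u)
  simp only [dch, mul_add, mul_sub, sum_add_distrib, sum_sub_distrib, sum_ite_bl,
    mul_left_comm (p _) (1 / 8 : ℝ), ← mul_sum] at h3
  rw [← sum_mul, cx.p_sum] at h3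
  have hS := hε.trans_le (eps_le_SS (D := D) N ε s x (i + j))
  have h4 := pt_arith (B := bl D p x 64) (b := bl D p x ((j : ℝ) / N))
    (c := yy (En D s x) ^ 2 * ((i : ℝ) / N) ^ 2 / (32 * SS D N ε s x (i + j))) hε
    (Nat.cast_nonneg k)
    (div_nonneg (add_nonneg (Nat.cast_nonneg _) zero_le_one) (Nat.cast_nonneg Q))
    (div_nonneg zero_le_one (Nat.cast_nonneg N)) cx.prm.ζ_pos cx.prm.ζ_le
    (hx.trans (le_bl cx.pm cx.p_nonneg x (by norm_num))) cx.prm.err (by linarith)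
  rw [div_mul_eq_mul_div, div_le_iff₀ (by positivity)] at h4
  linarith

end Vale.Agent.P304Z.E
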