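import Vale.Agent.P304Z.E4.Pt

/-!
# P304Z, layer E: optimality against moving a centre to a point
-/

open Finset

set_option linter.unusedSectionVars false

namespace Vale.Agent.P304Z.E

open Vale.Agent.P304 Vale.Agent.P304.Dyn

namespace E4

theorem final {a M Y o ε ζ : ℝ} (hζ : 0 < ζ) (ha : ζ < a) (hM : ζ ≤ M) (hY : 0 ≤ Y) (ho : 0 ≤ o)
    (hε1 : ε ≤ 1)
    (h : 7 / 8 * a ^ 2 * M ≤ 389 * a * Y + a * o + ε * ζ ^ 3 / 8) :
    a ≤ ζ + 445 * (Y / M) + 2 * (o / M) := by
  have ha0 : 0 < a := hζ.trans ha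
  have hM0 : 0 < M := lt_of_lt_of_le hζ hM
  have h1 : ζ ^ 2 ≤ a * M := by nlinarith
  have h2 : ε * ζ ^ 3 ≤ ζ * (a * M) := by
    have h3 : ε * ζ ^ 3 ≤ 1 * ζ ^ 3 := mul_le_mul_of_nonneg_right hε1 (by positivity)
    have h4 : ζ * ζ ^ 2 ≤ ζ * (a * M) := mul_le_mul_of_nonneg_left h1 hζ.le
    nlinarith
  have h3 : a * (a * M) ≤ a * (ζ * M + 445 * Y + 2 * o) := by
    have h4 := mul_nonneg ha0.le hY
    have h5 := mul_nonneg ha0.le ho
    have h6 : 0 ≤ ζ * (a * M) := by positivity
    nlinarith
  have h4 : a * M ≤ ζ * M + 445 * Y + 2 * o := le_of_mul_le_mul_left h3 ha0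
  have h5 : ζ + 445 * (Y / M) + 2 * (o / M) = (ζ * M + 445 * Y + 2 * o) / M := by
    field_simp
  rw [h5, le_div_iff₀ hM0]
  exact h4

end E4

open E4

theorem stPO (hB : Basic) (hT : StThin) (hE : StTE) : StPO := by
  classical
  intro X _ _ k N Q Ne ε εs ζ D p om s cx x hx
  have hD := cx.pm
  have hp := cx.prm
  have hζ := hp.ζ_pos
  obtain ⟨hε, hε1⟩ := prm_eps hp
  have hM : ζ ≤ bl D p x 64 := by
    refine hx.trans ?_
    unfold bl
    have h1 := Finset.single_le_sum (f := fun u => if D x u ≤ 64 then p u else 0)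
      (s := univ) (fun u _ => by
        split_ifs
        · exact cx.p_nonneg u
        · exact le_rfl) (mem_univ x)
    rw [if_pos (by rw [hD.self]; norm_num)] at h1
    exact h1
  have hM0 : 0 < bl D p x 64 := lt_of_lt_of_le hζ hM
  have hY : 0 ≤ ∑ u, if D x u ≤ 64 then p u * min (D x u) 1 else 0 := by
    refine Finset.sum_nonneg fun u _ => ?_
    split_ifs
    · exact mul_nonneg (cx.p_nonneg u) (le_min (D_nonneg hD x u) zero_le_one)
    · exact le_rfl
  have ho : 0 ≤ (near D s x).elim 0 om := by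
    rcases near D s x with _ | b
    · exact le_rfl
    · exact cx.om_nonneg b
  rcases le_or_gt (En D s x) ζ with ha | ha
  · have h1 := div_nonneg hY hM0.le
    have h2 := div_nonneg ho hM0.le
    linarith
  have ha0 : 0 < En D s x := hζ.trans ha
  have ha3 := (hB.En_range X Q D s x hD cx.valid).2
  obtain ⟨tk', hth⟩ := hT X Q D s x (En D s x / 12) hD cx.valid (by positivity) (by linarith)
  obtain ⟨t, i0, g, htk⟩ := exists_geo hB hD cx.valid x tk'
  subst htk
  have vt : Valid D t := g.valid hth.cap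
  have hopt := cx.opt t vt (g.mv hth.tok)
  have hfol := g.fol_le cx.om_nonneg ha0.le
  have hN : 1 ≤ N := le_trans (by norm_num) hp.hN
  have hN0 : (0 : ℝ) < N := by exact_mod_cast hN
  have hc : 0 ≤ 4 * (((Fintype.card X : ℝ) + 1) / Q / ε) + 1 / N := by positivity
  have hpt : ∀ v, p v * gl D N ε t v - p v * gl D N ε s v +
      1 / 8 * (p v * dif (lab D N Ne s v) (lab D N Ne t v)) ≤
      -(7 / 8) * En D s x ^ 2 * (if D x v ≤ 64 then p v else 0) +
        389 * En D s x * (if D x v ≤ 64 then p v * min (D x v) 1 else 0) +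
        (4 * (((Fintype.card X : ℝ) + 1) / Q / ε) + 1 / N) * p v := by
    intro v
    have hv := cx.p_nonneg v
    have hd := D_nonneg hD x v
    split_ifs with h
    · have h1 : gl D N ε t v - gl D N ε s v + 1 / 8 * dif (lab D N Ne s v) (lab D N Ne t v) ≤
          -(7 / 8) * En D s x ^ 2 + 389 * En D s x * min (D x v) 1 +
            (4 * (((Fintype.card X : ℝ) + 1) / Q / ε) + 1 / N) := by
        rcases le_total (D x v) 1 with h2 | h2
        · have h3 := g.close hB vt hp h2
          rw [min_eq_left h2]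
          nlinarith [mul_nonneg ha0.le hd]
        · have h3 := g.mid hB hE vt hp ha0 hth v
          rw [min_eq_right h2]
          nlinarith
      have h2 := mul_le_mul_of_nonneg_left h1 hv
      nlinarith
    · have h1 : gl D N ε t v - gl D N ε s v + 1 / 8 * dif (lab D N Ne s v) (lab D N Ne t v) = 0 := by
        refine g.away hB vt (by linarith) fun i hi => ?_
        refine (hE X k N Q Ne ε εs ζ D s x (En D s x / 12) t hD hp cx.valid (by positivity)
          (by linarith) hth v i hi).2.2.2.2.2 ?_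
        rw [hD.symm]
        linarith
      have h2 : p v * (gl D N ε t v - gl D N ε s v +
          1 / 8 * dif (lab D N Ne s v) (lab D N Ne t v)) = 0 := by rw [h1, mul_zero]
      have h3 := mul_nonneg hc hv
      nlinarith
  have hsum := Finset.sum_le_sum fun v (_ : v ∈ (univ : Finset X)) => hpt v
  simp only [Finset.sum_add_distrib, Finset.sum_sub_distrib, ← Finset.mul_sum] at hsum
  rw [cx.p_sum] at hsum
  have herr := hp.err
  refine final hζ ha hM hY ho hε1 ?_
  have h1 : (4 * (((Fintype.card X : ℝ) + 1) / Q / ε) + 1 / N) * k =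
      k * (4 * (((Fintype.card X : ℝ) + 1) / Q) / ε + 1 / N) := by ring
  unfold bl
  linarith

end Vale.Agent.P304Z.E
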