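import Vale.Agent.P304Z.E1

/-!
# P304Z, layer E: the averaged density term and the spread of the mass
-/

open Finset

namespace Vale.Agent.P304Z.E

open Vale.Agent.P304 Vale.Agent.P304.Dyn

namespace E5

theorem min_le_count (a : ℝ) (n : ℕ) :
    min a (n + 1) ≤ 1 + ∑ i ∈ range n, if (i : ℝ) + 1 < a then (1 : ℝ) else 0 := by
  induction n with
  | zero => simp
  | succ n ih =>
    rw [sum_range_succ]
    push_cast
    split_ifs with h
    · rw [min_eq_right h.le] at ih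
      linarith [min_le_right a ((n : ℝ) + 1 + 1)]
    · rw [min_eq_left (not_lt.1 h)] at ih
      linarith [min_le_left a ((n : ℝ) + 1 + 1)]

theorem count_le {a : ℝ} (ha : 0 ≤ a) (n : ℕ) :
    (∑ i ∈ range n, if (i : ℝ) + 1 < a then (1 : ℝ) else 0) ≤ min a n := by
  induction n with
  | zero => simpa using ha
  | succ n ih =>
    rw [sum_range_succ]
    push_cast
    have h1 := ih.trans (min_le_left _ _)
    have h2 := ih.trans (min_le_right _ _)
    split_ifs with h <;> refine le_min ?_ ?_ <;> linarith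

theorem sum_half (ψ : ℕ → ℝ) (n : ℕ) : ∑ i ∈ range (2 * n), ψ (i / 2) = 2 * ∑ t ∈ range n, ψ t := by
  induction n with
  | zero => simp
  | succ n ih =>
    rw [show 2 * (n + 1) = 2 * n + 1 + 1 by ring, sum_range_succ, sum_range_succ, ih,
      sum_range_succ, show 2 * n / 2 = n by omega, show (2 * n + 1) / 2 = n by omega]
    ring

theorem log_432 : Real.log 432 ≤ 7 := by
  have h1 : Real.log 432 ≤ Real.log (2 ^ 9) := Real.log_le_log (by norm_num) (by norm_num)
  rw [Real.log_pow] at h1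
  have := Real.log_two_lt_d9
  push_cast at h1
  linarith

variable {X : Type} [Fintype X] {D : X → X → ℝ} {p : X → ℝ} {x : X}

theorem bl_mono (hp : ∀ u, 0 ≤ p u) {a b : ℝ} (h : a ≤ b) : bl D p x a ≤ bl D p x b := by
  unfold bl
  refine sum_le_sum fun u _ => ?_
  split_ifs with h1 h2
  · exact le_rfl
  · exact absurd (h1.trans h) h2
  · exact hp u
  · exact le_rfl

theorem bl_pos (hD : PM D) (hp : ∀ u, 0 ≤ p u) (hx : 0 < p x) {a : ℝ} (h : 0 ≤ a) :
    0 < bl D p x a := by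
  classical
  unfold bl
  refine hx.trans_le (le_trans ?_ (single_le_sum (f := fun u => if D x u ≤ a then p u else 0)
    (fun u _ => by split_ifs <;> simp [hp u]) (mem_univ x)))
  simp [hD.self, h]

/-- the logarithmic deficit of the ball -/
noncomputable def ph (D : X → X → ℝ) (p : X → ℝ) (x : X) (ρ : ℝ) : ℝ :=
  Real.log (bl D p x 64) - Real.log (bl D p x ρ)

theorem ph_anti (hD : PM D) (hp : ∀ u, 0 ≤ p u) (hx : 0 < p x) {a b : ℝ} (ha : 0 ≤ a) (h : a ≤ b) :
    ph D p x b ≤ ph D p x a :=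
  sub_le_sub_left (Real.log_le_log (bl_pos hD hp hx ha) (bl_mono hp h)) _

theorem ph_nonneg (hD : PM D) (hp : ∀ u, 0 ≤ p u) (hx : 0 < p x) {a : ℝ} (ha : 0 ≤ a)
    (h : a ≤ 64) : 0 ≤ ph D p x a :=
  sub_nonneg.2 (Real.log_le_log (bl_pos hD hp hx ha) (bl_mono hp h))

theorem bud_eq (N : ℕ) (δ : ℝ) :
    bud D N p x δ = (∑ i ∈ range N, ph D p x (max (((i : ℝ) + 1) / N) (2 * δ))) / N := rfl

theorem frac_le {N i : ℕ} (hi : i ∈ range N) : ((i : ℝ) + 1) / N ≤ 1 := by
  have h : (i : ℝ) + 1 ≤ N := by exact_mod_cast mem_range.1 hi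
  exact div_le_one_of_le₀ h (Nat.cast_nonneg _)

theorem term_nonneg (hD : PM D) (hp : ∀ u, 0 ≤ p u) (hx : 0 < p x) {N : ℕ} {δ : ℝ} (hδ : δ ≤ 1 / 8)
    {i : ℕ} (hi : i ∈ range N) : 0 ≤ ph D p x (max (((i : ℝ) + 1) / N) (2 * δ)) :=
  ph_nonneg hD hp hx (le_max_of_le_left (by positivity))
    (max_le ((frac_le hi).trans (by norm_num)) (by linarith))

theorem spread (hD : PM D) (hp : ∀ u, 0 ≤ p u) (hx : 0 < p x) {N : ℕ} (hN : 1 ≤ N) {δ : ℝ}
    (hδ₀ : 1 / (N : ℝ) ≤ δ) (hδ : δ ≤ 1 / 8) :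
    (∑ u, if D x u ≤ 64 then p u * min (D x u) 1 else 0) / bl D p x 64 ≤ 3 * δ + bud D N p x δ := by
  classical
  have hN0 : (0 : ℝ) < N := by exact_mod_cast hN
  have hδN : 1 ≤ δ * N := (div_le_iff₀ hN0).1 hδ₀
  have hM : 0 < bl D p x 64 := bl_pos hD hp hx (by norm_num)
  have h1 : N * (∑ u, if D x u ≤ 64 then p u * min (D x u) 1 else 0)
      ≤ bl D p x 64 + ∑ i ∈ range N, (bl D p x 64 - bl D p x (((i : ℝ) + 1) / N)) := by
    unfold bl
    simp only [← sum_sub_distrib]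
    rw [sum_comm, ← sum_add_distrib, mul_sum]
    refine sum_le_sum fun u _ => ?_
    split_ifs with h
    · have h2 := min_le_count (N * D x u) N
      have h3 : N * min (D x u) 1 ≤ min (N * D x u) (N + 1) := by
        rw [mul_min_of_nonneg _ _ hN0.le]
        exact min_le_min le_rfl (by linarith)
      have h4 : ∑ i ∈ range N, (p u - if D x u ≤ ((i : ℝ) + 1) / N then p u else 0)
          = p u * ∑ i ∈ range N, if (i : ℝ) + 1 < N * D x u then (1 : ℝ) else 0 := by
        rw [mul_sum]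
        refine sum_congr rfl fun i _ => ?_
        simp only [le_div_iff₀ hN0, mul_comm (D x u)]
        by_cases h5 : N * D x u ≤ (i : ℝ) + 1
        · simp [h5, not_lt.2 h5]
        · simp [h5, not_le.1 h5]
      rw [h4]
      nlinarith [mul_le_mul_of_nonneg_left (h3.trans h2) (hp u)]
    · rw [mul_zero, zero_add]
      refine sum_nonneg fun i hi => ?_
      rw [if_neg (fun h5 => h (h5.trans ((frac_le hi).trans (by norm_num)))), sub_zero]
  have h2 : ∀ i ∈ range N, bl D p x 64 - bl D p x (((i : ℝ) + 1) / N) ≤ bl D p x 64 *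
      (ph D p x (max (((i : ℝ) + 1) / N) (2 * δ))
        + if (i : ℝ) + 1 < 2 * δ * N then (1 : ℝ) else 0) := by
    intro i hi
    have h3 := term_nonneg hD hp hx hδ hi
    have h4 : 0 < bl D p x (((i : ℝ) + 1) / N) := bl_pos hD hp hx (by positivity)
    split_ifs with h
    · nlinarith
    · rw [max_eq_left ((le_div_iff₀ hN0).2 (not_lt.1 h)), add_zero, ph]
      have h5 := Real.log_le_sub_one_of_pos (div_pos h4 hM)
      rw [Real.log_div h4.ne' hM.ne'] at h5
      have h6 := mul_le_mul_of_nonneg_left h5 hM.le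
      rw [mul_sub (bl D p x 64) (_ / _), mul_div_cancel₀ _ hM.ne'] at h6
      linarith
  have h3 := sum_le_sum h2
  rw [← mul_sum, sum_add_distrib] at h3
  have h4 := (count_le (a := 2 * δ * N) (by linarith) N).trans (min_le_left _ _)
  rw [div_le_iff₀ hM, bud_eq]
  refine le_of_mul_le_mul_left ?_ hN0
  have e : N * ((3 * δ + (∑ i ∈ range N, ph D p x (max (((i : ℝ) + 1) / N) (2 * δ))) / N)
      * bl D p x 64) = bl D p x 64 * (3 * (δ * N)
        + ∑ i ∈ range N, ph D p x (max (((i : ℝ) + 1) / N) (2 * δ))) := by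
    field_simp
  rw [e]
  nlinarith

theorem init_le (hD : PM D) (hp : ∀ u, 0 ≤ p u) (hx : 0 < p x) {N j : ℕ} (hN : 1 ≤ N) {δ : ℝ}
    (hδ : δ ≤ 1 / 8) (hj : j ≤ N) (hj' : 2 * δ ≤ (j : ℝ) / N) :
    (j : ℝ) / N * ph D p x ((j : ℝ) / N) ≤ bud D N p x δ := by
  have hN0 : (0 : ℝ) < N := by exact_mod_cast hN
  rw [bud_eq, div_mul_eq_mul_div]
  refine div_le_div_of_nonneg_right (le_trans ?_ (sum_le_sum_of_subset_of_nonneg
    (range_subset_range.2 hj) fun i hi _ => term_nonneg hD hp hx hδ hi)) hN0.le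
  have := card_nsmul_le_sum (range j) (fun i : ℕ => ph D p x (max (((i : ℝ) + 1) / N) (2 * δ)))
    (ph D p x ((j : ℝ) / N)) fun i hi => ph_anti hD hp hx (le_max_of_le_left (by positivity))
      (max_le (div_le_div_of_nonneg_right (by exact_mod_cast mem_range.1 hi) hN0.le) hj')
  rwa [card_range, nsmul_eq_mul] at this

theorem log_bound {y m M S t : ℝ} (hy : 0 < y) (hm : 0 < m) (hM : 0 < M) (hS : 0 < S) (ht : 0 < t)
    (h : y ^ 2 * m * t⁻¹ ^ 2 ≤ 216 * M * S) :
    y * Real.log (2 / S) ≤ 7 * y + 2 + y * (Real.log M - Real.log m) + 2 * y * Real.log t := by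
  have h1 : 2 / S ≤ 432 * (y⁻¹ ^ 2 * (M / m) * t ^ 2) := by
    rw [div_le_iff₀ hS]
    have h2 := mul_le_mul_of_nonneg_left h (show 0 ≤ 2 * (y⁻¹ ^ 2 * m⁻¹ * t ^ 2) by positivity)
    have e₁ : 2 * (y⁻¹ ^ 2 * m⁻¹ * t ^ 2) * (y ^ 2 * m * t⁻¹ ^ 2) = 2 := by field_simp
    have e₂ : 2 * (y⁻¹ ^ 2 * m⁻¹ * t ^ 2) * (216 * M * S)
        = 432 * (y⁻¹ ^ 2 * (M / m) * t ^ 2) * S := by field_simp; ring
    rwa [e₁, e₂] at h2
  have h2 := Real.log_le_log (by positivity) h1
  rw [Real.log_mul (by norm_num) (by positivity), Real.log_mul (by positivity) (by positivity),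
    Real.log_mul (by positivity) (by positivity), Real.log_pow, Real.log_pow,
    Real.log_div hM.ne' hm.ne'] at h2
  have h3 : y * Real.log y⁻¹ ≤ 1 := by
    have := mul_le_mul_of_nonneg_left (Real.log_le_sub_one_of_pos (inv_pos.2 hy)) hy.le
    rw [mul_sub, mul_inv_cancel₀ hy.ne'] at this
    linarith
  have h4 := mul_le_mul_of_nonneg_left h2 hy.le
  push_cast at h4
  nlinarith [log_432]

/-- the bound for the pair of indices `2t`, `2t+1` -/
noncomputable def ps (D : X → X → ℝ) (p : X → ℝ) (x : X) (N : ℕ) (δ L : ℝ) (t : ℕ) : ℝ :=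
  if (t : ℝ) < 2 * δ * N then L else ph D p x ((t : ℝ) / N)

theorem ps_nonneg (hD : PM D) (hp : ∀ u, 0 ≤ p u) (hx : 0 < p x) {N : ℕ} (hN : 1 ≤ N) (δ : ℝ)
    {L : ℝ} (hL : 0 ≤ L) {t : ℕ} (ht : t ≤ N) : 0 ≤ ps D p x N δ L t := by
  have hN0 : (0 : ℝ) < N := by exact_mod_cast hN
  unfold ps
  split_ifs
  · exact hL
  · have : (t : ℝ) / N ≤ 1 := (div_le_one hN0).2 (by exact_mod_cast ht)
    exact ph_nonneg hD hp hx (by positivity) (by linarith)

theorem ps_sum (hD : PM D) (hp : ∀ u, 0 ≤ p u) (hx : 0 < p x) {N : ℕ} (hN : 1 ≤ N) {δ : ℝ}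
    (hδN : 1 ≤ δ * N) (hδ : δ ≤ 1 / 8) {L : ℝ} (hL : 0 ≤ L) :
    ∑ i ∈ range (2 * N + 1), ps D p x N δ L (i / 2) ≤ 6 * δ * N * L + 2 * N * bud D N p x δ := by
  have hN0 : (0 : ℝ) < N := by exact_mod_cast hN
  have a₁ : ∑ i ∈ range (2 * N + 1), ps D p x N δ L (i / 2)
      ≤ ∑ i ∈ range (2 * (N + 1)), ps D p x N δ L (i / 2) := by
    rw [show 2 * (N + 1) = 2 * N + 1 + 1 by ring, sum_range_succ _ (2 * N + 1)]
    exact le_add_of_nonneg_right (ps_nonneg hD hp hx hN δ hL (by omega))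
  have a₂ : ∀ t ∈ range N, ps D p x N δ L (t + 1)
      ≤ (if (t : ℝ) + 1 < 2 * δ * N then (1 : ℝ) else 0) * L
        + ph D p x (max (((t : ℝ) + 1) / N) (2 * δ)) := fun t ht => by
    have := term_nonneg hD hp hx hδ ht
    unfold ps
    push_cast
    split_ifs with h
    · linarith
    · rw [max_eq_left ((le_div_iff₀ hN0).2 (not_lt.1 h))]
      linarith
  have a₃ := sum_le_sum a₂
  rw [sum_add_distrib, ← sum_mul] at a₃
  have a₄ := mul_le_mul_of_nonneg_right
    ((count_le (a := 2 * δ * N) (by linarith) N).trans (min_le_left _ _)) hL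
  have a₅ : ps D p x N δ L 0 = L := by
    unfold ps
    rw [if_pos (by push_cast; linarith)]
  have a₆ : N * bud D N p x δ = ∑ i ∈ range N, ph D p x (max (((i : ℝ) + 1) / N) (2 * δ)) := by
    rw [bud_eq]; field_simp
  rw [sum_half, sum_range_succ' _ N, a₅] at a₁
  linarith [mul_le_mul_of_nonneg_right hδN hL]

theorem arith {N y b E δ L S T U : ℝ} (hN : 8 ≤ N) (hy : 0 ≤ y) (hb : 0 ≤ b) (hE : y + 1 ≤ E)
    (hδ : 0 ≤ δ) (hL : 0 ≤ L) (h1 : y * S ≤ (2 * N + 1) * (7 * y + 2 + 4 * b) + 2 * y * T + U)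
    (h2 : T ≤ 2 * N) (h3 : U ≤ 6 * δ * N * L + 2 * N * b) :
    y * S ≤ (29 * E + 14 * b + 24 * δ * L) * N := by
  have hN0 : 0 ≤ N := by linarith
  have h4 := mul_le_mul_of_nonneg_left h2 (show 0 ≤ 2 * y by linarith)
  have h5 : (2 * N + 1) * (7 * y + 2 + 4 * b) ≤ 17 / 8 * N * (7 * y + 2 + 4 * b) :=
    mul_le_mul_of_nonneg_right (by linarith) (by linarith)
  linarith [mul_le_mul_of_nonneg_right hE hN0, mul_nonneg hN0 hb,
    mul_nonneg (mul_nonneg hδ hN0) hL, mul_nonneg hy hN0]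

end E5

open E5 in
theorem stYL (hB : Basic) (hT : Tel) (hP : StPT) : StYL := by
  intro X _ _ k N Q Ne ε εs ζ D p om s cx x hx δ hδ₀ hδ
  have hD := cx.pm
  have hp := cx.p_nonneg
  have hx0 : 0 < p x := cx.prm.ζ_pos.trans_le hx
  have hN8 : (8 : ℝ) ≤ N := by exact_mod_cast cx.prm.hN
  have hN : 1 ≤ N := le_trans (by norm_num) cx.prm.hN
  have hN0 : (0 : ℝ) < N := by linarith
  have hδN : 1 ≤ δ * N := (div_le_iff₀ hN0).1 hδ₀
  have hδ0 : 0 < δ := lt_of_lt_of_le (by positivity) hδ₀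
  have hk : (1 : ℝ) ≤ k := by exact_mod_cast cx.prm.hk
  have hbud : 0 ≤ bud D N p x δ :=
    div_nonneg (sum_nonneg fun i hi => term_nonneg hD hp hx0 hδ hi) hN0.le
  refine ⟨?_, spread hD hp hx0 hN hδ₀ hδ, hbud⟩
  have hε : 0 < ε := by rw [cx.prm.hε]; positivity
  have hε1 : ε ≤ 1 := by rw [cx.prm.hε, div_le_one (by positivity)]; linarith
  have hlg : Real.log (2 / ε) = lgk k := by
    rw [cx.prm.hε, lgk]; congr 1; field_simp; ring
  have hlg0 : 0 ≤ lgk k := Real.log_nonneg (by linarith)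
  have hS := fun i (hi : i ∈ range (2 * N + 1)) => hB.SS_range X Q N ε D s x i cx.valid
    cx.prm.hQ hN hε hε1 (by have := mem_range.1 hi; omega)
  rw [hlg] at hS
  have hE := (hB.En_range X Q D s x hD cx.valid).1
  have hPT := hP X k N Q Ne ε εs ζ D p om s cx x hx
  set y := yy (En D s x) with hy
  have hy0 : 0 ≤ y := le_min zero_le_one (le_max_right _ _)
  have hy1 : y ≤ 1 := min_le_left _ _
  unfold Lbar
  rcases lt_or_ge y (8 * δ) with h8 | h8
  · have h1 := sum_le_card_nsmul (range (2 * N + 1)) (fun i => LL D N ε s x i) (lgk k)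
      fun i hi => (hS i hi).2.2.2
    rw [card_range, nsmul_eq_mul] at h1
    have h2 : (∑ i ∈ range (2 * N + 1), LL D N ε s x i) / N ≤ 3 * lgk k := by
      rw [div_le_iff₀ hN0]
      push_cast at h1
      nlinarith
    nlinarith [mul_le_mul_of_nonneg_left h2 hy0, mul_le_mul_of_nonneg_right h8.le hlg0]
  have hyp : 0 < y := by linarith
  have hE1 : y + 1 ≤ En D s x := by
    have h1 : y ≤ max (En D s x - 1) 0 := min_le_right _ _
    rcases le_max_iff.1 h1 with h2 | h2 <;> linarith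
  obtain ⟨j, hj₁, hj₂⟩ : ∃ j : ℕ, (j : ℝ) / N ≤ y / 2 ∧ y / 4 ≤ (j : ℝ) / N := by
    refine ⟨⌊y * N / 2⌋₊, ?_, ?_⟩
    · rw [div_le_iff₀ hN0]
      linarith [Nat.floor_le (show 0 ≤ y * N / 2 by positivity)]
    · rw [le_div_iff₀ hN0]
      nlinarith [Nat.lt_floor_add_one (y * N / 2)]
  have hjN : j ≤ N := by
    have : (j : ℝ) ≤ N := (div_le_one hN0).1 (by linarith)
    exact_mod_cast this
  have hφ : 0 ≤ ph D p x ((j : ℝ) / N) := ph_nonneg hD hp hx0 (by positivity) (by linarith)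
  have hφ' : y * ph D p x ((j : ℝ) / N) ≤ 4 * bud D N p x δ := by
    nlinarith [init_le hD hp hx0 hN hδ hjN (by linarith), mul_le_mul_of_nonneg_right hj₂ hφ]
  have key : ∀ i ∈ range (2 * N + 1), y * LL D N ε s x i ≤ (7 * y + 2 + 4 * bud D N p x δ)
      + 2 * y * Real.log (((2 * N : ℕ) : ℝ) / i) + ps D p x N δ (lgk k) (i / 2) := by
    intro i hi
    have hi' : i ≤ 2 * N := by have := mem_range.1 hi; omega
    obtain ⟨s₁, -, s₃, s₄⟩ := hS i hi
    by_cases hb : ((i / 2 : ℕ) : ℝ) < 2 * δ * N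
    · have h1 : 0 ≤ Real.log (((2 * N : ℕ) : ℝ) / i) := by
        rcases Nat.eq_zero_or_pos i with rfl | h0
        · simp
        · exact Real.log_nonneg ((one_le_div (by exact_mod_cast h0)).2 (by exact_mod_cast hi'))
      rw [ps, if_pos hb]
      nlinarith [mul_nonneg hy0 h1, mul_le_mul_of_nonneg_right hy1 s₃]
    · have h1 : 2 ≤ i / 2 := by
        have : (2 : ℝ) ≤ ((i / 2 : ℕ) : ℝ) := by linarith [not_lt.1 hb]
        exact_mod_cast this
      have hi0 : (0 : ℝ) < i := by exact_mod_cast (show 0 < i by omega)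
      have h2 : min (i / 2) j ≤ i / 2 := min_le_left _ _
      have h3 : ((min (i / 2) j : ℕ) : ℝ) / N ≤ y / 2 := le_trans (div_le_div_of_nonneg_right
        (by exact_mod_cast min_le_right _ _) hN0.le) hj₁
      have h4 := hPT (i - min (i / 2) j) (min (i / 2) j) (by omega) h3
      rw [Nat.sub_add_cancel (by omega)] at h4
      have h5 : (((2 * N : ℕ) : ℝ) / i)⁻¹ ≤ ((i - min (i / 2) j : ℕ) : ℝ) / N := by
        have : (i : ℝ) ≤ 2 * ((i - min (i / 2) j : ℕ) : ℝ) := by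
          exact_mod_cast (show i ≤ 2 * (i - min (i / 2) j) by omega)
        rw [inv_div, div_le_div_iff₀ (by positivity) hN0]
        push_cast
        nlinarith
      have hm : 0 < bl D p x (((min (i / 2) j : ℕ) : ℝ) / N) := bl_pos hD hp hx0 (by positivity)
      have h6 := log_bound hyp hm (bl_pos hD hp hx0 (by norm_num)) (hε.trans_le s₁)
        (t := ((2 * N : ℕ) : ℝ) / i) (by positivity) (le_trans (mul_le_mul_of_nonneg_left
          (pow_le_pow_left₀ (by positivity) h5 2) (by positivity)) h4)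
      have h7 := ps_nonneg hD hp hx0 hN δ hlg0 (t := i / 2) (by omega)
      have h8 : y * ph D p x (((min (i / 2) j : ℕ) : ℝ) / N)
          ≤ 4 * bud D N p x δ + ps D p x N δ (lgk k) (i / 2) := by
        rcases min_choice (i / 2) j with h9 | h9 <;> rw [h9]
        · rw [ps, if_neg hb] at h7 ⊢
          linarith [mul_le_mul_of_nonneg_right hy1 h7]
        · linarith
      unfold ph at h8
      unfold LL
      linarith
  have h1 := sum_le_sum key
  rw [← mul_sum, sum_add_distrib, sum_add_distrib, sum_const, card_range, nsmul_eq_mul,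
    ← mul_sum] at h1
  have h2 : ∑ i ∈ range (2 * N + 1), Real.log (((2 * N : ℕ) : ℝ) / i) ≤ 2 * N := by
    rw [sum_range_succ']
    have := hT.logsum (2 * N)
    push_cast at this ⊢
    simpa using this
  rw [← mul_div_assoc, div_le_iff₀ hN0]
  refine arith hN8 hy0 hbud hE1 hδ0.le hlg0 (h1.trans (le_of_eq ?_)) h2
    (ps_sum hD hp hx0 hN hδN hδ hlg0)
  rw [Nat.cast_add, Nat.cast_mul 2 N, Nat.cast_one, Nat.cast_ofNat]

end Vale.Agent.P304Z.E
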