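import Vale.Agent.P304Z.E1

/-!
# P304Z, layer E: a short move of a unit of hidden mass
-/

open Finset

namespace Vale.Agent.P304Z.E

open Vale.Agent.P304 Vale.Agent.P304.Dyn

namespace E6

theorem thr_mono {N : ℕ} {P P' : ℝ → Prop} (h : ∀ R, 2 < R → R ≤ 3 → P R → P' R) :
    thr N P ≤ thr N P' := by
  classical
  unfold thr
  refine EE_mono fun i => ?_
  have hN : (0 : ℝ) < N := by exact_mod_cast Nat.pos_of_ne_zero (fun h0 => by
    have := i.2; omega)
  have hi : (((i : ℕ) : ℝ) + 1) ≤ N := by exact_mod_cast i.2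
  have h1 : (2 : ℝ) < 2 + (((i : ℕ) : ℝ) + 1) / N := by
    have : (0 : ℝ) < (((i : ℕ) : ℝ) + 1) / N := by positivity
    linarith
  have h2 : 2 + (((i : ℕ) : ℝ) + 1) / N ≤ 3 := by
    have : (((i : ℕ) : ℝ) + 1) / N ≤ 1 := (div_le_one hN).2 hi
    linarith
  by_cases hp : P (2 + (((i : ℕ) : ℝ) + 1) / N)
  · rw [if_pos hp, if_pos (h _ h1 h2 hp)]
  · rw [if_neg hp]
    split_ifs <;> norm_num

theorem thr_false (N : ℕ) : thr N (fun _ => False) = 0 := by
  simp [thr, EE]

theorem yy_nonneg (t : ℝ) : 0 ≤ yy t := le_min zero_le_one (le_max_right _ _)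

theorem yy_le_one (t : ℝ) : yy t ≤ 1 := min_le_left _ _

theorem yy_lip {t t' δ : ℝ} (hδ : 0 ≤ δ) (h : t' ≤ t + δ) : yy t' ≤ yy t + δ := by
  unfold yy
  rcases le_total 1 (max (t - 1) 0) with h1 | h1
  · rw [min_eq_left h1]
    linarith [min_le_left 1 (max (t' - 1) 0)]
  · rw [min_eq_right h1]
    refine (min_le_right _ _).trans (max_le ?_ ?_)
    · linarith [le_max_left (t - 1) 0]
    · linarith [le_max_right (t - 1) 0]

theorem yy_eq_one {t : ℝ} (h : 2 < t) : yy t = 1 := by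
  unfold yy
  exact min_eq_left (le_max_of_le_left (by linarith))

/-- shifting the index in the weighted sum -/
theorem shift_sum (N j : ℕ) (F G : ℕ → ℝ) (lg : ℝ) (hj : j ≤ 2 * N + 1) (hlg : 0 ≤ lg)
    (hF : ∀ i, i ≤ 2 * N → 0 ≤ F i) (hG : ∀ i, i ≤ 2 * N → G i ≤ lg)
    (hGF : ∀ i, G (j + i) ≤ F i) :
    ∑ i ∈ range (2 * N + 1), (i : ℝ) * G i ≤
      ∑ i ∈ range (2 * N + 1), (i : ℝ) * F i + j * ∑ i ∈ range (2 * N + 1), F i + (j : ℝ) ^ 2 * lg := by
  obtain ⟨m, hm⟩ : ∃ m, 2 * N + 1 = j + m := ⟨2 * N + 1 - j, by omega⟩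
  have h1 : ∑ i ∈ range (2 * N + 1), (i : ℝ) * G i =
      ∑ i ∈ range j, (i : ℝ) * G i + ∑ i ∈ range m, ((j + i : ℕ) : ℝ) * G (j + i) := by
    rw [hm, sum_range_add]
  have h2 : ∑ i ∈ range j, (i : ℝ) * G i ≤ (j : ℝ) ^ 2 * lg := by
    have : ∑ i ∈ range j, (i : ℝ) * G i ≤ ∑ _i ∈ range j, (j : ℝ) * lg := by
      refine sum_le_sum fun i hi => ?_
      have hi' := mem_range.1 hi
      have hij : (i : ℝ) ≤ j := by exact_mod_cast hi'.le
      calc (i : ℝ) * G i ≤ i * lg := mul_le_mul_of_nonneg_left (hG i (by omega)) (Nat.cast_nonneg _)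
        _ ≤ j * lg := mul_le_mul_of_nonneg_right hij hlg
    rw [sum_const, card_range, nsmul_eq_mul] at this
    nlinarith
  have h3 : ∑ i ∈ range m, ((j + i : ℕ) : ℝ) * G (j + i) ≤
      ∑ i ∈ range (2 * N + 1), ((j : ℝ) + i) * F i := by
    calc ∑ i ∈ range m, ((j + i : ℕ) : ℝ) * G (j + i) ≤ ∑ i ∈ range m, ((j : ℝ) + i) * F i := by
          refine sum_le_sum fun i _ => ?_
          push_cast
          exact mul_le_mul_of_nonneg_left (hGF i) (by positivity)
      _ ≤ _ := by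
          refine sum_le_sum_of_subset_of_nonneg (range_subset_range.2 (by omega)) fun i hi _ => ?_
          exact mul_nonneg (by positivity) (hF i (by have := mem_range.1 hi; omega))
  have h4 : ∑ i ∈ range (2 * N + 1), ((j : ℝ) + i) * F i =
      ∑ i ∈ range (2 * N + 1), (i : ℝ) * F i + j * ∑ i ∈ range (2 * N + 1), F i := by
    rw [mul_sum, ← sum_add_distrib]
    exact sum_congr rfl fun i _ => by ring
  linarith

/-- the telescoping sum -/
theorem tele (N c d : ℕ) (F : ℕ → ℝ) (hA : Antitone F) (hF : ∀ i, i < d → 0 ≤ F (c + (N + i))) :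
    ∑ i ∈ range N, (F (c + i) - F (c + (d + i))) ≤ d * F c := by
  have h1 := sum_range_add (fun i => F (c + i)) N d
  have h2 := sum_range_add (fun i => F (c + i)) d N
  rw [Nat.add_comm d N, h1] at h2
  have h3 : 0 ≤ ∑ i ∈ range d, F (c + (N + i)) := sum_nonneg fun i hi => hF i (mem_range.1 hi)
  have h4 : ∑ i ∈ range d, F (c + i) ≤ ∑ _i ∈ range d, F c :=
    sum_le_sum fun i _ => hA (Nat.le_add_right c i)
  rw [sum_const, card_range, nsmul_eq_mul] at h4
  rw [sum_sub_distrib]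
  linarith

theorem head_le (M c : ℕ) (F : ℕ → ℝ) (hA : Antitone F) (hc : c < M) (hF : ∀ i, i < M → 0 ≤ F i) :
    ((c : ℝ) + 1) * F c ≤ ∑ i ∈ range M, F i := by
  have h1 : ∑ _i ∈ range (c + 1), F c ≤ ∑ i ∈ range (c + 1), F i :=
    sum_le_sum fun i hi => hA (by have := mem_range.1 hi; omega)
  rw [sum_const, card_range, nsmul_eq_mul] at h1
  push_cast at h1
  exact h1.trans (sum_le_sum_of_subset_of_nonneg (range_subset_range.2 (by omega))
    fun i hi _ => hF i (mem_range.1 hi))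

/-- the min-hash ratio against the logarithms of the densities -/
theorem ratio_le {α : Type} [DecidableEq α] {A B C E : Finset α} {ε Q : ℝ} (hε : 0 < ε) (hQ : 0 < Q)
    (hA : C ⊆ A) (hB : C ⊆ B) (hA' : A ⊆ E) (hB' : B ⊆ E) :
    (((A \ B).card + (B \ A).card : ℝ) / Q) / (ε + ((A ∪ B).card : ℝ) / Q) ≤
      Real.log (2 / (ε + (C.card : ℝ) / Q)) - Real.log (2 / (ε + (E.card : ℝ) / Q)) := by
  have h1 : (A \ B).card + (B \ A).card + C.card ≤ (A ∪ B).card := by
    have e1 := card_sdiff_add_card_inter A B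
    have e2 := card_sdiff_add_card B A
    have e3 : C.card ≤ (A ∩ B).card := card_le_card (subset_inter hA hB)
    rw [union_comm] at e2
    omega
  have h1' : ((A \ B).card + (B \ A).card : ℝ) + C.card ≤ (A ∪ B).card := by exact_mod_cast h1
  have h2 : ((A ∪ B).card : ℝ) ≤ E.card := by exact_mod_cast card_le_card (union_subset hA' hB')
  set a : ℝ := ε + (C.card : ℝ) / Q with ha
  set u : ℝ := ε + ((A ∪ B).card : ℝ) / Q with hu
  set b : ℝ := ε + (E.card : ℝ) / Q with hb
  have ha0 : 0 < a := by positivity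
  have hu0 : 0 < u := by positivity
  have hb0 : 0 < b := by positivity
  have hub : u ≤ b := by
    have := div_le_div_of_nonneg_right h2 hQ.le
    linarith
  have h3 : ((A \ B).card + (B \ A).card : ℝ) / Q ≤ u - a := by
    have := div_le_div_of_nonneg_right h1' hQ.le
    rw [add_div] at this
    linarith
  have h4 : (((A \ B).card + (B \ A).card : ℝ) / Q) / u ≤ 1 - a / u := by
    have := div_le_div_of_nonneg_right h3 hu0.le
    rwa [sub_div, div_self hu0.ne'] at this
  have h5 : a / b ≤ a / u := div_le_div_of_nonneg_left ha0.le hu0 hub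
  have h6 := Real.log_le_sub_one_of_pos (div_pos ha0 hb0)
  rw [Real.log_div ha0.ne' hb0.ne'] at h6
  rw [Real.log_div two_ne_zero ha0.ne', Real.log_div two_ne_zero hb0.ne']
  linarith

theorem one_le_lgk {k : ℕ} (hk : 1 ≤ k) : 1 ≤ lgk k := by
  unfold lgk
  have hk' : (1 : ℝ) ≤ k := by exact_mod_cast hk
  rw [Real.le_log_iff_exp_le (by positivity)]
  have := Real.exp_one_lt_d9
  linarith

theorem arith {δ s s' Y Y' ex ey Lb lg t1 t3 df : ℝ} (hδ : 0 ≤ δ) (hs' : 0 ≤ s')
    (hss : s' ≤ s + δ) (hY : 0 ≤ Y) (hY' : 0 ≤ Y') (hY1 : Y' ≤ 1) (hYY : Y' ≤ Y + δ)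
    (hex : 0 ≤ ex) (hex2 : ex ≤ 2 * Lb) (hLb : 0 ≤ Lb) (hLb3 : Lb ≤ 3 * lg) (hlg : 1 ≤ lg)
    (hey : ey ≤ ex + 2 * δ * Lb + 4 * δ ^ 2 * lg) (h1 : t1 ≤ 4 * δ * s)
    (h3 : t3 ≤ 22 * δ * (Y * Lb)) (hdf : df ≤ t1 + t3) :
    df + (s' ^ 2 + Y' ^ 2 * ey) - (s ^ 2 + Y ^ 2 * ex) ≤
      6 * δ * s + 28 * δ * (Y * Lb) + 17 * δ ^ 2 * lg := by
  have a1 : s' ^ 2 ≤ (s + δ) ^ 2 := pow_le_pow_left₀ hs' hss 2
  have a2 : Y' ^ 2 ≤ (Y + δ) ^ 2 := pow_le_pow_left₀ hY' hYY 2
  have a3 : Y' ^ 2 ≤ Y + δ := by nlinarith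
  have a4 : Y' ^ 2 ≤ 1 := by nlinarith
  have b1 : Y' ^ 2 * ey ≤ Y' ^ 2 * (ex + 2 * δ * Lb + 4 * δ ^ 2 * lg) :=
    mul_le_mul_of_nonneg_left hey (sq_nonneg _)
  have b2 : Y' ^ 2 * ex ≤ (Y + δ) ^ 2 * ex := mul_le_mul_of_nonneg_right a2 hex
  have b3 : (2 * Y * δ + δ ^ 2) * ex ≤ (2 * Y * δ + δ ^ 2) * (2 * Lb) :=
    mul_le_mul_of_nonneg_left hex2 (by positivity)
  have b4 : Y' ^ 2 * (2 * δ * Lb) ≤ (Y + δ) * (2 * δ * Lb) :=
    mul_le_mul_of_nonneg_right a3 (by positivity)
  have b5 : Y' ^ 2 * (4 * δ ^ 2 * lg) ≤ 1 * (4 * δ ^ 2 * lg) :=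
    mul_le_mul_of_nonneg_right a4 (by positivity)
  have b6 : δ ^ 2 * Lb ≤ δ ^ 2 * (3 * lg) := mul_le_mul_of_nonneg_left hLb3 (sq_nonneg _)
  have b7 : δ ^ 2 * 1 ≤ δ ^ 2 * lg := mul_le_mul_of_nonneg_left hlg (sq_nonneg _)
  nlinarith

end E6

open E6 in
theorem stOM (hB : Basic) (hM : StMH) : StOM := by
  classical
  intro X _ _ k N Q Ne ε εs ζ D s pm prm hv x y hδ1 hδ2
  have hN8 := prm.hN
  have hN1 : 1 ≤ N := by omega
  have hN0 : (0 : ℝ) < N := by exact_mod_cast (by omega : 0 < N)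
  have hk' : (1 : ℝ) ≤ k := by exact_mod_cast prm.hk
  have hQ0 : (0 : ℝ) < Q := by exact_mod_cast prm.hQ
  have hε0 : 0 < ε := by rw [prm.hε]; positivity
  have hε1 : ε ≤ 1 := by
    rw [prm.hε, div_le_one (by positivity)]
    linarith
  have hlg : Real.log (2 / ε) = lgk k := by
    unfold lgk
    congr 1
    rw [prm.hε]
    field_simp
    norm_num
  have hlg1 := one_le_lgk prm.hk
  set δ := D x y with hδ
  have hδ0 : 0 ≤ δ := le_trans (by positivity) hδ1
  have hδN : 1 ≤ δ * N := by rwa [div_le_iff₀ hN0] at hδ1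
  obtain ⟨j, hj1, hj2⟩ : ∃ j : ℕ, δ * N ≤ j ∧ (j : ℝ) ≤ 2 * δ * N :=
    ⟨⌈δ * N⌉₊, Nat.le_ceil _, by have := Nat.ceil_lt_add_one (show 0 ≤ δ * N by linarith); linarith⟩
  have hj4 : 4 * (j : ℝ) ≤ N := by nlinarith
  have hj4' : 4 * j ≤ N := by exact_mod_cast hj4
  have hjN : δ ≤ (j : ℝ) / N := by rwa [le_div_iff₀ hN0]
  have hyx : D y x = δ := pm.symm y x
  -- densities
  have Spos : ∀ u i, 0 < SS D N ε s u i := fun u i => by unfold SS; positivity
  have Lr : ∀ u i, i ≤ 3 * N → 0 ≤ LL D N ε s u i ∧ LL D N ε s u i ≤ lgk k := fun u i hi => by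
    have := hB.SS_range X Q N ε D s u i hv prm.hQ hN1 hε0 hε1 hi
    exact ⟨this.2.2.1, hlg ▸ this.2.2.2⟩
  have Lle : ∀ u v (i i' : ℕ), D u v + (i : ℝ) / N ≤ (i' : ℝ) / N →
      LL D N ε s v i' ≤ LL D N ε s u i := fun u v i i' h => by
    have := (hB.SS_mono X Q N ε D s u v i i' pm hN1 h).2
    unfold LL
    exact Real.log_le_log (div_pos two_pos (Spos _ _))
      (div_le_div_of_nonneg_left zero_le_two (Spos _ _) this)
  have hself : ∀ i i' : ℕ, i ≤ i' → D x x + (i : ℝ) / N ≤ (i' : ℝ) / N := fun i i' h => by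
    rw [pm.self, zero_add]
    exact div_le_div_of_nonneg_right (by exact_mod_cast h) hN0.le
  have hstep : ∀ i : ℕ, δ + (i : ℝ) / N ≤ ((j + i : ℕ) : ℝ) / N := fun i => by
    push_cast
    rw [add_div]
    linarith
  have Lanti : Antitone (LL D N ε s x) := fun i i' h => Lle x x i i' (hself i i' h)
  set Sg := ∑ i ∈ range (2 * N + 1), LL D N ε s x i with hSg
  have hLb : Lbar D N ε s x = Sg / N := rfl
  have hSg0 : 0 ≤ Sg := sum_nonneg fun i hi => (Lr x i (by have := mem_range.1 hi; omega)).1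
  have hLb0 : 0 ≤ Lbar D N ε s x := by rw [hLb]; positivity
  have hLb3 : Lbar D N ε s x ≤ 3 * lgk k := by
    have h1 : Sg ≤ ∑ _i ∈ range (2 * N + 1), lgk k :=
      sum_le_sum fun i hi => (Lr x i (by have := mem_range.1 hi; omega)).2
    rw [sum_const, card_range, nsmul_eq_mul] at h1
    push_cast at h1
    have hN1' : (1 : ℝ) ≤ N := by exact_mod_cast hN1
    rw [hLb, div_le_iff₀ hN0]
    nlinarith
  have hell : ∀ u, ell D N ε s u =
      (∑ i ∈ range (2 * N + 1), (i : ℝ) * LL D N ε s u i) / (N : ℝ) ^ 2 := fun u => by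
    unfold ell
    rw [sum_div]
    exact sum_congr rfl fun i _ => by ring
  have hex0 : 0 ≤ ell D N ε s x := by
    rw [hell]
    exact div_nonneg (sum_nonneg fun i hi => mul_nonneg (Nat.cast_nonneg _)
      (Lr x i (by have := mem_range.1 hi; omega)).1) (by positivity)
  have hex2 : ell D N ε s x ≤ 2 * Lbar D N ε s x := by
    have h1 : ∑ i ∈ range (2 * N + 1), (i : ℝ) * LL D N ε s x i ≤ 2 * N * Sg := by
      rw [hSg, mul_sum]
      refine sum_le_sum fun i hi => ?_
      have hi' : i ≤ 2 * N := by have := mem_range.1 hi; omega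
      have hi'' : (i : ℝ) ≤ 2 * N := by exact_mod_cast hi'
      exact mul_le_mul_of_nonneg_right hi'' (Lr x i (by omega)).1
    rw [hell, hLb, div_le_iff₀ (by positivity)]
    calc _ ≤ 2 * N * Sg := h1
      _ = _ := by field_simp
  have hey : ell D N ε s y ≤
      ell D N ε s x + 2 * δ * Lbar D N ε s x + 4 * δ ^ 2 * lgk k := by
    have h1 := shift_sum N j (LL D N ε s x) (LL D N ε s y) (lgk k) (by omega) (by linarith)
      (fun i hi => (Lr x i (by omega)).1) (fun i hi => (Lr y i (by omega)).2)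
      (fun i => Lle x y i (j + i) (hstep i))
    have h2 : (j : ℝ) * Sg ≤ 2 * δ * N * Sg := mul_le_mul_of_nonneg_right hj2 hSg0
    have h3 : (j : ℝ) ^ 2 * lgk k ≤ (2 * δ * N) ^ 2 * lgk k :=
      mul_le_mul_of_nonneg_right (pow_le_pow_left₀ (Nat.cast_nonneg _) hj2 2) (by linarith)
    rw [hell, hell, hLb, div_le_iff₀ (by positivity)]
    calc _ ≤ ∑ i ∈ range (2 * N + 1), (i : ℝ) * LL D N ε s x i + 2 * δ * N * Sg +
          (2 * δ * N) ^ 2 * lgk k := by linarith
      _ = _ := by field_simp; ring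
  -- distances to the centres
  have hx := hB.En_range X Q D s x pm hv
  have hy := hB.En_range X Q D s y pm hv
  have hlip1 : En D s y ≤ En D s x + δ := hyx ▸ hB.En_lip X Q D s y x pm
  have hlip2 : En D s x ≤ En D s y + δ := hB.En_lip X Q D s x y pm
  have hsep : ∀ R, R ≤ 3 → En D s x < R → En D s y < R → cid D s x ≠ cid D s y →
      6 ≤ En D s x + En D s y + δ := fun R hR h1 h2 hne => by
    have e1 : En D s x = val D s x (cid D s x) := by
      unfold En at h1 ⊢
      exact min_eq_right (by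
        by_contra hc
        rw [min_eq_left (not_le.1 hc).le] at h1
        linarith)
    have e2 : En D s y = val D s y (cid D s y) := by
      unfold En at h2 ⊢
      exact min_eq_right (by
        by_contra hc
        rw [min_eq_left (not_le.1 hc).le] at h2
        linarith)
    have h3 := hv.sep _ _ hne
    have h4 := pm.tri (s.z (cid D s x)) x (s.z (cid D s y))
    have h5 := pm.tri x y (s.z (cid D s y))
    have h6 := pm.symm (s.z (cid D s x)) x
    rw [e1, e2]
    unfold val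
    linarith
  have hthr : thr N (fun R => ¬ (En D s x < R ↔ En D s y < R)) +
      thr N (fun R => En D s x < R ∧ En D s y < R ∧ cid D s x ≠ cid D s y) ≤
      4 * δ * En D s x := by
    by_cases h1 : En D s x < 1
    · have a1 : thr N (fun R => ¬ (En D s x < R ↔ En D s y < R)) ≤ thr N (fun _ => False) :=
        thr_mono fun R hR _ h => h ⟨fun _ => by linarith, fun _ => by linarith⟩
      have a2 : thr N (fun R => En D s x < R ∧ En D s y < R ∧ cid D s x ≠ cid D s y) ≤
          thr N (fun _ => False) :=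
        thr_mono fun R _ hR h => by have := hsep R hR h.1 h.2.1 h.2.2; linarith
      rw [thr_false] at a1 a2
      have : 0 ≤ 4 * δ * En D s x := by have := hx.1; positivity
      linarith
    · have a1 : thr N (fun R => ¬ (En D s x < R ↔ En D s y < R)) ≤ δ + 1 / N := by
        rcases le_total (En D s x) (En D s y) with h | h
        · refine le_trans (thr_mono fun R _ _ hR => ?_)
            ((hB.thr_le N _ _ hN1 h).trans (by linarith))
          by_cases c1 : En D s x < R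
          · exact ⟨c1, not_lt.1 fun c2 => hR ⟨fun _ => c2, fun _ => c1⟩⟩
          · exact absurd ⟨fun c => absurd c c1, fun c => lt_of_le_of_lt h c⟩ hR
        · refine le_trans (thr_mono fun R _ _ hR => ?_)
            ((hB.thr_le N _ _ hN1 h).trans (by linarith))
          by_cases c1 : En D s y < R
          · exact ⟨c1, not_lt.1 fun c2 => hR ⟨fun _ => c1, fun _ => c2⟩⟩
          · exact absurd ⟨fun c => lt_of_le_of_lt h c, fun c => absurd c c1⟩ hR
      have a2 : thr N (fun R => En D s x < R ∧ En D s y < R ∧ cid D s x ≠ cid D s y) ≤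
          3 - (3 - δ / 2) + 1 / N := by
        refine le_trans (thr_mono fun R _ hR h => ?_)
          (hB.thr_le N (3 - δ / 2) 3 hN1 (by linarith))
        have := hsep R hR h.1 h.2.1 h.2.2
        exact ⟨by linarith [h.1, h.2.1], hR⟩
      have : δ * 1 ≤ δ * En D s x := mul_le_mul_of_nonneg_left (not_lt.1 h1) hδ0
      linarith
  -- the token part
  have htok : (if 2 < En D s x ∧ 2 < En D s y then
      (∑ i ∈ range N, dif (pick Ne (toks D s x (Rad N (N + 1 + i))))
        (pick Ne (toks D s y (Rad N (N + 1 + i))))) / N else 0) ≤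
      22 * δ * (yy (En D s x) * Lbar D N ε s x) := by
    split_ifs with h
    · rw [yy_eq_one h.1, one_mul]
      obtain ⟨c, hc⟩ : ∃ c, N + 1 = j + c := ⟨N + 1 - j, by omega⟩
      have b1 : ∀ i ∈ range N, dif (pick Ne (toks D s x (Rad N (N + 1 + i))))
          (pick Ne (toks D s y (Rad N (N + 1 + i)))) ≤
          4 * (LL D N ε s x (c + i) - LL D N ε s x (c + (2 * j + i))) := fun i _ => by
        have m1 := (hM X Q Ne ε hε0 prm.hQ prm.Ne_lo).1 (toks D s x (Rad N (N + 1 + i)))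
          (toks D s y (Rad N (N + 1 + i)))
        have s1 := (hB.SS_mono X Q N ε D s x x (c + i) (N + 1 + i) pm hN1
          (hself _ _ (by omega))).1
        have s2 := (hB.SS_mono X Q N ε D s x y (c + i) (N + 1 + i) pm hN1 (by
          have := hstep (c + i)
          rwa [show j + (c + i) = N + 1 + i by omega] at this)).1
        have s3 := (hB.SS_mono X Q N ε D s x x (N + 1 + i) (c + (2 * j + i)) pm hN1
          (hself _ _ (by omega))).1
        have s4 := (hB.SS_mono X Q N ε D s y x (N + 1 + i) (c + (2 * j + i)) pm hN1 (by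
          have := hstep (N + 1 + i)
          rwa [show j + (N + 1 + i) = c + (2 * j + i) by omega, ← hyx] at this)).1
        have m2 := ratio_le hε0 hQ0 s1 s2 s3 s4
        rw [mul_div_assoc] at m1
        unfold LL SS
        linarith
      have b2 := sum_le_sum b1
      rw [← mul_sum] at b2
      have b3 := tele N c (2 * j) (LL D N ε s x) Lanti fun i hi => (Lr x _ (by omega)).1
      have b4 := head_le (2 * N + 1) c (LL D N ε s x) Lanti (by omega)
        fun i hi => (Lr x i (by omega)).1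
      have b5 : 0 ≤ LL D N ε s x c := (Lr x c (by omega)).1
      have b6 : (N : ℝ) + 1 = j + c := by exact_mod_cast hc
      have b7 : 3 / 4 * (N : ℝ) * LL D N ε s x c ≤ Sg :=
        le_trans (mul_le_mul_of_nonneg_right (by linarith) b5) b4
      have b8 : (j : ℝ) * LL D N ε s x c ≤ 2 * δ * N * LL D N ε s x c :=
        mul_le_mul_of_nonneg_right hj2 b5
      have b9 : δ * (3 / 4 * (N : ℝ) * LL D N ε s x c) ≤ δ * Sg :=
        mul_le_mul_of_nonneg_left b7 hδ0
      have b10 : 0 ≤ δ * Sg := mul_nonneg hδ0 hSg0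
      push_cast at b3
      rw [hLb, ← mul_div_assoc]
      refine div_le_div_of_nonneg_right ?_ hN0.le
      nlinarith
    · have := yy_nonneg (En D s x)
      positivity
  have hd := hB.dif_le X Q N Ne D s s x y hN1
  unfold gl
  exact arith hδ0 hy.1 hlip1 (yy_nonneg _) (yy_nonneg _) (yy_le_one _) (yy_lip hδ0 hlip1)
    hex0 hex2 hLb0 hLb3 hlg1 hey hthr htok hd

end Vale.Agent.P304Z.E
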