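import Vale.Agent.P304Z.E1

/-!
# P304Z, layer E: packaging of one level
-/

open Finset

namespace Vale.Agent.P304Z.E

open Vale.Agent.P304 Vale.Agent.P304.Dyn

namespace E7

theorem exists_prm (n k N0 : ℕ) (ζ : ℝ) (hk : 1 ≤ k) (h0 : 0 < ζ) (h1 : ζ ≤ 1) :
    ∃ (N Q Ne : ℕ) (εs : ℝ), N0 ≤ N ∧ Prm n k N Q Ne (1 / (1000 * k)) εs ζ := by
  have hk' : (1 : ℝ) ≤ k := by exact_mod_cast hk
  set ε : ℝ := 1 / (1000 * k) with hε
  have hε0 : 0 < ε := by positivity
  set c : ℝ := ε * ζ ^ 3 / 32 with hc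
  have hc0 : 0 < c := by positivity
  obtain ⟨N1, hN1⟩ := exists_nat_ge (k / c)
  obtain ⟨Q1, hQ1⟩ := exists_nat_ge (((n : ℝ) + 1) * (4 / ε + 4 * k / (ε * c)))
  have hn : (0 : ℝ) < (n : ℝ) + 1 := by positivity
  have hQ0 : (0 : ℝ) < Q1 := lt_of_lt_of_le (by positivity) hQ1
  set N := max (max N0 8) N1 with hN
  have hN8 : 8 ≤ N := (le_max_right _ _).trans (le_max_left _ _)
  have hNr : (0 : ℝ) < N := by exact_mod_cast (by omega : 0 < N)
  have hNN : (N1 : ℝ) ≤ N := by exact_mod_cast le_max_right _ _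
  have a1 : 0 ≤ ((n : ℝ) + 1) * (4 / ε) := by positivity
  have a2 : 0 ≤ ((n : ℝ) + 1) * (4 * k / (ε * c)) := by positivity
  refine ⟨N, Q1, ⌈ε * Q1⌉₊, c, (le_max_left _ _).trans (le_max_left _ _), hk, hN8,
    by exact_mod_cast hQ0, rfl, Nat.le_ceil _, (Nat.ceil_lt_add_one (by positivity)).le, ?_, h0, h1,
    hc0, ?_⟩
  · rw [div_le_iff₀ hQ0]
    have : ((n : ℝ) + 1) * (4 / ε) ≤ Q1 := by rw [mul_add] at hQ1; linarith
    calc (n : ℝ) + 1 = ε / 4 * (((n : ℝ) + 1) * (4 / ε)) := by field_simp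
      _ ≤ ε / 4 * Q1 := by gcongr
  · have b1 : (k : ℝ) * (1 / N) ≤ c := by
      rw [mul_one_div, div_le_iff₀ hNr]
      have := (div_le_iff₀ hc0).1 (hN1.trans hNN)
      linarith
    have b2 : (k : ℝ) * (4 * (((n : ℝ) + 1) / Q1) / ε) ≤ c := by
      have : ((n : ℝ) + 1) * (4 * k / (ε * c)) ≤ Q1 := by rw [mul_add] at hQ1; linarith
      calc (k : ℝ) * (4 * (((n : ℝ) + 1) / Q1) / ε)
          = c / Q1 * (((n : ℝ) + 1) * (4 * k / (ε * c))) := by field_simp
        _ ≤ c / Q1 * Q1 := by gcongr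
        _ = c := by field_simp
    rw [mul_add]
    linarith

variable {X : Type}

theorem D_nonneg {D : X → X → ℝ} (h : PM D) (x y : X) : 0 ≤ D x y := by
  have := h.tri x y x
  rw [h.self, h.symm y x] at this
  linarith

theorem yy_range (t : ℝ) : 0 ≤ yy t ∧ yy t ≤ 1 :=
  ⟨le_min zero_le_one (le_max_right _ _), min_le_left _ _⟩

theorem lg_eq {k : ℕ} : Real.log (2 / (1 / (1000 * (k : ℝ)))) = lgk k := by
  unfold lgk
  congr 1
  rw [div_div_eq_mul_div, div_one]
  ring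

theorem one_le_lg {k : ℕ} (hk : 1 ≤ k) : 1 ≤ lgk k := by
  have hk' : (1 : ℝ) ≤ k := by exact_mod_cast hk
  unfold lgk
  rw [Real.le_log_iff_exp_le (by positivity)]
  have := Real.exp_one_lt_d9
  linarith

theorem sum_f {N : ℕ} (hN : 1 ≤ N) : ∑ i ∈ range (2 * N + 1), (i : ℝ) / (N : ℝ) ^ 2 ≤ 3 := by
  have hN' : (1 : ℝ) ≤ N := by exact_mod_cast hN
  have h : ∀ n : ℕ, ∑ i ∈ range (n + 1), (i : ℝ) = n * (n + 1) / 2 := by
    intro n
    induction n with
    | zero => simp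
    | succ n ih => rw [sum_range_succ, ih]; push_cast; ring
  rw [← sum_div, h, div_le_iff₀ (by positivity)]
  push_cast
  nlinarith

variable [Fintype X] [DecidableEq X] {k N Q Ne : ℕ} {ε εs ζ : ℝ} {D : X → X → ℝ}

omit [DecidableEq X] in
theorem eps_range (hp : Prm (Fintype.card X) k N Q Ne ε εs ζ) : 0 < ε ∧ ε ≤ 1 := by
  have hk' : (1 : ℝ) ≤ k := by exact_mod_cast hp.hk
  rw [hp.hε]
  exact ⟨by positivity, by rw [div_le_one (by positivity)]; linarith⟩

theorem gl_range (hB : Basic) (hD : PM D) (hp : Prm (Fintype.card X) k N Q Ne ε εs ζ)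
    {s : LS X Q} (hs : Valid D s) (u : X) :
    0 ≤ gl D N ε s u ∧ gl D N ε s u ≤ 9 + 3 * lgk k := by
  have hN : 1 ≤ N := le_trans (by norm_num) hp.hN
  obtain ⟨e0, e1⟩ := eps_range hp
  have hL : ∀ i ∈ range (2 * N + 1), 0 ≤ LL D N ε s u i ∧ LL D N ε s u i ≤ lgk k := by
    intro i hi
    have := hB.SS_range X Q N ε D s u i hs hp.hQ hN e0 e1 (by have := mem_range.1 hi; omega)
    refine ⟨this.2.2.1, this.2.2.2.trans (le_of_eq ?_)⟩
    rw [hp.hε, lg_eq]
  have l0 : 0 ≤ ell D N ε s u := sum_nonneg fun i hi => mul_nonneg (by positivity) (hL i hi).1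
  have lg1 := one_le_lg hp.hk
  have l1 : ell D N ε s u ≤ 3 * lgk k :=
    calc ell D N ε s u ≤ ∑ i ∈ range (2 * N + 1), (i : ℝ) / (N : ℝ) ^ 2 * lgk k :=
          sum_le_sum fun i hi => mul_le_mul_of_nonneg_left (hL i hi).2 (by positivity)
      _ ≤ 3 * lgk k := by
          rw [← sum_mul]
          exact mul_le_mul_of_nonneg_right (sum_f hN) (by linarith)
  obtain ⟨n0, n1⟩ := hB.En_range X Q D s u hD hs
  obtain ⟨y0, y1⟩ := yy_range (En D s u)
  unfold gl
  refine ⟨by positivity, add_le_add (by nlinarith) ?_⟩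
  calc yy (En D s u) ^ 2 * ell D N ε s u ≤ 1 * ell D N ε s u :=
        mul_le_mul_of_nonneg_right (by nlinarith) l0
    _ ≤ _ := by linarith

omit [DecidableEq X] in
theorem val_lt {s : LS X Q} {u : X} (h : En D s u < 3) : val D s u (cid D s u) < 3 := by
  unfold En at h
  rcases min_lt_iff.1 h with h | h
  · exact absurd h (lt_irrefl _)
  · exact h

theorem lab_pos (hM : StMH) (hD : PM D) (hp : Prm (Fintype.card X) k N Q Ne ε εs ζ)
    {s : LS X Q} (hs : Valid D s) (u : X) (ω : Seed X N Q Ne) (a : Lb X Q)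
    (h : lab D N Ne s u ω = some a) : vis s a ∧ D u (pos s a) ≤ 11 := by
  have hN : (0 : ℝ) < N := by exact_mod_cast lt_of_lt_of_le (by norm_num) hp.hN
  unfold lab at h
  split_ifs at h with h1
  · obtain rfl := Option.some.inj h
    have h2 : (((ω.1 : ℕ) : ℝ) + 1) / N ≤ 1 := by
      rw [div_le_one hN]
      exact_mod_cast ω.1.2
    have h3 := val_lt (D := D) (s := s) (u := u) (by linarith)
    unfold val at h3
    have h4 := D_nonneg hD u (s.z (cid D s u))
    have h5 := hs.h_nonneg (cid D s u)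
    exact ⟨show s.h _ < 3 by linarith, show D u (s.z _) ≤ 11 by linarith⟩
  · obtain ⟨t, ht, rfl⟩ := (hM X Q Ne ε (eps_range hp).1 hp.hQ hp.Ne_lo).2.2 _ _ _ h
    obtain ⟨c, hc, hd⟩ := (mem_filter.1 ht).2
    refine ⟨show s.tk t ≠ none by simp [hc], ?_⟩
    have h2 : ((N + 1 + (ω.2.1 : ℕ) : ℕ) : ℝ) / N ≤ 2 := by
      rw [div_le_iff₀ hN]
      have := ω.2.1.2
      exact_mod_cast (by omega : N + 1 + (ω.2.1 : ℕ) ≤ 2 * N)
    show D u ((s.tk t).getD (s.z none)) ≤ 11
    rw [hc, Option.getD_some]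
    unfold Rad at hd
    linarith

omit [DecidableEq X] in
theorem near_pos {s : LS X Q} (hs : Valid D s) (x : X) (a : Lb X Q) (h : near D s x = some a) :
    D x (pos s a) ≤ 3 := by
  unfold near at h
  split_ifs at h with h1
  obtain rfl := Option.some.inj h
  have h3 := val_lt h1
  unfold val at h3
  have h5 := hs.h_nonneg (cid D s x)
  show D x (s.z _) ≤ 3
  linarith

omit [Fintype X] [DecidableEq X] in
theorem fol_nonneg (hD : PM D) (s s' : LS X Q) (a : Lb X Q) : 0 ≤ fol D s s' a := by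
  rcases a with i | t
  · simp only [fol, Sum.elim_inl]
    split_ifs
    · exact D_nonneg hD _ _
    · exact le_rfl
  · exact le_rfl

omit [Fintype X] [DecidableEq X] in
theorem mv_pos (hD : PM D) {s s' : LS X Q} (a : Lb X Q) (h : Mv D s s') (h1 : vis s a)
    (h2 : vis s' a) : D (pos s a) (pos s' a) ≤ fol D s s' a ∧ D (pos s a) (pos s' a) ≤ 3 := by
  rcases a with i | t
  · have h1' : s.h i < 3 := h1
    have h2' : s'.h i < 3 := h2
    refine ⟨?_, h.core i h1' h2'⟩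
    simp only [fol, pos, Sum.elim_inl, h1', h2', and_self, if_true, le_refl]
  · obtain ⟨c, hc⟩ := Option.ne_none_iff_exists'.1 (show s.tk t ≠ none from h1)
    obtain ⟨c', hc'⟩ := Option.ne_none_iff_exists'.1 (show s'.tk t ≠ none from h2)
    obtain rfl := h.tok t c c' hc hc'
    simp only [fol, pos, Sum.elim_inr, hc, hc', Option.getD_some, hD.self]
    norm_num

theorem small (hO : StPO) (hY : StYL) (hOM : StOM) {p : X → ℝ} {om : Lb X Q → ℝ} {s : LS X Q}
    (h : Cx D k N Ne ε εs ζ p om s) {x y : X} (hx : ζ ≤ p x) (h1 : 1 / (N : ℝ) ≤ D x y)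
    (h2 : D x y ≤ 1 / 8) :
    dif (lab D N Ne s x) (lab D N Ne s y) + gl D N ε s y - gl D N ε s x ≤ 2000000 * D x y *
      (ζ + bud D N p x (D x y) + (near D s x).elim 0 om / bl D p x 64 + D x y * lgk k) := by
  have a1 := hOM X k N Q Ne ε εs ζ D s h.pm h.prm h.valid x y h1 h2
  obtain ⟨a2, a3, a4⟩ := hY X k N Q Ne ε εs ζ D p om s h x hx _ h1 h2
  have a5 := hO X k N Q Ne ε εs ζ D p om s h x hx
  have a6 : 0 ≤ (near D s x).elim 0 om / bl D p x 64 := by
    refine div_nonneg ?_ (sum_nonneg fun u _ => ?_)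
    · rcases near D s x with _ | a
      · exact le_rfl
      · exact h.om_nonneg a
    · split_ifs
      · exact h.p_nonneg u
      · exact le_rfl
  have a7 := one_le_lg h.prm.hk
  have a8 := D_nonneg h.pm x y
  have a9 := h.prm.ζ_pos
  have a10 : D x y ≤ D x y * lgk k := le_mul_of_one_le_right a8 a7
  set δ := D x y
  set w := (near D s x).elim 0 om / bl D p x 64
  set b := bud D N p x δ
  have c1 : 6 * En D s x + 28 * (yy (En D s x) * Lbar D N ε s x) + 17 * (δ * lgk k)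
      ≤ 2000000 * (ζ + b + w + δ * lgk k) := by linarith
  have c2 := mul_le_mul_of_nonneg_left c1 a8
  linarith

theorem cover (hM : StMH) (hP : StPT) {p : X → ℝ} {om : Lb X Q → ℝ} {s : LS X Q}
    (h : Cx D k N Ne ε εs ζ p om s) {x : X} (hx : 1 ≤ p x) (ω : Seed X N Q Ne) :
    lab D N Ne s x ω ≠ none := by
  have hp := h.prm
  have hN : (0 : ℝ) < N := by exact_mod_cast lt_of_lt_of_le (by norm_num) hp.hN
  have hQ : (0 : ℝ) < Q := by exact_mod_cast hp.hQ
  have hk : (1 : ℝ) ≤ k := by exact_mod_cast hp.hk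
  obtain ⟨e0, -⟩ := eps_range hp
  unfold lab
  split_ifs with h1
  · simp
  refine (hM X Q Ne ε e0 hp.hQ hp.Ne_lo).2.1 _ _ ?_
  have h2 : 0 ≤ (((ω.1 : ℕ) : ℝ) + 1) / N := by positivity
  have h3 : yy (En D s x) = 1 :=
    min_eq_left (le_max_of_le_left (by linarith [not_lt.1 h1]))
  have h4 := hP X k N Q Ne ε εs ζ D p om s h x (hp.ζ_le.trans hx) (N + 1 + ω.2.1) 0
    (by have := ω.2.1.2; omega) (by rw [h3]; norm_num)
  have h5 : 1 ≤ bl D p x (((0 : ℕ) : ℝ) / N) := by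
    refine hx.trans ?_
    have := single_le_sum (f := fun u => if D x u ≤ ((0 : ℕ) : ℝ) / N then p u else 0)
      (fun u _ => by
        split_ifs
        · exact h.p_nonneg u
        · exact le_rfl) (mem_univ x)
    rw [if_pos (by rw [h.pm.self]; simp)] at this
    exact this
  have h6 : bl D p x 64 ≤ k := by
    rw [← h.p_sum]
    refine sum_le_sum fun u _ => ?_
    split_ifs
    · exact le_rfl
    · exact h.p_nonneg u
  have h7 : 1 ≤ ((N + 1 + (ω.2.1 : ℕ) : ℕ) : ℝ) / N := by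
    rw [le_div_iff₀ hN, one_mul]
    exact_mod_cast (by omega : N ≤ N + 1 + (ω.2.1 : ℕ))
  rw [h3, add_zero, one_pow, one_mul] at h4
  set T : ℝ := ((toks D s x (Rad N (N + 1 + ω.2.1))).card : ℝ) with hT
  have h8 : SS D N ε s x (N + 1 + ω.2.1) = ε + T / Q := rfl
  have h9 : 0 ≤ T / Q := by positivity
  have h10 : 1 ≤ 216 * k * (ε + T / Q) := by
    rw [h8] at h4
    have b1 : (1 : ℝ) * 1 ≤ bl D p x (((0 : ℕ) : ℝ) / N) *
        (((N + 1 + (ω.2.1 : ℕ) : ℕ) : ℝ) / N) ^ 2 :=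
      mul_le_mul h5 (one_le_pow₀ h7) zero_le_one (by linarith)
    have b2 : 216 * bl D p x 64 * (ε + T / Q) ≤ 216 * k * (ε + T / Q) := by gcongr
    linarith
  have h11 : k * ε = 1 / 1000 := by rw [hp.hε]; field_simp
  have h12 : 2 * ε ≤ T / Q := by
    by_contra hc
    have : (k : ℝ) * (T / Q) ≤ k * (2 * ε) := by gcongr; exact (not_le.1 hc).le
    nlinarith
  have h13 : 1 ≤ ε * Q := by
    have := hp.e1
    rw [div_le_iff₀ hQ] at this
    have h0 : (0 : ℝ) ≤ Fintype.card X := Nat.cast_nonneg _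
    nlinarith
  rw [le_div_iff₀ hQ] at h12
  have h14 : (Ne : ℝ) ≤ T := by linarith [hp.Ne_hi]
  rw [hT] at h14
  exact_mod_cast h14

end E7

open E7 in
theorem stLev (hB : Basic) (hM : StMH) (hP : StPT) (hO : StPO) (hY : StYL) (hOM : StOM) :
    StLev := by
  intro X _ _ hX k ζ N0 hk h0 h1
  classical
  obtain ⟨N, Q, Ne, εs, hN0, hp⟩ := exists_prm (Fintype.card X) k N0 ζ hk h0 h1
  have hN : 1 ≤ N := le_trans (by norm_num) hp.hN
  have hNr : (0 : ℝ) < N := by exact_mod_cast hN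
  have : Nonempty (Fin N) := ⟨⟨0, hN⟩⟩
  refine ⟨Lb X Q, Seed X N Q Ne, inferInstance, inferInstance, inferInstance, N, εs, hN0, hN,
    hp.εs_pos, fun r hr => ?_⟩
  let D : X → X → ℝ := fun u v => dist u v / r
  have hD : PM D := ⟨fun x => by simp [D], fun x y => by simp only [D, dist_comm],
    fun x y z => by
      simp only [D]
      rw [← add_div]
      gcongr
      exact dist_triangle _ _ _⟩
  have hbl : ∀ (p : X → ℝ) (x : X) (ρ : ℝ), bl D p x ρ = ball p x (ρ * r) := by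
    intro p x ρ
    refine sum_congr rfl fun u _ => ?_
    simp only [D, div_le_iff₀ hr]
  have hbud : ∀ (p : X → ℝ) (x : X) (d : ℝ), bud D N p x (d / r) = Bud N p x r d := by
    intro p x d
    unfold bud Bud
    congr 1
    refine sum_congr rfl fun i _ => ?_
    rw [hbl, hbl, max_mul_of_nonneg _ _ hr.le, show 2 * (d / r) * r = 2 * d by field_simp]
  have hcx : ∀ (p : X → ℝ) (om : Lb X Q → ℝ) (s : {s : LS X Q // Valid D s}), (∀ u, 0 ≤ p u) →
      ∑ u, p u = k → (∀ a, 0 ≤ om a) →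
      LOpt (fun s : {s : LS X Q // Valid D s} => gl D N (1 / (1000 * k)) s.1)
        (fun s => lab D N Ne s.1) (fun s s' => Mv D s.1 s'.1) (fun s s' => fol D s.1 s'.1)
        εs p om s → Cx D k N Ne (1 / (1000 * k)) εs ζ p om s.1 :=
    fun p om s a1 a2 a3 a4 => ⟨hD, hp, s.2, a1, a2, a3, fun s' b1 b2 => a4 ⟨s', b1⟩ b2⟩
  obtain ⟨x0⟩ := hX
  have hv : Valid D (⟨fun _ => x0, fun _ => 3, fun _ => none⟩ : LS X Q) :=
    ⟨fun _ => by norm_num, fun _ _ _ => by have := D_nonneg hD x0 x0; linarith,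
      fun w => by simp [toks]⟩
  exact ⟨{
    S := {s : LS X Q // Valid D s}
    lab := fun s => lab D N Ne s.1
    pos := fun s => pos s.1
    vis := fun s => vis s.1
    near := fun s => near D s.1
    g := fun s => gl D N (1 / (1000 * k)) s.1
    Mv := fun s s' => Mv D s.1 s'.1
    fol := fun s s' => fol D s.1 s'.1
    s0 := ⟨_, hv⟩
    g_nonneg := fun s u => (gl_range hB hD hp s.2 u).1
    g_le := fun s u => (gl_range hB hD hp s.2 u).2
    lab_pos := fun s u ω a h => ⟨(lab_pos hM hD hp s.2 u ω a h).1,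
      (div_le_iff₀ hr).1 (lab_pos hM hD hp s.2 u ω a h).2⟩
    near_pos := fun s x a h => (div_le_iff₀ hr).1 (near_pos s.2 x a h)
    fol_nonneg := fun s s' a => fol_nonneg hD _ _ a
    mv_pos := fun s s' a a1 a2 a3 => ⟨(div_le_iff₀ hr).1 (mv_pos hD a a1 a2 a3).1,
      (div_le_iff₀ hr).1 (mv_pos hD a a1 a2 a3).2⟩
    small := fun p om s x y a1 a2 a3 a4 a5 a6 a7 => by
      have := small hO hY hOM (hcx p om s a1 a2 a3 a4) (y := y) a5
        (by simp only [D]; rw [le_div_iff₀ hr, one_div_mul_eq_div]; exact a6)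
        (by simp only [D]; rw [div_le_iff₀ hr]; linarith)
      rw [hbl] at this
      simp only [D] at this
      rw [hbud] at this
      exact this
    cover := fun p om s x a1 a2 a3 a4 a5 ω => cover hM hP (hcx p om s a1 a2 a3 a4) a5 ω }⟩

end Vale.Agent.P304Z.E
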