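import Vale.Agent.P304Z.H0

/-!
# P304Z, layer H: scalar facts
-/

namespace Vale.Agent.P304Z.H

namespace H1

theorem uu_cases (s : ℝ) : (s ≤ 1 ∧ uu s = 1 - s) ∨ (1 ≤ s ∧ uu s = 0) := by
  unfold uu
  rcases le_total s 1 with h | h
  · exact Or.inl ⟨h, max_eq_left (by linarith)⟩
  · exact Or.inr ⟨h, max_eq_right (by linarith)⟩

theorem uu_nonneg (s : ℝ) : 0 ≤ uu s := le_max_right _ _

theorem be_nonneg (s : ℝ) (hs : 0 ≤ s) : 0 ≤ be s := by
  unfold be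
  positivity

theorem zero (θ q : ℝ) (h : 3 / 2 ≤ θ) (hq : q ≤ 1 / 3) : uu (θ * (1 - q)) = 0 := by
  unfold uu
  exact max_eq_right (by nlinarith)

theorem ka_le_one (s : ℝ) (hs : 0 ≤ s) : ka s ≤ 1 := by
  unfold ka ff be
  rcases uu_cases s with ⟨h, e⟩ | ⟨h, e⟩ <;> rw [e]
  · nlinarith [mul_nonneg (mul_nonneg hs hs) (sub_nonneg.2 h), sq_nonneg s]
  · norm_num

theorem be_le (s : ℝ) (hs : 0 ≤ s) : be s ≤ 2 * s := by
  unfold be
  rcases uu_cases s with ⟨h, e⟩ | ⟨h, e⟩ <;> rw [e]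
  · nlinarith [mul_nonneg (mul_nonneg hs hs) (sub_nonneg.2 h), sq_nonneg s]
  · nlinarith

theorem abs_mul_le {a d c : ℝ} (h1 : -c ≤ a) (h2 : a ≤ c) : |a * d| ≤ c * |d| := by
  rw [abs_mul]
  exact mul_le_mul_of_nonneg_right (abs_le.2 ⟨h1, h2⟩) (abs_nonneg _)

theorem clamp (s : ℝ) (hs : 0 ≤ s) : 0 ≤ min s 1 ∧ min s 1 ≤ 1 ∧
    ka s = 1 - 3 * min s 1 ^ 2 + 2 * min s 1 ^ 3 ∧
    be s = 2 * min s 1 - 4 * min s 1 ^ 2 + 2 * min s 1 ^ 3 := by
  refine ⟨le_min hs zero_le_one, min_le_right _ _, ?_⟩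
  unfold ka ff be
  rcases uu_cases s with ⟨h, e⟩ | ⟨h, e⟩
  · rw [e, min_eq_left h]
    constructor <;> ring
  · rw [e, min_eq_right h]
    constructor <;> ring

theorem lip (s s' : ℝ) (hs : 0 ≤ s) (hs' : 0 ≤ s') :
    |ka s' - ka s| ≤ 3 / 2 * |s' - s| ∧ |be s' - be s| ≤ 2 * |s' - s| := by
  obtain ⟨a0, a1, e1, e2⟩ := clamp s hs
  obtain ⟨b0, b1, e3, e4⟩ := clamp s' hs'
  have hm : |min s' 1 - min s 1| ≤ |s' - s| := by
    have := abs_min_sub_min_le_max s' 1 s 1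
    simpa using this
  rw [e1, e2, e3, e4]
  generalize min s 1 = a at *
  generalize min s' 1 = b at *
  constructor
  · have e : 1 - 3 * b ^ 2 + 2 * b ^ 3 - (1 - 3 * a ^ 2 + 2 * a ^ 3) =
        (2 * (a ^ 2 + a * b + b ^ 2) - 3 * (a + b)) * (b - a) := by ring
    rw [e]
    refine (abs_mul_le (c := 3 / 2) ?_ ?_).trans (by linarith)
    · nlinarith [sq_nonneg (a - b), sq_nonneg (a + b - 1)]
    · nlinarith [sq_nonneg (a - b), mul_nonneg a0 (sub_nonneg.2 a1), mul_nonneg b0 (sub_nonneg.2 b1)]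
  · have e : 2 * b - 4 * b ^ 2 + 2 * b ^ 3 - (2 * a - 4 * a ^ 2 + 2 * a ^ 3) =
        (2 - 4 * (a + b) + 2 * (a ^ 2 + a * b + b ^ 2)) * (b - a) := by ring
    rw [e]
    refine (abs_mul_le (c := 2) ?_ ?_).trans (by linarith)
    · nlinarith [sq_nonneg (a - b), sq_nonneg (a + b - 1), sq_nonneg (a + b - 2)]
    · nlinarith [sq_nonneg (a - b), mul_nonneg a0 (sub_nonneg.2 a1), mul_nonneg b0 (sub_nonneg.2 b1)]

theorem ka_taylor (s s' : ℝ) (hs : 0 ≤ s) (hs' : 0 ≤ s') :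
    |ka s' - ka s| ≤ 6 * (s * uu s) * |s' - s| + 3 * (s' - s) ^ 2 := by
  have h0 : 0 ≤ 6 * (s * uu s) * |s' - s| := by
    have := uu_nonneg s
    positivity
  unfold ka ff be
  rcases uu_cases s with ⟨h, e⟩ | ⟨h, e⟩ <;> rcases uu_cases s' with ⟨h', e'⟩ | ⟨h', e'⟩
  · have e1 : uu s' ^ 2 + 2 * s' * uu s' ^ 2 - (uu s ^ 2 + 2 * s * uu s ^ 2) =
        -(6 * (s * uu s)) * (s' - s) + (4 * s + 2 * s' - 3) * (s' - s) ^ 2 := by
      rw [e, e']; ring
    rw [e1]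
    refine (abs_add_le _ _).trans (add_le_add ?_ ?_)
    · have := mul_nonneg hs (uu_nonneg s)
      exact abs_mul_le le_rfl (by linarith)
    · refine (abs_mul_le (c := 3) (by linarith) (by linarith)).trans (le_of_eq ?_)
      rw [abs_of_nonneg (sq_nonneg _)]
  · refine le_trans ?_ (le_add_of_nonneg_left h0)
    rw [e, e']
    have h1 : (1 - s) ^ 2 ≤ (s' - s) ^ 2 := by nlinarith
    have h2 : 0 ≤ s * (1 - s) ^ 2 := by positivity
    have h3 : s * (1 - s) ^ 2 ≤ (1 - s) ^ 2 := mul_le_of_le_one_left (sq_nonneg _) h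
    rw [abs_le]
    constructor <;> nlinarith [sq_nonneg (1 - s)]
  · refine le_trans ?_ (le_add_of_nonneg_left h0)
    rw [e, e']
    have h1 : (1 - s') ^ 2 ≤ (s' - s) ^ 2 := by nlinarith
    have h2 : 0 ≤ s' * (1 - s') ^ 2 := by positivity
    have h3 : s' * (1 - s') ^ 2 ≤ (1 - s') ^ 2 := mul_le_of_le_one_left (sq_nonneg _) h'
    rw [abs_le]
    constructor <;> nlinarith [sq_nonneg (1 - s')]
  · refine le_trans ?_ (le_add_of_nonneg_left h0)
    rw [e, e']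
    have := sq_nonneg (s' - s)
    simp only [ne_eq, OfNat.ofNat_ne_zero, not_false_eq_true, zero_pow, mul_zero, add_zero,
      sub_self, abs_zero]
    linarith

theorem be_taylor (s s' : ℝ) (hs : 0 ≤ s) (hs' : 0 ≤ s') :
    |be s' - be s - 2 * uu s * (1 - 3 * s) * (s' - s)| ≤ 4 * (s' - s) ^ 2 := by
  unfold be
  rcases uu_cases s with ⟨h, e⟩ | ⟨h, e⟩ <;> rcases uu_cases s' with ⟨h', e'⟩ | ⟨h', e'⟩ <;>
    rw [e, e']
  · have e1 : 2 * s' * (1 - s') ^ 2 - 2 * s * (1 - s) ^ 2 - 2 * (1 - s) * (1 - 3 * s) * (s' - s) =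
        (4 * s + 2 * s' - 4) * (s' - s) ^ 2 := by ring
    rw [e1]
    refine (abs_mul_le (c := 4) (by linarith) (by linarith)).trans (le_of_eq ?_)
    rw [abs_of_nonneg (sq_nonneg _)]
  · have hu : 0 ≤ 1 - s := by linarith
    have hd : 1 - s ≤ s' - s := by linarith
    have h1 : (1 - s) ^ 2 ≤ (s' - s) ^ 2 := by nlinarith
    have h2 : 0 ≤ s * (1 - s) ^ 2 := by positivity
    have h3 : s * (1 - s) ^ 2 ≤ (1 - s) ^ 2 := mul_le_of_le_one_left (sq_nonneg _) h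
    have h4 : 0 ≤ (1 - s) * (s' - s) := mul_nonneg hu (hu.trans hd)
    have h5 : (1 - s) * (s' - s) ≤ (s' - s) ^ 2 := by nlinarith
    have h6 : 0 ≤ s * ((1 - s) * (s' - s)) := mul_nonneg hs h4
    have h7 : s * ((1 - s) * (s' - s)) ≤ (1 - s) * (s' - s) := mul_le_of_le_one_left h4 h
    rw [abs_le]
    constructor <;> nlinarith
  · have h1 : (1 - s') ^ 2 ≤ (s' - s) ^ 2 := by nlinarith
    have h2 : 0 ≤ s' * (1 - s') ^ 2 := by positivity
    have h3 : s' * (1 - s') ^ 2 ≤ (1 - s') ^ 2 := mul_le_of_le_one_left (sq_nonneg _) h'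
    rw [abs_le]
    constructor <;> nlinarith [sq_nonneg (s' - s)]
  · have := sq_nonneg (s' - s)
    simp only [ne_eq, OfNat.ofNat_ne_zero, not_false_eq_true, zero_pow, mul_zero, zero_mul,
      sub_self, abs_zero]
    linarith

theorem ka_le (θ q : ℝ) (h1 : 3 / 2 ≤ θ) (h2 : θ ≤ 2) (h3 : 0 ≤ q) (h4 : q ≤ 1) :
    ka (θ * (1 - q)) ≤ 9 * q ^ 2 ∧ ka (θ * (1 - q)) ≤ 3 * q ∧
      be (θ * (1 - q)) ≤ 12 * (q * (1 - q)) := by
  have hq : 0 ≤ 1 - q := by linarith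
  rcases le_total q (1 / 3) with h | h
  · unfold ka ff be
    rw [zero θ q h1 h]
    refine ⟨?_, ?_, ?_⟩ <;> nlinarith [mul_nonneg h3 hq, sq_nonneg q]
  · have hs : 0 ≤ θ * (1 - q) := mul_nonneg (by linarith) hq
    have a1 := ka_le_one _ hs
    have a2 := be_le _ hs
    refine ⟨by nlinarith, by linarith, ?_⟩
    nlinarith [mul_nonneg (sub_nonneg.2 h2) hq, mul_nonneg (sub_nonneg.2 h) hq]

theorem ent {g g' : ℝ} (hg : 0 < g) (hg' : 0 < g') :
    (g' - g) ^ 2 / (2 * (g + g')) ≤ g' * (Real.log g' - Real.log g) - g' + g := by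
  obtain ⟨a, ha, rfl⟩ : ∃ a : ℝ, 0 < a ∧ g' = a ^ 2 :=
    ⟨√g', Real.sqrt_pos.2 hg', (Real.sq_sqrt hg'.le).symm⟩
  obtain ⟨b, hb, rfl⟩ : ∃ b : ℝ, 0 < b ∧ g = b ^ 2 :=
    ⟨√g, Real.sqrt_pos.2 hg, (Real.sq_sqrt hg.le).symm⟩
  have h1 : Real.log b - Real.log a ≤ b / a - 1 := by
    rw [← Real.log_div hb.ne' ha.ne']
    exact Real.log_le_sub_one_of_pos (div_pos hb ha)
  have h2 : a ^ 2 * (Real.log b - Real.log a) ≤ a * b - a ^ 2 := by
    refine (mul_le_mul_of_nonneg_left h1 (sq_nonneg a)).trans (le_of_eq ?_)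
    field_simp
  have h3 : (a ^ 2 - b ^ 2) ^ 2 / (2 * (b ^ 2 + a ^ 2)) ≤ (a - b) ^ 2 := by
    rw [div_le_iff₀ (by positivity)]
    nlinarith [sq_nonneg ((a - b) ^ 2)]
  rw [Real.log_pow, Real.log_pow]
  push_cast
  nlinarith

theorem breg (ε δ ρ r : ℝ) (hε : 0 < ε) (hδ : 0 < δ) (hρ : 0 ≤ ρ) (hr : 0 ≤ r) :
    (400 / ε * (r - δ / ε * Real.log (1 + ε * r / δ)) - 400 / ε * Real.log (1 + ε * r / δ) * r) +
      200 * (r - ρ) ^ 2 / (2 * δ + ε * ρ + ε * r) ≤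
    400 / ε * (ρ - δ / ε * Real.log (1 + ε * ρ / δ)) - 400 / ε * Real.log (1 + ε * ρ / δ) * r := by
  have hg : 0 < δ + ε * ρ := by positivity
  have hg' : 0 < δ + ε * r := by positivity
  have e1 : Real.log (1 + ε * r / δ) = Real.log (δ + ε * r) - Real.log δ := by
    rw [← Real.log_div hg'.ne' hδ.ne']
    refine congrArg _ ?_
    field_simp
  have e2 : Real.log (1 + ε * ρ / δ) = Real.log (δ + ε * ρ) - Real.log δ := by
    rw [← Real.log_div hg.ne' hδ.ne']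
    refine congrArg _ ?_
    field_simp
  have h := mul_le_mul_of_nonneg_left (ent hg hg') (show 0 ≤ 400 / ε ^ 2 by positivity)
  have e3 : 400 / ε ^ 2 * ((δ + ε * r - (δ + ε * ρ)) ^ 2 / (2 * (δ + ε * ρ + (δ + ε * r)))) =
      200 * (r - ρ) ^ 2 / (2 * δ + ε * ρ + ε * r) := by
    field_simp
    ring
  rw [e1, e2, ← e3]
  generalize Real.log (δ + ε * r) = A at *
  generalize Real.log (δ + ε * ρ) = B at *
  generalize Real.log δ = C
  have e4 : 400 / ε * (ρ - δ / ε * (B - C)) - 400 / ε * (B - C) * r -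
      (400 / ε * (r - δ / ε * (A - C)) - 400 / ε * (A - C) * r) =
      400 / ε ^ 2 * ((δ + ε * r) * (A - B) - (δ + ε * r) + (δ + ε * ρ)) := by
    field_simp
    ring
  linarith

theorem Lam_pos (k : ℕ) : 4 ≤ Lam k := by
  unfold Lam
  linarith [Real.log_natCast_nonneg k]

/-- slope of `gg` -/
noncomputable def sl (k : ℕ) (x y a θ t : ℝ) : ℝ :=
  W0 k * (1 - 2 * t) + W1 k * (2 * (t - x)) + W2 k * (2 * (t - y)) +
    a * (-(θ * (2 * uu (θ * (1 - t)) * (1 - 3 * (θ * (1 - t))))))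

theorem super (k : ℕ) (x y a θ t t' : ℝ) (ha : |a| ≤ L0 k) (h1 : 3 / 2 ≤ θ) (h2 : θ ≤ 2)
    (ht : t ≤ 1) (ht' : t' ≤ 1) :
    gg k x y a θ t' ≤ gg k x y a θ t + sl k x y a θ t * (t' - t) := by
  have hθ : 0 ≤ θ := by linarith
  have h := be_taylor (θ * (1 - t)) (θ * (1 - t')) (mul_nonneg hθ (by linarith))
    (mul_nonneg hθ (by linarith))
  have hL := Lam_pos k
  have h3 : 4 * (θ * (1 - t') - θ * (1 - t)) ^ 2 ≤ 16 * (t' - t) ^ 2 := by
    have e : (θ * (1 - t') - θ * (1 - t)) ^ 2 = θ ^ 2 * (t' - t) ^ 2 := by ring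
    have h4 : θ ^ 2 ≤ 4 := by nlinarith
    rw [e]
    nlinarith [sq_nonneg (t' - t)]
  have h5 := (le_abs_self _).trans ((abs_mul a _).le.trans
    (mul_le_mul ha (h.trans h3) (abs_nonneg _) ((abs_nonneg _).trans ha)))
  have h6 : 0 ≤ Lam k * (t' - t) ^ 2 := by positivity
  unfold gg sl
  unfold L0 at h5
  unfold W0 W1 W2
  nlinarith

theorem sl_le (k : ℕ) (x y a θ t : ℝ) (ha : |a| ≤ L0 k) (h1 : 3 / 2 ≤ θ) (h2 : θ ≤ 2)
    (x0 : 0 ≤ x) (x1 : x ≤ 1) (y0 : 0 ≤ y) (y1 : y ≤ 1) (t0 : 0 ≤ t) (t1 : t ≤ 1) :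
    |sl k x y a θ t| ≤ 5000000000 * Lam k := by
  have hL := Lam_pos k
  have hθ : 0 ≤ θ := by linarith
  have hs : 0 ≤ θ * (1 - t) := mul_nonneg hθ (by linarith)
  have b1 : |2 * uu (θ * (1 - t)) * (1 - 3 * (θ * (1 - t)))| ≤ 4 := by
    generalize θ * (1 - t) = s at hs
    rcases uu_cases s with ⟨h, e⟩ | ⟨h, e⟩ <;> rw [e]
    · rw [abs_le]
      constructor <;> nlinarith
    · norm_num
  have b2 : |-(θ * (2 * uu (θ * (1 - t)) * (1 - 3 * (θ * (1 - t)))))| ≤ 8 := by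
    rw [abs_neg, abs_mul, abs_of_nonneg hθ]
    nlinarith [abs_nonneg (2 * uu (θ * (1 - t)) * (1 - 3 * (θ * (1 - t))))]
  have b3 := (abs_mul a _).le.trans (mul_le_mul ha b2 (abs_nonneg _) ((abs_nonneg _).trans ha))
  rw [abs_le] at b3
  unfold sl W0 W1 W2
  unfold L0 at b3
  have hL0 : 0 ≤ Lam k := by linarith
  rw [abs_le]
  constructor <;>
    nlinarith [mul_nonneg hL0 x0, mul_nonneg hL0 y0, mul_nonneg hL0 t0,
      mul_nonneg hL0 (sub_nonneg.2 x1), mul_nonneg hL0 (sub_nonneg.2 y1),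
      mul_nonneg hL0 (sub_nonneg.2 t1), b3.1, b3.2]

end H1

open H1 in
theorem s1 : S1 where
  slack s s' ε hs h0 h1 h := by
    unfold ff be
    have hε : 0 ≤ ε * s := mul_nonneg h0 hs
    rcases uu_cases s with ⟨a, e⟩ | ⟨a, e⟩ <;> rcases uu_cases s' with ⟨a', e'⟩ | ⟨a', e'⟩ <;>
      rw [e, e']
    · have b1 : 1 - s' ≤ 1 - s - ε * s := by linarith
      have b2 : (1 - s') ^ 2 ≤ (1 - s - ε * s) ^ 2 := pow_le_pow_left₀ (by linarith) b1 2
      have b3 : ε * s * (ε * s) ≤ ε * s * (1 - s) := mul_le_mul_of_nonneg_left (by linarith) hε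
      have b4 : ε * s * (1 - s) * (1 - s) ≤ ε * s * (1 - s) :=
        mul_le_of_le_one_right (mul_nonneg hε (by linarith)) (by linarith)
      nlinarith
    · have b1 : ε * s ≤ 1 := mul_le_one₀ h1 hs a
      nlinarith [mul_le_mul_of_nonneg_right b1 (sq_nonneg (1 - s))]
    · have b1 : s' = 1 := le_antisymm a' (by nlinarith)
      rw [b1]
      norm_num
    · norm_num
  be_nonneg := H1.be_nonneg
  ka_le := H1.ka_le
  zero := H1.zero
  ka_ref s s' η hs hs' hη := by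
    refine (ka_taylor s s' hs hs').trans ?_
    have h1 : 6 * (s * uu s) * |s' - s| ≤ η * (s * uu s) ^ 2 + 9 / η * (s' - s) ^ 2 := by
      have e : η * (s * uu s) ^ 2 + 9 / η * |s' - s| ^ 2 - 6 * (s * uu s) * |s' - s| =
          (η * (s * uu s) - 3 * |s' - s|) ^ 2 / η := by
        field_simp
        ring
      have h2 : 0 ≤ (η * (s * uu s) - 3 * |s' - s|) ^ 2 / η := by positivity
      rw [sq_abs] at e
      linarith
    have h3 : (s * uu s) ^ 2 ≤ s * uu s ^ 2 := by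
      rcases uu_cases s with ⟨a, _⟩ | ⟨_, e⟩
      · have h4 : s * (s * uu s ^ 2) ≤ s * uu s ^ 2 :=
          mul_le_of_le_one_left (by positivity) a
        nlinarith
      · rw [e]; norm_num
    have h5 := mul_le_mul_of_nonneg_left h3 hη.le
    unfold be
    nlinarith
  drift θ θ' q h1 h2 h3 h4 h5 h6 := by
    have hd := abs_nonneg (θ' - θ)
    rcases le_total q (1 / 3) with h | h
    · unfold ka ff be
      rw [zero θ q h1 h, zero θ' q h3 h]
      constructor <;> norm_num <;> positivity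
    · have hq : 0 ≤ 1 - q := by linarith
      obtain ⟨a1, a2⟩ := lip (θ * (1 - q)) (θ' * (1 - q)) (mul_nonneg (by linarith) hq)
        (mul_nonneg (by linarith) hq)
      have e : |θ' * (1 - q) - θ * (1 - q)| = |θ' - θ| * (1 - q) := by
        rw [← sub_mul, abs_mul, abs_of_nonneg hq]
      rw [e] at a1 a2
      have b1 : 1 - q ≤ 6 * q ^ 2 := by nlinarith
      have b2 := mul_le_mul_of_nonneg_left b1 hd
      constructor <;> nlinarith
  ff_eq θ q hθ := by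
    unfold ff uu
    rw [← mul_pow, mul_max_of_nonneg _ _ hθ.le, mul_zero]
    have e : θ * (q - (1 - 1 / θ)) = 1 - θ * (1 - q) := by
      field_simp
      ring
    rw [e]

open H1 in
theorem s2 : S2 where
  breg := H1.breg
  self_le ε δ r hε hδ hr := by
    have h := H1.breg ε δ 0 r hε hδ le_rfl hr
    have h1 : 0 ≤ 200 * (r - 0) ^ 2 / (2 * δ + ε * 0 + ε * r) := by positivity
    simp only [mul_zero, zero_div, add_zero, Real.log_one, sub_self, zero_mul] at h h1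
    linarith
  gg_nonneg k x y a θ t _ ha h1 h2 t0 t1 := by
    have hL := Lam_pos k
    have hb := (H1.ka_le θ t h1 h2 t0 t1).2.2
    have hb0 := H1.be_nonneg (θ * (1 - t)) (mul_nonneg (by linarith) (by linarith))
    have h3 : -(L0 k) * be (θ * (1 - t)) ≤ a * be (θ * (1 - t)) :=
      mul_le_mul_of_nonneg_right (abs_le.1 ha).1 hb0
    have hL0 : 0 ≤ Lam k := by linarith
    have h4 := mul_le_mul_of_nonneg_left hb hL0
    have h5 : 0 ≤ Lam k * (t * (1 - t)) := mul_nonneg hL0 (mul_nonneg t0 (by linarith))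
    have h6 : 0 ≤ Lam k * (t - x) ^ 2 := by positivity
    have h7 : 0 ≤ Lam k * (t - y) ^ 2 := by positivity
    unfold gg W0 W1 W2
    unfold L0 at h3
    nlinarith
  gg_concave k x y a θ _ ha h1 h2 := by
    refine ⟨convex_Icc 0 1, fun t1 a1 t2 a2 p q hp hq hpq => ?_⟩
    have ht := (convex_Icc (0 : ℝ) 1) a1 a2 hp hq hpq
    simp only [smul_eq_mul] at ht ⊢
    have b1 := mul_le_mul_of_nonneg_left (super k x y a θ _ t1 ha h1 h2 ht.2 a1.2) hp
    have b2 := mul_le_mul_of_nonneg_left (super k x y a θ _ t2 ha h1 h2 ht.2 a2.2) hq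
    generalize gg k x y a θ (p * t1 + q * t2) = G at *
    generalize sl k x y a θ (p * t1 + q * t2) = m at *
    have e : p * (G + m * (t1 - (p * t1 + q * t2))) + q * (G + m * (t2 - (p * t1 + q * t2))) =
        G := by
      have hq' : q = 1 - p := by linarith
      rw [hq']
      ring
    linarith
  gg_lip k x y a θ t t' _ ha h1 h2 x0 x1 y0 y1 t0 t1 _ t3 := by
    refine (super k x y a θ t t' ha h1 h2 t1 t3).trans (add_le_add le_rfl ?_)
    refine (le_abs_self _).trans ?_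
    rw [abs_mul]
    exact mul_le_mul_of_nonneg_right (sl_le k x y a θ t ha h1 h2 x0 x1 y0 y1 t0 t1) (abs_nonneg _)

end Vale.Agent.P304Z.H
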