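import Vale.Agent.P304Z.H0

/-!
# P304Z, layer H: the consequences of the balance conditions
-/

open Finset

namespace Vale.Agent.P304Z.H

namespace H2

variable {N : Type} [Fintype N] [DecidableEq N] {k : ℕ} {T : Tr N}
  {y q : N → Fin k → ℝ} {th : N → ℝ}

theorem four_le (hk : 1 ≤ k) : 4 ≤ Lam k := by
  have : 0 ≤ Real.log k := Real.log_nonneg (by exact_mod_cast hk)
  rw [Lam]
  linarith

theorem log_le (hk : 1 ≤ k) {x : ℝ} (h0 : 0 < x) (hx : x ≤ 32 * k) : Real.log x ≤ Lam k := by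
  have hk0 : (0 : ℝ) < k := by exact_mod_cast hk
  have h1 := Real.log_le_log h0 hx
  rw [Real.log_mul (by norm_num) hk0.ne', show (32 : ℝ) = 2 ^ 5 by norm_num, Real.log_pow] at h1
  have h2 := Real.log_two_lt_d9
  rw [Lam]
  push_cast at h1
  linarith

theorem GG_nonneg (x : Fin k → ℝ) : 0 ≤ GG x := sum_nonneg fun _ _ => sq_nonneg _

theorem GG_le {x : Fin k → ℝ} (h : ∀ j, 0 ≤ x j ∧ x j ≤ 1) : GG x ≤ k := by
  have : GG x ≤ ∑ _j : Fin k, (1 : ℝ) :=
    sum_le_sum fun j _ => pow_le_one₀ (h j).1 (h j).2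
  simpa using this

theorem GG_ch (h : Adm T q) (w : N) : ∑ c ∈ T.ch w, GG (q c) ≤ GG (q w) := by
  have h1 := h.sa w 0 le_rfl
  have h2 : ∀ v j, max (q v j - 0) 0 = q v j := fun v j => by
    rw [sub_zero, max_eq_left (h.box v j).1]
  simp only [h2] at h1
  exact h1

omit [Fintype N] [DecidableEq N] in
theorem sz_cases (y : N → Fin k → ℝ) (v : N) : sz y v = 0 ∨ 1 / 20 ≤ sz y v := by
  unfold sz gt
  split_ifs with h
  · exact Or.inr h
  · exact Or.inl rfl

omit [Fintype N] [DecidableEq N] in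
theorem sz_nonneg (y : N → Fin k → ℝ) (v : N) : 0 ≤ sz y v := by
  rcases sz_cases y v with h | h <;> linarith

omit [Fintype N] [DecidableEq N] in
theorem sz_ge {v : N} (h : sz y v ≠ 0) : 1 / 20 ≤ sz y v := (sz_cases y v).resolve_left h

theorem sz_le_k (h : Sz T y th q) (v : N) : sz y v ≤ k := by
  unfold sz gt
  split_ifs
  · exact GG_le (h.ybox v)
  · positivity

theorem sz_le (h : Sz T y th q) (v : N) : sz y v ≤ 11 / 10 * GG (q v) := by
  rcases h.size v with h1 | h1
  · have := GG_nonneg (q v)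
    linarith [h1.1]
  · exact h1.2.1

theorem GG_le_sz (h : Sz T y th q) {v : N} (h0 : sz y v ≠ 0) : GG (q v) ≤ 11 / 10 * sz y v := by
  rcases h.size v with h1 | h1
  · exact absurd h1.1 h0
  · exact h1.2.2

theorem mem_ch {c w : N} : c ∈ T.ch w ↔ c ≠ T.root ∧ T.par c = w := by simp [Tr.ch]

theorem mem_side {c w : N} : c ∈ side T y w ↔ (c ≠ T.root ∧ T.par c = w) ∧ ¬ core T y c := by
  classical
  simp only [side, mem_filter, mem_ch]

theorem side_sub (w : N) : side T y w ⊆ T.ch w := fun _ hc => mem_ch.2 (mem_side.1 hc).1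

omit [Fintype N] [DecidableEq N] in
theorem core_ne {c : N} (hc : core T y c) : sz y c ≠ 0 := by
  have := sz_nonneg y (T.par c)
  have := hc.2
  intro h
  linarith

theorem uniq (ha : Adm T q) (h : Sz T y th q) {c c' : N} (hc : core T y c) (hc' : core T y c')
    (hp : T.par c = T.par c') : c = c' := by
  by_contra hne
  have h1 : sz y (T.par c) ≠ 0 := fun h0 => core_ne hc (h.par c hc.1 h0)
  have h2 : ∑ v ∈ {c, c'}, GG (q v) ≤ ∑ v ∈ T.ch (T.par c), GG (q v) := by
    refine sum_le_sum_of_subset_of_nonneg (fun v hv => ?_) fun _ _ _ => GG_nonneg _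
    rw [mem_insert, mem_singleton] at hv
    rcases hv with rfl | rfl
    · exact mem_ch.2 ⟨hc.1, rfl⟩
    · exact mem_ch.2 ⟨hc'.1, hp.symm⟩
  rw [sum_pair hne] at h2
  have h3 := hc'.2
  rw [← hp] at h3
  linarith [GG_ch ha (T.par c), GG_le_sz h h1, sz_le h c, sz_le h c', hc.2, sz_ge h1]

omit [Fintype N] [DecidableEq N] in
theorem ratio_ge {c : N} (hc : c ≠ T.root) (hn : ¬ core T y c) (h0 : sz y c ≠ 0) :
    3 / 2 ≤ sz y (T.par c) / sz y c := by
  have h1 : sz y c ≤ 2 / 3 * sz y (T.par c) := not_lt.1 fun h => hn ⟨hc, h⟩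
  rw [le_div_iff₀ (by linarith [sz_ge h0])]
  linarith

theorem act (hk : 1 ≤ k) (h : Sz T y th q) {c : N} (hc : c ≠ T.root) (hn : ¬ core T y c)
    (h0 : sz y c ≠ 0) : 1 / (20 * Lam k) ≤ ep T y c ∧ ep T y c ≤ 1 / 8 ∧ 0 < dl T y c ∧
      Real.log (1 + ep T y c / dl T y c) ≤ 64 * Lam k * ep T y c := by
  have hL := four_le hk
  have hL0 : 0 < Lam k := by linarith
  have h1 := ratio_ge hc hn h0
  have h2 := sz_ge h0
  have hc0 : 0 < sz y c := by linarith
  have hw0 : 0 < sz y (T.par c) := by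
    rw [le_div_iff₀ hc0] at h1
    linarith
  have h3 : sz y (T.par c) / sz y c ≤ 32 * k := by
    rw [div_le_iff₀ hc0]
    have := sz_le_k h (T.par c)
    nlinarith
  have h4 : 2 / 5 ≤ Real.log (sz y (T.par c) / sz y c) := by
    have a1 := Real.le_log_one_add_of_nonneg (x := 1 / 2) (by norm_num)
    have a2 := Real.log_le_log (by norm_num) h1
    norm_num at a1 a2 ⊢
    linarith
  have h5 := log_le hk (by linarith) h3
  have h6 : ep T y c / dl T y c =
      10 * Real.log (sz y (T.par c) / sz y c) * (sz y (T.par c) / sz y c) := by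
    rw [ep, dl]
    field_simp
    ring
  have h7 : 64 * Lam k * ep T y c = 8 * Real.log (sz y (T.par c) / sz y c) := by
    rw [ep]
    field_simp
    ring
  refine ⟨?_, ?_, ?_, ?_⟩
  · rw [ep, div_le_div_iff₀ (by positivity) (by positivity)]
    nlinarith
  · rw [ep, div_le_iff₀ (by positivity)]
    linarith
  · rw [dl]
    positivity
  · rw [h6, h7]
    have h8 : Real.exp (Real.log (sz y (T.par c) / sz y c)) = sz y (T.par c) / sz y c :=
      Real.exp_log (by linarith)
    generalize sz y (T.par c) / sz y c = x at *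
    generalize Real.log x = Y at *
    have h9 := Real.quadratic_le_exp_of_nonneg (x := 7 * Y) (by linarith)
    have h10 : 0 ≤ Y * x := mul_nonneg (by linarith) (by linarith)
    rw [Real.log_le_iff_le_exp (by linarith), show 8 * Y = Y + 7 * Y by ring, Real.exp_add, h8]
    have h11 : x * (1 + 10 * Y) ≤ x * Real.exp (7 * Y) :=
      mul_le_mul_of_nonneg_left (by nlinarith) (by linarith)
    linarith

omit [Fintype N] [DecidableEq N] in
theorem inact {c : N} (h0 : sz y c = 0) : ep T y c = 0 ∧ dl T y c = 0 ∧ ¬ core T y c :=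
  ⟨by simp [ep, h0], by simp [dl, h0], fun hc => core_ne hc h0⟩

omit [Fintype N] [DecidableEq N] in
theorem dl_nonneg (hk : 1 ≤ k) (c : N) : 0 ≤ dl T y c := by
  have hL := four_le hk
  have h1 := sz_nonneg y c
  have h2 := sz_nonneg y (T.par c)
  rw [dl]
  positivity

theorem Dl_nonneg (hk : 1 ≤ k) (w : N) : 0 ≤ Dl T y w := sum_nonneg fun c _ => dl_nonneg hk c

theorem Dl_eq (w : N) : Dl T y w = (∑ c ∈ side T y w, sz y c) / (80 * Lam k * sz y w) := by
  rw [Dl, sum_div]
  exact sum_congr rfl fun c hc => by rw [dl, (mem_side.1 hc).1.2]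

theorem Dl_mul (hk : 1 ≤ k) (h : Sz T y th q) {w : N} (h0 : sz y w ≠ 0) :
    Dl T y w * (80 * Lam k * GG (q w)) ≤ 121 / 100 * ∑ c ∈ side T y w, GG (q c) := by
  have hL := four_le hk
  have h1 : Dl T y w * (80 * Lam k * sz y w) = ∑ c ∈ side T y w, sz y c := by
    rw [Dl_eq, div_mul_cancel₀ _ (by positivity)]
  have h2 : ∑ c ∈ side T y w, sz y c ≤ 11 / 10 * ∑ c ∈ side T y w, GG (q c) := by
    rw [mul_sum]
    exact sum_le_sum fun c _ => sz_le h c
  have h3 : 0 ≤ Dl T y w * (80 * Lam k) := mul_nonneg (Dl_nonneg hk w) (by linarith)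
  have h4 := mul_le_mul_of_nonneg_left (GG_le_sz h h0) h3
  linarith

theorem GG_ge (h : Sz T y th q) {v : N} (h0 : sz y v ≠ 0) : 1 / 22 ≤ GG (q v) := by
  linarith [sz_ge h0, sz_le h v]

theorem Dl_le (hk : 1 ≤ k) (ha : Adm T q) (h : Sz T y th q) (w : N) :
    Dl T y w ≤ 1 / (60 * Lam k) := by
  have hL := four_le hk
  by_cases h0 : sz y w = 0
  · rw [Dl_eq, h0, mul_zero, div_zero]
    positivity
  · have h1 := Dl_mul hk h h0
    have h2 := (sum_le_sum_of_subset_of_nonneg (side_sub (y := y) w)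
      fun c _ _ => GG_nonneg (q c)).trans (GG_ch ha w)
    have h3 := GG_ge h h0
    rw [le_div_iff₀ (by positivity)]
    refine le_of_mul_le_mul_right ?_ (by linarith : 0 < GG (q w))
    linarith

theorem ep_mem (hk : 1 ≤ k) (h : Sz T y th q) {c : N} (hc : c ≠ T.root) (hn : ¬ core T y c) :
    0 ≤ ep T y c ∧ ep T y c ≤ 1 / 8 := by
  have hL := four_le hk
  by_cases h0 : sz y c = 0
  · rw [(inact h0).1]
    norm_num
  · obtain ⟨h1, h2, -⟩ := act hk h hc hn h0
    exact ⟨le_trans (by positivity) h1, h2⟩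

theorem inc01 (hk : 1 ≤ k) (ha : Adm T q) (h : Sz T y th q) {c : N} (hc : c ≠ T.root) :
    0 ≤ inc T y c ∧ inc T y c ≤ 1 / 8 := by
  have hL := four_le hk
  unfold inc
  split_ifs with hn
  · have h1 := Dl_nonneg (T := T) (y := y) hk (T.par c)
    have h2 := Dl_le hk ha h (T.par c)
    have h3 : 1 / (60 * Lam k) ≤ 1 / 4 := one_div_le_one_div_of_le (by norm_num) (by linarith)
    constructor <;> linarith
  · exact ep_mem hk h hc hn

theorem inc_le (hk : 1 ≤ k) (ha : Adm T q) (h : Sz T y th q) {c : N} (hc : c ≠ T.root)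
    (h0 : sz y c ≠ 0) : inc T y c ≤ Real.log (GG (q (T.par c)) / GG (q c)) / (4 * Lam k) := by
  have hL := four_le hk
  have hw : sz y (T.par c) ≠ 0 := fun h1 => h0 (h.par c hc h1)
  have g1 := GG_ge h h0
  have g2 := GG_ge h hw
  unfold inc
  split_ifs with hn
  · have h1 := Dl_mul hk h hw
    have h2 : ∑ v ∈ insert c (side T y (T.par c)), GG (q v) ≤ GG (q (T.par c)) := by
      refine (sum_le_sum_of_subset_of_nonneg ?_ fun c _ _ => GG_nonneg (q c)).trans (GG_ch ha _)
      exact insert_subset (mem_ch.2 ⟨hc, rfl⟩) (side_sub _)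
    rw [sum_insert fun hs => (mem_side.1 hs).2 hn] at h2
    have h3 := Real.one_sub_inv_le_log_of_pos
      (x := GG (q (T.par c)) / GG (q c)) (by positivity)
    rw [inv_div] at h3
    have h4 : 0 ≤ ∑ v ∈ side T y (T.par c), GG (q v) := sum_nonneg fun _ _ => GG_nonneg _
    rw [le_div_iff₀ (by positivity)]
    refine le_trans ?_ h3
    rw [le_sub_comm, div_le_iff₀ (by positivity)]
    linarith
  · have h1 := ratio_ge hc hn h0
    have h2 : sz y (T.par c) / sz y c ≤ 121 / 100 * (GG (q (T.par c)) / GG (q c)) := by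
      have a1 := sz_ge h0
      rw [← mul_div_assoc, div_le_div_iff₀ (by linarith) (by linarith)]
      have a2 := mul_le_mul (sz_le h (T.par c)) (GG_le_sz h h0) (by linarith) (by linarith)
      linarith
    have h3 : sz y (T.par c) / sz y c ≤ (GG (q (T.par c)) / GG (q c)) ^ 2 := by nlinarith
    have h4 := Real.log_le_log (by linarith) h3
    rw [Real.log_pow] at h4
    rw [ep, div_le_div_iff₀ (by positivity) (by positivity)]
    push_cast at h4
    nlinarith

omit [Fintype N] [DecidableEq N] in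
theorem ind {P : N → Prop} (h0 : P T.root) (h1 : ∀ c, c ≠ T.root → P (T.par c) → P c) (v : N) :
    P v := by
  induction hd : T.dep v generalizing v with
  | zero =>
    by_cases hv : v = T.root
    · rwa [hv]
    · rw [T.dep_par v hv] at hd
      omega
  | succ d ih =>
    by_cases hv : v = T.root
    · rwa [hv]
    · rw [T.dep_par v hv] at hd
      exact h1 v hv (ih _ (by omega))

theorem th_hi (hk : 1 ≤ k) (ha : Adm T q) (h : Sz T y th q) (v : N) :
    th v ≤ 2 ∧ (sz y v ≠ 0 → th v ≤ 3 / 2 + Real.log (k / GG (q v)) / (2 * Lam k)) := by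
  have hL := four_le hk
  have hk0 : (0 : ℝ) < k := by exact_mod_cast hk
  refine ind (T := T) (P := fun v => th v ≤ 2 ∧
    (sz y v ≠ 0 → th v ≤ 3 / 2 + Real.log (k / GG (q v)) / (2 * Lam k))) ?_ (fun c hc ih => ?_) v
  · have h1 : GG (q T.root) = k := by simp [GG, ha.root]
    rw [h.throot, h1, div_self hk0.ne', Real.log_one]
    norm_num
  · by_cases h0 : sz y c = 0
    · refine ⟨?_, fun h1 => absurd h0 h1⟩
      rw [h.thstep c hc, inc, if_neg (inact h0).2.2, (inact h0).1]
      linarith [ih.1]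
    · have hw : sz y (T.par c) ≠ 0 := fun h1 => h0 (h.par c hc h1)
      have g1 := GG_ge h h0
      have g2 := GG_ge h hw
      have h1 : th c ≤ 3 / 2 + Real.log (k / GG (q c)) / (2 * Lam k) := by
        have a1 := inc_le hk ha h hc h0
        have a2 := ih.2 hw
        rw [Real.log_div (by linarith) (by linarith)] at a1 a2 ⊢
        have a3 : (Real.log k - Real.log (GG (q c))) / (2 * Lam k) =
            (Real.log k - Real.log (GG (q (T.par c)))) / (2 * Lam k) +
              2 * ((Real.log (GG (q (T.par c))) - Real.log (GG (q c))) / (4 * Lam k)) := by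
          field_simp
          ring
        rw [h.thstep c hc, a3]
        linarith
      refine ⟨h1.trans ?_, fun _ => h1⟩
      have h2 : Real.log (k / GG (q c)) ≤ Lam k := by
        refine log_le hk (by positivity) ?_
        rw [div_le_iff₀ (by linarith)]
        nlinarith
      have h3 : Real.log (k / GG (q c)) / (2 * Lam k) ≤ 1 / 2 := by
        rw [div_le_iff₀ (by positivity)]
        linarith
      linarith

end H2

theorem stPar : StPar := by
  intro N _ _ k T y th q hk ha h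
  refine ⟨H2.ind (T := T) (P := fun v => 3 / 2 ≤ th v) h.throot.ge fun c hc ih => ?_,
    fun v => (H2.th_hi hk ha h v).1, fun c c' => H2.uniq ha h, fun c => H2.act hk h,
    fun c => H2.inact, fun w => ⟨H2.Dl_nonneg hk w, H2.Dl_le hk ha h w⟩, fun c => H2.inc01 hk ha h⟩
  rw [h.thstep c hc]
  linarith [(H2.inc01 hk ha h hc).1]

namespace H2

variable {N : Type} [Fintype N] [DecidableEq N] {k : ℕ} {T : Tr N} {e : HS N k}
  {q : N → Fin k → ℝ}

theorem DD_nonneg (h1 : S1) {θ : ℝ} (hθ : 3 / 2 ≤ θ) {x : Fin k → ℝ}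
    (hx : ∀ j, 0 ≤ x j ∧ x j ≤ 1) : 0 ≤ DD θ x :=
  sum_nonneg fun j _ => h1.be_nonneg _ (mul_nonneg (by linarith) (by linarith [(hx j).2]))

theorem rr_nonneg (h1 : S1) (ha : Adm T q) (hp : Par T e.y e.th) (c : N) : 0 ≤ rr T e.th q c :=
  div_nonneg (DD_nonneg h1 (hp.th_lo _) (ha.box c))
    (sum_nonneg fun v _ => DD_nonneg h1 (hp.th_lo _) (ha.box v))

theorem rr_sum (h1 : S1) (ha : Adm T q) (hp : Par T e.y e.th) (w : N) :
    ∑ c ∈ side T e.y w, rr T e.th q c ≤ 1 := by
  refine (sum_le_sum_of_subset_of_nonneg (side_sub w) fun c _ _ => rr_nonneg h1 ha hp c).trans ?_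
  have h2 : ∑ c ∈ T.ch w, rr T e.th q c = Dt T e.th q w / Dt T e.th q w := by
    rw [Dt, sum_div]
    exact sum_congr rfl fun c hc => by rw [rr, (mem_ch.1 hc).2, Dt]
  rw [h2]
  exact div_self_le_one _

theorem rh_inact (h1 : S1) (hp : Par T e.y e.th) (h : Bal T e q) {c : N} (hc : c ≠ T.root)
    (h0 : sz e.y c = 0) : e.rh c = 0 ∧ DD (e.th (T.par c)) (q c) = 0 := by
  have h2 : GG (q c) < 1 / 10 := by
    rcases h.sz.size c with a | a
    · exact a.2
    · exact absurd h0 a.1.ne'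
  have h3 : DD (e.th (T.par c)) (q c) = 0 := by
    refine sum_eq_zero fun j _ => ?_
    have a1 : q c j ^ 2 ≤ GG (q c) :=
      single_le_sum (f := fun j => q c j ^ 2) (fun _ _ => sq_nonneg _) (mem_univ j)
    rw [be, h1.zero _ _ (hp.th_lo _) (by nlinarith)]
    ring
  refine ⟨?_, h3⟩
  have h4 := h.track c hc (inact h0).2.2
  rw [(inact h0).1, (inact h0).2.1, rr, h3] at h4
  simpa using h4

theorem ph_le (h1 : S1) (hk : 1 ≤ k) (ha : Adm T q) (hp : Par T e.y e.th) (h : Bal T e q) {c : N}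
    (hc : c ≠ T.root) (hn : ¬ core T e.y c) :
    ph T e c ≤ rr T e.th q c * (1 + 3 * ep T e.y c / 8) ∧ ph T e c ≤ 21 / 20 * rr T e.th q c := by
  obtain ⟨a1, a2⟩ := ep_mem hk h.sz hc hn
  have a3 := dl_nonneg (T := T) (y := e.y) hk c
  have a4 := rr_nonneg h1 ha hp c
  have a5 := (h.rh01 c).1
  have a6 := (abs_le.1 (h.track c hc hn)).2
  have b : ph T e c ≤ rr T e.th q c * (1 + 3 * ep T e.y c / 8) := by
    refine max_le ?_ (by positivity)
    generalize ep T e.y c = ε at *
    generalize dl T e.y c = δ at *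
    generalize rr T e.th q c = r at *
    generalize e.rh c = ρ at *
    have b1 : ρ * (1 + ε / 4) ≤ ρ * ((1 + 3 * ε / 8) * (1 - ε / 16)) :=
      mul_le_mul_of_nonneg_left (by nlinarith) a5
    have b2 : (1 + 3 * ε / 8) * (ρ * (1 - ε / 16)) ≤ (1 + 3 * ε / 8) * (r + δ / 16) :=
      mul_le_mul_of_nonneg_left (by linarith) (by linarith)
    have b3 : ε * δ ≤ 1 / 8 * δ := mul_le_mul_of_nonneg_right a2 a3
    linarith
  exact ⟨b, b.trans (by nlinarith)⟩

theorem ph_ge (h1 : S1) (hk : 1 ≤ k) (ha : Adm T q) (hp : Par T e.y e.th) (h : Bal T e q) {c : N}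
    (hc : c ≠ T.root) (hn : ¬ core T e.y c) :
    rr T e.th q c * (1 + 1 / (120 * Lam k)) - dl T e.y c / 4 ≤ ph T e c := by
  by_cases h0 : sz e.y c = 0
  · rw [rr, (rh_inact h1 hp h hc h0).2, (inact h0).2.1]
    simp [ph]
  obtain ⟨a1, a2, a3, -⟩ := hp.act c hc hn h0
  have hL := four_le hk
  have a0 : 1 / (120 * Lam k) = 1 / (20 * Lam k) / 6 := by field_simp; norm_num
  have a7 : 0 < 1 / (20 * Lam k) := by positivity
  have a4 := rr_nonneg h1 ha hp c
  have a5 := (h.rh01 c).1
  have a6 := (abs_le.1 (h.track c hc hn)).1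
  refine le_trans ?_ (le_max_left _ _)
  rw [a0]
  generalize 1 / (20 * Lam k) = m at *
  generalize ep T e.y c = ε at *
  generalize dl T e.y c = δ at *
  generalize rr T e.th q c = r at *
  generalize e.rh c = ρ at *
  have b1 : ρ * ((1 + ε / 6) * (1 + ε / 16)) ≤ ρ * (1 + ε / 4) :=
    mul_le_mul_of_nonneg_left (by nlinarith) a5
  have b2 : (1 + ε / 6) * (r - δ / 16) ≤ (1 + ε / 6) * (ρ * (1 + ε / 16)) :=
    mul_le_mul_of_nonneg_left (by linarith) (by linarith)
  have b3 : ε * δ ≤ 1 / 8 * δ := mul_le_mul_of_nonneg_right a2 a3.le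
  have b4 := mul_le_mul_of_nonneg_left a1 a4
  linarith

theorem pisum (h1 : S1) (hk : 1 ≤ k) (ha : Adm T q) (hp : Par T e.y e.th) (h : Bal T e q) (w : N) :
    ∑ c ∈ T.ch w, pi T e c ≤ 21 / 20 := by
  classical
  have a1 : ∑ c ∈ side T e.y w, ph T e c ≤ 21 / 20 := by
    refine (sum_le_sum fun c hc =>
      (ph_le h1 hk ha hp h (mem_side.1 hc).1.1 (mem_side.1 hc).2).2).trans ?_
    rw [← mul_sum]
    linarith [rr_sum h1 ha hp w]
  have a2 : ∑ c ∈ T.ch w with ¬ core T e.y c, pi T e c = ∑ c ∈ side T e.y w, ph T e c := by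
    refine sum_congr ?_ fun c hc => by rw [pi, if_neg (mem_side.1 hc).2]
    ext c
    rw [mem_filter, mem_side, mem_ch]
  have a3 : ∑ c ∈ T.ch w with core T e.y c, pi T e c ≤
      max (1 - ∑ c ∈ side T e.y w, ph T e c) 0 := by
    have b1 : ((T.ch w).filter fun c => core T e.y c).card ≤ 1 := by
      refine card_le_one.2 fun c hc c' hc' => ?_
      rw [mem_filter, mem_ch] at hc hc'
      exact hp.uniq c c' hc.2 hc'.2 (hc.1.2.trans hc'.1.2.symm)
    rw [sum_congr rfl (g := fun _ => max (1 - ∑ c ∈ side T e.y w, ph T e c) 0) fun c hc => by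
      rw [mem_filter, mem_ch] at hc
      rw [pi, if_pos hc.2, hc.1.2], sum_const, nsmul_eq_mul]
    exact mul_le_of_le_one_left (le_max_right _ _) (by exact_mod_cast b1)
  rw [← sum_filter_add_sum_filter_not (T.ch w) fun c => core T e.y c, a2]
  rcases le_total (1 - ∑ c ∈ side T e.y w, ph T e c) 0 with b | b
  · rw [max_eq_right b] at a3
    linarith
  · rw [max_eq_left b] at a3
    linarith

theorem t12 (hk : 1 ≤ k) (hp : Par T e.y e.th) (h : Bal T e q) {c : N} (hc : c ≠ T.root)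
    (hn : ¬ core T e.y c) : (0 ≤ t1 T e c ∧ 0 ≤ t2 T e c ∧ t2 T e c ≤ L0 k) ∧
      t1 T e c ≤ 8000 * Lam k * e.rh c := by
  have hL := four_le hk
  obtain ⟨r0, r1⟩ := h.rh01 c
  by_cases h0 : sz e.y c = 0
  · simp only [t1, t2, (inact h0).1, div_zero, zero_mul, le_refl, true_and, L0]
    constructor <;> positivity
  obtain ⟨a1, -, a3, a4⟩ := hp.act c hc hn h0
  have a0 : 0 < ep T e.y c := lt_of_lt_of_le (by positivity) a1
  have b0 : 0 ≤ ep T e.y c * e.rh c / dl T e.y c := by positivity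
  have b1 : 0 ≤ lg T e c := Real.log_nonneg (by linarith)
  have b2 : lg T e c ≤ ep T e.y c * e.rh c / dl T e.y c := by
    have := Real.log_le_sub_one_of_pos (x := 1 + ep T e.y c * e.rh c / dl T e.y c) (by linarith)
    rw [lg]
    linarith
  have b3 : dl T e.y c / ep T e.y c * lg T e c ≤ e.rh c := by
    refine (mul_le_mul_of_nonneg_left b2 (by positivity)).trans (le_of_eq ?_)
    field_simp
  have b4 : lg T e c ≤ 64 * Lam k * ep T e.y c := by
    refine (Real.log_le_log (by linarith) ?_).trans a4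
    gcongr
    exact mul_le_of_le_one_right a0.le r1
  have b5 : 400 / ep T e.y c ≤ 8000 * Lam k := by
    rw [div_le_iff₀ a0]
    rw [div_le_iff₀ (by positivity)] at a1
    linarith
  refine ⟨⟨mul_nonneg (by positivity) (by linarith), mul_nonneg (by positivity) b1, ?_⟩, ?_⟩
  · refine (mul_le_mul_of_nonneg_left b4 (by positivity)).trans (le_of_eq ?_)
    rw [L0]
    field_simp
    norm_num
  · have b6 : 0 ≤ dl T e.y c / ep T e.y c * lg T e c := by positivity
    exact mul_le_mul b5 (by linarith) (by linarith) (by positivity)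

theorem co_le (h1 : S1) (hk : 1 ≤ k) (ha : Adm T q) (hp : Par T e.y e.th) (h : Bal T e q) {c : N}
    (hc : c ≠ T.root) : |co T e c| ≤ L0 k := by
  have hL := four_le hk
  have a1 : 0 ≤ ∑ v ∈ side T e.y (T.par c), t1 T e v :=
    sum_nonneg fun v hv => (t12 hk hp h (mem_side.1 hv).1.1 (mem_side.1 hv).2).1.1
  have a2 : ∑ v ∈ side T e.y (T.par c), e.rh v ≤ 2 := by
    have b1 : ∑ v ∈ side T e.y (T.par c), e.rh v ≤
        ∑ v ∈ side T e.y (T.par c), (3 / 2 * rr T e.th q v + dl T e.y v) := by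
      refine sum_le_sum fun v hv => ?_
      obtain ⟨⟨hv1, -⟩, hv2⟩ := mem_side.1 hv
      have c1 := mul_le_mul_of_nonneg_right (ep_mem hk h.sz hv1 hv2).2 (h.rh01 v).1
      linarith [(abs_le.1 (h.track v hv1 hv2)).2, dl_nonneg (T := T) (y := e.y) hk v,
        rr_nonneg h1 ha hp v, (h.rh01 v).1]
    rw [sum_add_distrib, ← mul_sum] at b1
    have b2 := (hp.Dl_le (T.par c)).2
    have b3 : 1 / (60 * Lam k) ≤ 1 / 4 := one_div_le_one_div_of_le (by norm_num) (by linarith)
    rw [Dl] at b2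
    linarith [rr_sum h1 ha hp (T.par c)]
  have a3 : ∑ v ∈ side T e.y (T.par c), t1 T e v ≤ L0 k := by
    refine (sum_le_sum fun v hv =>
      (t12 hk hp h (mem_side.1 hv).1.1 (mem_side.1 hv).2).2).trans ?_
    rw [← mul_sum, L0]
    nlinarith
  rw [co, abs_le]
  split_ifs with hn
  · constructor <;> linarith
  · obtain ⟨⟨-, b1, b2⟩, -⟩ := t12 hk hp h hc hn
    constructor <;> linarith

theorem bref (h1 : S1) (hk : 1 ≤ k) (ha : Adm T q) (hp : Par T e.y e.th) (h : Bal T e q) {c : N}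
    (hc : c ≠ T.root) :
    |bb T e c - KK (e.th (T.par c)) (q c)| ≤ eta k * DD (e.th (T.par c)) (q c) := by
  have hL := four_le hk
  have e0 : 0 < eta k := by rw [eta]; positivity
  have e1 : eta k ≤ 1 := by rw [eta, div_le_one (by positivity)]; linarith
  have e2 : (9 / eta k + 3) * 4 ≤ 48 / eta k := by
    have : 1 ≤ 1 / eta k := by rwa [le_div_iff₀ e0, one_mul]
    have a1 : 9 / eta k = 9 * (1 / eta k) := by ring
    have a2 : 48 / eta k = 48 * (1 / eta k) := by ring
    linarith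
  have t0 := hp.th_lo (T.par c)
  have t2 := hp.th_hi (T.par c)
  have a1 : |bb T e c - KK (e.th (T.par c)) (q c)| ≤
      eta k / 2 * DD (e.th (T.par c)) (q c) + 48 / eta k * VV (q c) (e.x c) := by
    rw [bb, KK, KK, ← sum_sub_distrib, DD, VV, mul_sum, mul_sum, ← sum_add_distrib]
    refine (abs_sum_le_sum_abs _ _).trans (sum_le_sum fun j _ => ?_)
    refine (h1.ka_ref _ _ (eta k) (mul_nonneg (by linarith) (by linarith [(ha.box c j).2]))
      (mul_nonneg (by linarith) (by linarith [(h.xbox c j).2])) e0).trans ?_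
    have b1 : (e.th (T.par c) * (1 - e.x c j) - e.th (T.par c) * (1 - q c j)) ^ 2 =
        e.th (T.par c) ^ 2 * (q c j - e.x c j) ^ 2 := by ring
    have b2 : (9 / eta k + 3) * e.th (T.par c) ^ 2 ≤ (9 / eta k + 3) * 4 :=
      mul_le_mul_of_nonneg_left (by nlinarith) (by positivity)
    have b3 := mul_le_mul_of_nonneg_right (b2.trans e2) (sq_nonneg (q c j - e.x c j))
    rw [b1]
    linarith
  have a2 := mul_le_mul_of_nonneg_left (h.xref c hc) (by positivity : 0 ≤ 48 / eta k)
  have a3 : 48 / eta k * (eta k ^ 2 / 96 * DD (e.th (T.par c)) (q c)) =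
      eta k / 2 * DD (e.th (T.par c)) (q c) := by
    field_simp
    ring
  linarith

end H2

theorem stStr (h1 : S1) : StStr := by
  intro N _ _ k T e q hk ha h
  have hp := stPar N k T e.y e.th q hk ha h.sz
  exact ⟨hp, fun c => H2.rh_inact h1 hp h, fun c => H2.ph_le h1 hk ha hp h,
    fun c => H2.ph_ge h1 hk ha hp h, H2.pisum h1 hk ha hp h,
    fun c hc hn => (H2.t12 hk hp h hc hn).1, fun c => H2.co_le h1 hk ha hp h,
    fun c => H2.bref h1 hk ha hp h⟩

end Vale.Agent.P304Z.H
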