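import Vale.Agent.P304Z.H0

/-!
# P304Z, layer H: feasibility of balanced states and existence of the next state
-/

open Finset

namespace Vale.Agent.P304Z.H

namespace H3

section Vec

variable {k : ℕ}

theorem four_le (k : ℕ) : 4 ≤ Lam k := by
  have := Real.log_natCast_nonneg k
  unfold Lam
  linarith

theorem KK_eq (θ : ℝ) (q : Fin k → ℝ) : KK θ q = FF θ q + DD θ q := sum_add_distrib

theorem FF_nonneg (θ : ℝ) (q : Fin k → ℝ) : 0 ≤ FF θ q := sum_nonneg fun _ _ => sq_nonneg _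

theorem DD_nonneg (h1 : S1) {θ : ℝ} (hθ : 0 ≤ θ) {q : Fin k → ℝ} (hq : ∀ j, q j ≤ 1) :
    0 ≤ DD θ q := sum_nonneg fun j _ => h1.be_nonneg _ (mul_nonneg hθ (sub_nonneg.2 (hq j)))

theorem slackV (h1 : S1) {θ ε : ℝ} (h0 : 0 ≤ θ) (h2 : θ ≤ 2) (e0 : 0 ≤ ε) (e1 : ε ≤ 1)
    {q : Fin k → ℝ} (hq : ∀ j, q j ≤ 1) : FF (θ + 2 * ε) q + ε / 2 * DD θ q ≤ FF θ q := by
  unfold FF DD
  rw [mul_sum, ← sum_add_distrib]
  refine sum_le_sum fun j _ => h1.slack _ _ _ (mul_nonneg h0 (sub_nonneg.2 (hq j))) e0 e1 ?_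
  nlinarith [mul_nonneg (mul_nonneg e0 (sub_nonneg.2 h2)) (sub_nonneg.2 (hq j))]

end Vec

theorem key {m η D x P R e Dt : ℝ} (m0 : 0 < m) (m1 : m ≤ 1) (hη : η = m / 30) (D0 : 0 ≤ D)
    (D1 : D ≤ m / 3) (x0 : 0 ≤ x) (x1 : x ≤ 1) (t0 : 0 ≤ Dt) (hP : x * (1 + m / 6) - D / 4 ≤ P)
    (P0 : 0 ≤ P) (P1 : P ≤ 1) (hR : R ≤ Dt + η * (x * Dt) + e) (he : -(η * ((1 - x) * Dt)) ≤ e) :
    R * (1 - P) ≤ (1 - x) * Dt * (1 + D / 4) + e := by
  have η0 : 0 ≤ η := by rw [hη]; positivity
  have η1 : η ≤ 1 := by linarith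
  have a1 := mul_le_mul_of_nonneg_right hR (sub_nonneg.2 P1)
  have a2 := mul_le_mul_of_nonneg_right he P0
  have a3 : 0 ≤ 1 + η * x - η * (1 - x) := by nlinarith [mul_nonneg η0 x0]
  have a4 := mul_le_mul_of_nonneg_right hP a3
  have a5 : 1 + η * x - (x * (1 + m / 6) - D / 4) * (1 + η * x - η * (1 - x)) ≤
      (1 - x) * (1 + D / 4) := by
    have b1 : x * D ≤ x * (m / 3) := mul_le_mul_of_nonneg_left D1 x0
    have b2 : 0 ≤ η * x := mul_nonneg η0 x0
    have b3 : η * x * (1 - x - x * m / 6 + D / 4) ≤ η * x * (1 + 1 / 12) :=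
      mul_le_mul_of_nonneg_left (by nlinarith [mul_nonneg x0 m0.le]) b2
    have b4 : η * x * ((1 - x) * (1 + m / 6)) ≤ η * x * (1 + 1 / 6) :=
      mul_le_mul_of_nonneg_left (by nlinarith [mul_nonneg x0 m0.le]) b2
    have b5 : 0 ≤ η * ((1 - x) * D) := mul_nonneg η0 (mul_nonneg (sub_nonneg.2 x1) D0)
    have b6 : η * x = x * m / 30 := by rw [hη]; ring
    nlinarith
  have a6 := mul_le_mul_of_nonneg_right
    (show 1 + η * x - P * (1 + η * x - η * (1 - x)) ≤ (1 - x) * (1 + D / 4) by linarith) t0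
  nlinarith

variable {N : Type} [Fintype N] [DecidableEq N] {k : ℕ} {T : Tr N}

theorem mem_ch {w c : N} : c ∈ T.ch w ↔ c ≠ T.root ∧ T.par c = w := by simp [Tr.ch]

theorem mem_side {y : N → Fin k → ℝ} {w c : N} :
    c ∈ side T y w ↔ c ∈ T.ch w ∧ ¬ core T y c := by
  simp only [side, mem_filter]

theorem side_subset (y : N → Fin k → ℝ) (w : N) : side T y w ⊆ T.ch w :=
  fun _ h => (mem_side.1 h).1

omit [Fintype N] in
theorem ind {P : N → Prop} (h0 : P T.root) (h : ∀ c, c ≠ T.root → P (T.par c) → P c) (v : N) :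
    P v := by
  induction hd : T.dep v generalizing v with
  | zero =>
    by_cases hv : v = T.root
    · exact hv ▸ h0
    · have := T.dep_par v hv
      omega
  | succ n ih =>
    by_cases hv : v = T.root
    · exact hv ▸ h0
    · exact h v hv (ih _ (by have := T.dep_par v hv; omega))

omit [Fintype N] [DecidableEq N] in
theorem exists_rec (T : Tr N) {A : Type} (a : A) (f : N → A → A) :
    ∃ g : N → A, g T.root = a ∧ ∀ c, c ≠ T.root → g c = f c (g (T.par c)) := by
  let G : ℕ → N → A := fun n => Nat.rec (fun _ => a) (fun _ g c => f c (g (T.par c))) n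
  refine ⟨fun c => G (T.dep c) c, by simp only [T.dep_root]; rfl, fun c hc => ?_⟩
  simp only [T.dep_par c hc]
  rfl

theorem sum_FF (h1 : S1) {q : N → Fin k → ℝ} (hq : Adm T q) {θ : ℝ} (hθ : 1 ≤ θ) (w : N) :
    ∑ c ∈ T.ch w, FF θ (q c) ≤ FF θ (q w) := by
  have h0 : 0 < θ := by linarith
  have h := mul_le_mul_of_nonneg_left (hq.sa w (1 - 1 / θ)
    (sub_nonneg.2 ((div_le_one h0).2 hθ))) (sq_nonneg θ)
  simpa only [FF, h1.ff_eq _ _ h0, mul_sum] using h

theorem GG_le {q : N → Fin k → ℝ} (hq : Adm T q) {c : N} (hc : c ≠ T.root) :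
    GG (q c) ≤ GG (q (T.par c)) := by
  have h := hq.sa (T.par c) 0 le_rfl
  simp only [sub_zero, max_eq_left (hq.box _ _).1] at h
  exact (single_le_sum (f := fun c => GG (q c)) (fun _ _ => sum_nonneg fun _ _ => sq_nonneg _)
    (mem_ch.2 ⟨hc, rfl⟩)).trans h

variable {e : HS N k} {q : N → Fin k → ℝ}

theorem pi_nonneg (c : N) : 0 ≤ pi T e c := by
  unfold pi
  split_ifs
  · exact le_max_right _ _
  · exact le_max_right _ _

theorem star (h1 : S1) (hq : Adm T q) (hb : Bal T e q) (hs : Str T e q) (w : N)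
    (hw : FF (e.th w) (q w) ≤ e.mu w) :
    RR T e w ≤ (1 + eta k) * Dt T e.th q w ∧ (∀ c ∈ T.ch w, FF (e.th c) (q c) ≤ e.mu c) ∧
      ∑ c ∈ T.ch w, e.mu c ≤ e.mu w := by
  have hL := four_le k
  have θ0 := hs.par.th_lo w
  have θ1 := hs.par.th_hi w
  have hD : ∀ c, 0 ≤ DD (e.th w) (q c) := fun c =>
    DD_nonneg h1 (by linarith) fun j => (hq.box c j).2
  set m := 1 / (20 * Lam k) with hm
  have m0 : 0 < m := by positivity
  have m1 : m ≤ 1 / 80 := one_div_le_one_div_of_le (by norm_num) (by linarith)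
  have hη : eta k = m / 30 := by rw [hm, eta]; field_simp; norm_num
  have hm6 : 1 / (120 * Lam k) = m / 6 := by rw [hm]; field_simp; norm_num
  have hm3 : 1 / (60 * Lam k) = m / 3 := by rw [hm]; field_simp; norm_num
  have η0 : 0 ≤ eta k := by rw [hη]; positivity
  let E : N → ℝ := fun c => bb T e c - (FF (e.th w) (q c) + DD (e.th w) (q c))
  have hE : ∀ c ∈ T.ch w, |E c| ≤ eta k * DD (e.th w) (q c) := fun c hc => by
    have h := hs.bref c (mem_ch.1 hc).1
    rwa [(mem_ch.1 hc).2, KK_eq] at h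
  have hR : RR T e w ≤ Dt T e.th q w + ∑ c ∈ T.ch w, E c := by
    have := sum_FF h1 hq (θ := e.th w) (by linarith) w
    simp only [RR, Dt, E, sum_sub_distrib, sum_add_distrib]
    linarith
  have hE' : ∀ s ⊆ T.ch w, |∑ c ∈ s, E c| ≤ eta k * ∑ c ∈ s, DD (e.th w) (q c) := fun s h => by
    rw [mul_sum]
    exact (abs_sum_le_sum_abs _ _).trans (sum_le_sum fun c hc => hE c (h hc))
  have t0 : 0 ≤ Dt T e.th q w := sum_nonneg fun c _ => hD c
  have hR1 : RR T e w ≤ (1 + eta k) * Dt T e.th q w := by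
    have := (abs_le.1 (hE' _ subset_rfl)).2
    unfold Dt at *
    linarith
  have hr : ∀ c ∈ T.ch w, Dt T e.th q w * rr T e.th q c = DD (e.th w) (q c) := fun c hc => by
    rw [rr, (mem_ch.1 hc).2]
    rcases t0.eq_or_lt with h | h
    · rw [← h, zero_mul]
      exact le_antisymm (hD c) ((single_le_sum (fun c _ => hD c) hc).trans h.ge)
    · exact mul_div_cancel₀ _ h.ne'
  have hmu : ∀ c ∈ T.ch w, e.mu c = bb T e c - max (RR T e w) 0 * pi T e c := fun c hc => by
    rw [hb.mustep c (mem_ch.1 hc).1, (mem_ch.1 hc).2]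
  set P := ∑ c ∈ side T e.y w, ph T e c with hP
  have P0 : 0 ≤ P := sum_nonneg fun c _ => le_max_right _ _
  have hK : 0 < RR T e w → P ≤ 1 → RR T e w * (1 - P) ≤
      (∑ c ∈ T.ch w \ side T e.y w, DD (e.th w) (q c)) * (1 + Dl T e.y w / 4) +
        ∑ c ∈ T.ch w \ side T e.y w, E c := by
    intro hR0 P1
    have t1 : 0 < Dt T e.th q w := by
      by_contra h
      nlinarith [le_antisymm (not_lt.1 h) t0]
    have s1 := sum_sdiff (f := fun c => DD (e.th w) (q c)) (side_subset (T := T) e.y w)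
    have s2 := sum_sdiff (f := E) (side_subset (T := T) e.y w)
    have s3 : (∑ c ∈ side T e.y w, rr T e.th q c) * Dt T e.th q w =
        ∑ c ∈ side T e.y w, DD (e.th w) (q c) := by
      rw [mul_comm, mul_sum]
      exact sum_congr rfl fun c hc => hr c (side_subset _ _ hc)
    have s4 : ∑ c ∈ T.ch w \ side T e.y w, DD (e.th w) (q c) =
        (1 - ∑ c ∈ side T e.y w, rr T e.th q c) * Dt T e.th q w := by
      rw [sub_mul, s3, one_mul, Dt, ← s1, add_sub_cancel_right]
    have s5 := hE' _ (side_subset (T := T) e.y w)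
    have s6 := hE' _ (sdiff_subset (s := T.ch w) (t := side T e.y w))
    rw [s4] at s6 ⊢
    rw [← s3] at s5
    refine key m0 (by linarith) hη (hs.par.Dl_le w).1 (hm3 ▸ (hs.par.Dl_le w).2) ?_ ?_ t0 ?_ P0 P1
      (by linarith [(abs_le.1 s5).2]) (abs_le.1 s6).1
    · exact nonneg_of_mul_nonneg_left (s3 ▸ sum_nonneg fun c _ => hD c) t1
    · exact sub_nonneg.1 (nonneg_of_mul_nonneg_left (s4 ▸ sum_nonneg fun c _ => hD c) t1)
    · rw [sum_mul, Dl, sum_div, ← sum_sub_distrib, ← hm6]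
      exact sum_le_sum fun c hc => hs.ph_ge c (mem_ch.1 (mem_side.1 hc).1).1 (mem_side.1 hc).2
  have hH : ∀ c ∈ T.ch w, core T e.y c → T.ch w \ side T e.y w = {c} := fun c hc h => by
    refine eq_singleton_iff_unique_mem.2 ⟨mem_sdiff.2 ⟨hc, fun h' => (mem_side.1 h').2 h⟩,
      fun c' hc' => ?_⟩
    obtain ⟨a, b⟩ := mem_sdiff.1 hc'
    refine hs.par.uniq _ _ ?_ h ((mem_ch.1 a).2.trans (mem_ch.1 hc).2.symm)
    by_contra h'
    exact b (mem_side.2 ⟨a, h'⟩)
  have hpi : ∀ c ∈ T.ch w, core T e.y c → pi T e c = max (1 - P) 0 := fun c hc h => by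
    rw [pi, if_pos h, (mem_ch.1 hc).2]
  refine ⟨hR1, fun c hc => ?_, ?_⟩
  · obtain ⟨c0, c1⟩ := mem_ch.1 hc
    obtain ⟨i0, i1⟩ := hs.par.inc01 c c0
    have sl := slackV h1 (θ := e.th w) (by linarith) θ1 i0 (by linarith) fun j => (hq.box c j).2
    rw [hb.sz.thstep c c0, c1, hmu c hc]
    obtain ⟨b0, b1⟩ := abs_le.1 (hE c hc)
    have d0 := hD c
    have d1 : eta k * DD (e.th w) (q c) ≤ DD (e.th w) (q c) :=
      mul_le_of_le_one_left d0 (by linarith)
    have d2 := mul_nonneg i0 d0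
    simp only [E] at b0 b1
    by_cases h : core T e.y c
    · rw [hpi c hc h]
      rcases le_or_gt (RR T e w) 0 with h2 | h2
      · rw [max_eq_right h2]
        linarith
      rcases le_total P 1 with h3 | h3
      · have h4 := hK h2 h3
        rw [hH c hc h, sum_singleton, sum_singleton] at h4
        rw [max_eq_left h2.le, max_eq_left (sub_nonneg.2 h3)]
        rw [inc, if_pos h, c1] at sl ⊢
        simp only [E] at h4
        linarith
      · rw [max_eq_right (sub_nonpos.2 h3)]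
        linarith
    · rw [inc, if_neg h] at sl i0 i1 d2 ⊢
      rw [pi, if_neg h]
      have h2 : max (RR T e w) 0 * ph T e c ≤
          (1 + eta k) * Dt T e.th q w * (rr T e.th q c * (1 + 3 * ep T e.y c / 8)) :=
        mul_le_mul (max_le hR1 (by positivity)) (hs.ph_le c c0 h).1 (le_max_right _ _)
          (by positivity)
      rw [mul_assoc, ← mul_assoc (Dt T e.th q w), hr c hc] at h2
      by_cases h3 : sz e.y c = 0
      · have h4 := (hs.rh_inact c c0 h3).2
        rw [c1] at h4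
        rw [h4] at h2 b0 sl
        linarith
      · have h4 := mul_le_mul_of_nonneg_right (hs.par.act c c0 h h3).1 d0
        have h5 := mul_le_mul_of_nonneg_right m1 d2
        rw [← hm] at h4
        rw [hη] at h2 b0
        linarith
  · rw [sum_congr rfl hmu, sum_sub_distrib, ← mul_sum]
    rcases le_or_gt (RR T e w) 0 with h2 | h2
    · rw [max_eq_right h2]
      unfold RR at h2
      linarith
    have h3 : 1 ≤ ∑ c ∈ T.ch w, pi T e c := by
      have s1 : ∑ c ∈ side T e.y w, pi T e c = P :=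
        sum_congr rfl fun c hc => if_neg (mem_side.1 hc).2
      rw [← sum_sdiff (side_subset (T := T) e.y w), s1]
      rcases (T.ch w \ side T e.y w).eq_empty_or_nonempty with h | ⟨c, hc⟩
      · rw [h, sum_empty, zero_add]
        by_contra h4
        have h5 := hK h2 (not_le.1 h4).le
        rw [h, sum_empty, sum_empty] at h5
        nlinarith [not_le.1 h4]
      · obtain ⟨a, b⟩ := mem_sdiff.1 hc
        have h : core T e.y c := by
          by_contra h'
          exact b (mem_side.2 ⟨a, h'⟩)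
        rw [hH c a h, sum_singleton, hpi c a h]
        linarith [le_max_left (1 - P) 0]
    rw [max_eq_left h2.le]
    have h4 := le_mul_of_one_le_right h2.le h3
    unfold RR at h4 ⊢
    linarith

end H3

open H3

theorem stFea (h1 : S1) : StFea := by
  intro N _ _ k T e q _ hq hb hs
  have need : ∀ v, FF (e.th v) (q v) ≤ e.mu v := by
    refine ind ?_ fun c hc h => (star h1 hq hb hs _ h).2.1 c (mem_ch.2 ⟨hc, rfl⟩)
    simp [FF, hq.root, ff, uu, hb.muroot]
  refine ⟨need, fun w => (star h1 hq hb hs w (need w)).1, ⟨hb.muroot,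
    fun v => (FF_nonneg _ _).trans (need v), fun w => (star h1 hq hb hs w (need w)).2.2⟩,
    fun v => ?_⟩
  by_cases hv : v = T.root
  · subst hv
    simp only [hb.muroot, hq.root, sum_const, card_univ, Fintype.card_fin, nsmul_eq_mul, mul_one]
    linarith [(Nat.cast_nonneg k : (0 : ℝ) ≤ k)]
  have θ0 := hs.par.th_lo (T.par v)
  have h2 := (abs_le.1 (hs.bref v hv)).2
  have h3 : KK (e.th (T.par v)) (q v) ≤ 3 * ∑ j, q v j := by
    rw [mul_sum]
    exact sum_le_sum fun j _ =>
      (h1.ka_le _ _ θ0 (hs.par.th_hi _) (hq.box v j).1 (hq.box v j).2).2.1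
  have h4 : eta k ≤ 1 := by
    unfold eta
    exact (div_le_one (by linarith [four_le k])).2 (by linarith [four_le k])
  have h5 := mul_le_of_le_one_left
    (DD_nonneg h1 (θ := e.th (T.par v)) (by linarith) fun j => (hq.box v j).2) h4
  have h6 := mul_nonneg (le_max_right (RR T e (T.par v)) 0) (pi_nonneg (T := T) (e := e) v)
  rw [hb.mustep v hv]
  linarith [KK_eq (e.th (T.par v)) (q v), FF_nonneg (e.th (T.par v)) (q v)]

theorem stNxt (h1 : S1) (hP : StPar) : StNxt := by
  classical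
  intro N _ _ k T e q0 q hk _ hb hq
  obtain ⟨res, r0, r1⟩ := exists_rec T (trig e q T.root) fun c p => trig e q c ∨ p
  have hres : ∀ v, res v ↔ trig e q v ∨ (v ≠ T.root ∧ res (T.par v)) := fun v => by
    by_cases hv : v = T.root
    · simp [hv, r0]
    · simp [hv, r1 v hv]
  obtain ⟨y, hy⟩ : ∃ y : N → Fin k → ℝ, ∀ v, y v = if res v then q v else e.y v := ⟨_, fun _ => rfl⟩
  obtain ⟨th, t0, t1⟩ := exists_rec T (3 / 2 : ℝ) fun c a => a + 2 * inc T y c
  have y1 : ∀ v, res v → sz y v = gt (q v) := fun v h => by rw [sz, hy, if_pos h]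
  have y2 : ∀ v, ¬ res v → sz y v = sz e.y v ∧ szOK (sz e.y v) (GG (q v)) := fun v h =>
    ⟨by rw [sz, hy, if_neg h, sz], not_not.1 fun h' => h ((hres v).2 (.inl h'))⟩
  have hsz : Sz T y th q := by
    refine ⟨fun v j => ?_, fun j => ?_, fun v => ?_, fun c hc h => ?_, t0, t1⟩
    · rw [hy]
      split_ifs
      · exact hq.box v j
      · exact hb.sz.ybox v j
    · rw [hy]
      split_ifs
      · exact hq.root j
      · exact hb.sz.yroot j
    · by_cases h : res v
      · rw [y1 v h, gt]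
        split_ifs with h2
        · exact .inr ⟨by linarith, by linarith, by linarith⟩
        · exact .inl ⟨rfl, by linarith [not_le.1 h2]⟩
      · rw [(y2 v h).1]
        exact (y2 v h).2
    · have hG := GG_le hq hc
      by_cases h2 : res (T.par c)
      · rw [y1 _ h2, gt] at h
        rw [y1 c ((hres c).2 (.inr ⟨hc, h2⟩)), gt, if_neg]
        intro h3
        rw [if_pos (h3.trans hG)] at h
        linarith
      · obtain ⟨a, b⟩ := y2 _ h2
        rw [a] at h
        have h3 := hb.sz.par c hc h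
        have h4 : ¬ res c := fun h4 => ((hres c).1 h4).elim (fun h5 => h5 (.inl ⟨h3, by
          rcases b with b | b
          · linarith [b.2]
          · linarith [b.1]⟩)) fun h5 => h2 h5.2
        rw [(y2 c h4).1, h3]
  have hp := hP N k T y th q hk hq hsz
  have hD : ∀ w c, 0 ≤ DD (th w) (q c) := fun w c =>
    DD_nonneg h1 (by linarith [hp.th_lo w]) fun j => (hq.box c j).2
  have hr : ∀ c, 0 ≤ rr T th q c ∧ rr T th q c ≤ 1 := fun c => by
    have h0 : 0 ≤ Dt T th q (T.par c) := sum_nonneg fun c' _ => hD _ c'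
    refine ⟨div_nonneg (hD _ _) h0, div_le_one_of_le₀ ?_ h0⟩
    by_cases hc : c = T.root
    · refine le_trans (le_of_eq ?_) h0
      simp [DD, hc, hq.root, be]
    · exact single_le_sum (fun c' _ => hD (T.par c) c') (mem_ch.2 ⟨hc, rfl⟩)
  let e1 : HS N k :=
    ⟨fun c => if VV (q c) (e.x c) ≤ eta k ^ 2 / 96 * DD (th (T.par c)) (q c) then e.x c else q c,
      y, fun c => if ¬ res c ∧ |e.rh c - rr T th q c| ≤ (ep T y c * e.rh c + dl T y c) / 16
        then e.rh c else rr T th q c, th, 0⟩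
  obtain ⟨mu, m0, m1⟩ := exists_rec T (k : ℝ) fun c a =>
    bb T e1 c - max (∑ c' ∈ T.ch (T.par c), bb T e1 c' - a) 0 * pi T e1 c
  refine ⟨⟨e1.x, y, e1.rh, th, mu⟩, res, ⟨hres, hy, fun _ => rfl, fun _ => rfl⟩, hsz,
    fun v j => ?_, fun c _ => ?_, fun c => ?_, fun c hc h => ?_, m0, m1⟩
  · simp only [e1]
    split_ifs
    · exact hb.xbox v j
    · exact hq.box v j
  · simp only [e1]
    split_ifs with h
    · exact h
    · refine le_trans (le_of_eq (by simp [VV])) (mul_nonneg (by positivity) (hD _ _))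
  · simp only [e1]
    split_ifs
    · exact hb.rh01 c
    · exact hr c
  · simp only [e1]
    split_ifs with h2
    · exact h2.2
    · rw [sub_self, abs_zero]
      by_cases h3 : sz y c = 0
      · rw [(hp.inact c h3).1, (hp.inact c h3).2.1]
        simp
      · obtain ⟨a, -, b, -⟩ := hp.act c hc h h3
        have : 0 ≤ ep T y c := le_trans (by have := four_le k; positivity) a
        have := (hr c).1
        positivity

end Vale.Agent.P304Z.H
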