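import Vale.Agent.P304Z.H0

/-!
# P304Z, layer H: demands, movement and sums over the tree
-/

open Finset

namespace Vale.Agent.P304Z.H

namespace H4

variable {N : Type} [Fintype N] [DecidableEq N] {k : ℕ}

theorem mem_ch {T : Tr N} {w c : N} : c ∈ T.ch w ↔ c ≠ T.root ∧ T.par c = w := by
  unfold Tr.ch
  rw [mem_filter]
  exact ⟨fun h => h.2, fun h => ⟨mem_univ _, h⟩⟩

theorem sum_regroup (T : Tr N) (f : N → ℝ) :
    ∑ v, f v = f T.root + ∑ w, ∑ c ∈ T.ch w, f c := by
  have h1 : ∑ w, ∑ c ∈ T.ch w, f c = ∑ c ∈ univ.erase T.root, f c := by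
    rw [← sum_fiberwise (univ.erase T.root) T.par f]
    refine sum_congr rfl fun w _ => sum_congr ?_ fun _ _ => rfl
    ext c
    rw [mem_ch, mem_filter, mem_erase]
    exact ⟨fun h => ⟨⟨h.1, mem_univ _⟩, h.2⟩, fun h => ⟨h.1.1, h.2⟩⟩
  rw [h1, add_sum_erase _ _ (mem_univ _)]

theorem dep_ch {T : Tr N} {w c : N} (h : c ∈ T.ch w) : T.dep c = T.dep w + 1 := by
  obtain ⟨h1, h2⟩ := mem_ch.1 h
  rw [T.dep_par c h1, h2]

theorem GG_nonneg (q : Fin k → ℝ) : 0 ≤ GG q := sum_nonneg fun _ _ => sq_nonneg _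

theorem VV_nonneg (q x : Fin k → ℝ) : 0 ≤ VV q x := sum_nonneg fun _ _ => sq_nonneg _

theorem VV_self (q : Fin k → ℝ) : VV q q = 0 := by
  unfold VV
  simp

theorem gt_nonneg (y : Fin k → ℝ) : 0 ≤ gt y := by
  unfold gt
  split_ifs
  · exact GG_nonneg y
  · exact le_rfl

theorem gt_le (y : Fin k → ℝ) : gt y ≤ GG y := by
  unfold gt
  split_ifs
  · exact le_rfl
  · exact GG_nonneg y

theorem GG_ch {T : Tr N} {q : N → Fin k → ℝ} (h : Adm T q) (w : N) :
    ∑ c ∈ T.ch w, GG (q c) ≤ GG (q w) := by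
  have h1 := h.sa w 0 le_rfl
  have h2 : ∀ v, ∑ j, (max (q v j - 0) 0) ^ 2 = GG (q v) := fun v =>
    sum_congr rfl fun j _ => by rw [sub_zero, max_eq_left (h.box v j).1]
  simp only [h2] at h1
  exact h1

theorem Lam_ge (hk : 1 ≤ k) : 4 ≤ Lam k := by
  have h : 0 ≤ Real.log k := Real.log_nonneg (by exact_mod_cast hk)
  unfold Lam
  linarith

theorem GG_le_two (q x : Fin k → ℝ) : GG x ≤ 2 * GG q + 2 * VV q x := by
  unfold GG VV
  rw [mul_sum, mul_sum, ← sum_add_distrib]
  exact sum_le_sum fun j _ => by nlinarith [sq_nonneg (2 * q j - x j)]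

theorem GG_le_ref (q x : Fin k → ℝ) : GG x ≤ 21 / 20 * GG q + 21 * VV q x := by
  unfold GG VV
  rw [mul_sum, mul_sum, ← sum_add_distrib]
  exact sum_le_sum fun j _ => by nlinarith [sq_nonneg (21 * q j - 20 * x j)]

theorem GG_le_ref' (q x : Fin k → ℝ) : GG q ≤ 21 / 20 * GG x + 21 * VV q x := by
  unfold GG VV
  rw [mul_sum, mul_sum, ← sum_add_distrib]
  exact sum_le_sum fun j _ => by nlinarith [sq_nonneg (21 * x j - 20 * q j)]

theorem DD_le (h1 : S1) {θ : ℝ} (ha : 3 / 2 ≤ θ) (hb : θ ≤ 2) {q : Fin k → ℝ}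
    (hq : ∀ j, 0 ≤ q j ∧ q j ≤ 1) : DD θ q ≤ 9 * GG q := by
  unfold DD GG
  rw [mul_sum]
  refine sum_le_sum fun j _ => ?_
  have h2 := (h1.ka_le θ (q j) ha hb (hq j).1 (hq j).2).1
  have h3 : 0 ≤ ff (θ * (1 - q j)) := sq_nonneg _
  unfold ka at h2
  linarith

theorem KK_drift (h1 : S1) {θ θ' : ℝ} (ha : 3 / 2 ≤ θ) (hb : θ ≤ 2) (ha' : 3 / 2 ≤ θ')
    (hb' : θ' ≤ 2) {q : Fin k → ℝ} (hq : ∀ j, 0 ≤ q j ∧ q j ≤ 1) :
    |KK θ' q - KK θ q| ≤ 9 * |θ' - θ| * GG q := by
  unfold KK GG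
  rw [← sum_sub_distrib, mul_sum]
  exact (abs_sum_le_sum_abs _ _).trans (sum_le_sum fun j _ =>
    (h1.drift θ θ' (q j) ha hb ha' hb' (hq j).1 (hq j).2).1)

theorem DD_drift (h1 : S1) {θ θ' : ℝ} (ha : 3 / 2 ≤ θ) (hb : θ ≤ 2) (ha' : 3 / 2 ≤ θ')
    (hb' : θ' ≤ 2) {q : Fin k → ℝ} (hq : ∀ j, 0 ≤ q j ∧ q j ≤ 1) :
    |DD θ' q - DD θ q| ≤ 12 * |θ' - θ| * GG q := by
  unfold DD GG
  rw [← sum_sub_distrib, mul_sum]
  exact (abs_sum_le_sum_abs _ _).trans (sum_le_sum fun j _ =>
    (h1.drift θ θ' (q j) ha hb ha' hb' (hq j).1 (hq j).2).2)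

theorem KK_ref (h1 : S1) {θ η : ℝ} (ha : 3 / 2 ≤ θ) (hb : θ ≤ 2) (hη : 0 < η) (hη1 : η ≤ 1)
    {q x : Fin k → ℝ} (hq : ∀ j, 0 ≤ q j ∧ q j ≤ 1) (hx : ∀ j, 0 ≤ x j ∧ x j ≤ 1) :
    |KK θ x - KK θ q| ≤ η / 2 * DD θ q + 48 / η * VV q x := by
  unfold KK DD VV
  rw [← sum_sub_distrib, mul_sum, mul_sum, ← sum_add_distrib]
  refine (abs_sum_le_sum_abs _ _).trans (sum_le_sum fun j _ => ?_)
  have hθ : 0 ≤ θ := by linarith
  have h2 := h1.ka_ref (θ * (1 - q j)) (θ * (1 - x j)) η
    (mul_nonneg hθ (by linarith [(hq j).2])) (mul_nonneg hθ (by linarith [(hx j).2])) hη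
  have h3 : (θ * (1 - x j) - θ * (1 - q j)) ^ 2 = θ ^ 2 * (q j - x j) ^ 2 := by ring
  have h4 : θ ^ 2 ≤ 4 := by nlinarith
  have h5 : 1 ≤ 1 / η := by
    rw [le_div_iff₀ hη]
    linarith
  have h6 : (9 / η + 3) * θ ^ 2 ≤ 48 / η := by
    have e1 : 9 / η = 9 * (1 / η) := by ring
    have e2 : 48 / η = 48 * (1 / η) := by ring
    rw [e1, e2]
    nlinarith
  have h7 : (9 / η + 3) * (θ ^ 2 * (q j - x j) ^ 2) ≤ 48 / η * (q j - x j) ^ 2 := by
    rw [← mul_assoc]
    exact mul_le_mul_of_nonneg_right h6 (sq_nonneg _)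
  rw [h3] at h2
  linarith

/-- the change of the demand of one child -/
theorem db_le (h1 : S1) (hk : 1 ≤ k) {θ θ' : ℝ} (ha : 3 / 2 ≤ θ) (hb : θ ≤ 2) (ha' : 3 / 2 ≤ θ')
    (hb' : θ' ≤ 2) {q x x' : Fin k → ℝ} (hq : ∀ j, 0 ≤ q j ∧ q j ≤ 1)
    (hx : ∀ j, 0 ≤ x j ∧ x j ≤ 1)
    (hx' : x' = if VV q x ≤ eta k ^ 2 / 96 * DD θ' q then x else q) :
    44 / 10 * |KK θ' x' - KK θ x| ≤ W1 k * (VV q x - VV q x') + 160 * (|θ' - θ| * GG q) := by
  have hL := Lam_ge hk
  have hη : 0 < eta k := by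
    unfold eta
    exact one_div_pos.2 (by linarith)
  have hη1 : eta k ≤ 1 := by
    unfold eta
    rw [div_le_one (by linarith)]
    linarith
  have hd := KK_drift h1 ha hb ha' hb' hx
  have hG := GG_le_two q x
  have hG0 := GG_nonneg q
  have hV0 := VV_nonneg q x
  have hd0 : 0 ≤ |θ' - θ| := abs_nonneg _
  have hd1 : |θ' - θ| ≤ 1 / 2 := abs_le.2 ⟨by linarith, by linarith⟩
  have hd2 : 9 * |θ' - θ| * GG x ≤ 9 * |θ' - θ| * (2 * GG q + 2 * VV q x) :=
    mul_le_mul_of_nonneg_left hG (by linarith)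
  have hp : 0 ≤ |θ' - θ| * GG q := mul_nonneg hd0 hG0
  split_ifs at hx' with hc
  · subst hx'
    have h2 := DD_le h1 ha' hb' hq
    have h3 : eta k ^ 2 / 96 ≤ 1 / 96 := by nlinarith
    have h4 : eta k ^ 2 / 96 * DD θ' q ≤ eta k ^ 2 / 96 * (9 * GG q) :=
      mul_le_mul_of_nonneg_left h2 (by positivity)
    have h5 : eta k ^ 2 / 96 * (9 * GG q) ≤ 1 / 96 * (9 * GG q) :=
      mul_le_mul_of_nonneg_right h3 (by linarith)
    have h6 : VV q x' ≤ GG q := by linarith
    have h7 : |θ' - θ| * VV q x' ≤ |θ' - θ| * GG q := mul_le_mul_of_nonneg_left h6 hd0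
    rw [sub_self, mul_zero]
    nlinarith
  · subst hx'
    rw [VV_self, sub_zero]
    have h2 := KK_ref h1 ha' hb' hη hη1 hq hx
    have h3 : eta k / 2 * DD θ' x' ≤ 48 / eta k * VV x' x := by
      have h4 : eta k / 2 * DD θ' x' = 48 / eta k * (eta k ^ 2 / 96 * DD θ' x') := by
        field_simp
        ring
      rw [h4]
      exact mul_le_mul_of_nonneg_left (not_le.1 hc).le (by positivity)
    have h4 : 48 / eta k = 28800 * Lam k := by
      unfold eta
      field_simp
      norm_num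
    have h5 : |KK θ' x' - KK θ x| ≤ |KK θ' x - KK θ' x'| + |KK θ' x - KK θ x| := by
      rw [abs_sub_comm (KK θ' x) (KK θ' x')]
      exact abs_sub_le _ _ _
    have h6 : |θ' - θ| * VV x' x ≤ 1 / 2 * VV x' x := mul_le_mul_of_nonneg_right hd1 hV0
    have h7 : 4 * VV x' x ≤ Lam k * VV x' x := mul_le_mul_of_nonneg_right hL hV0
    rw [h4] at h2 h3
    unfold W1
    nlinarith

omit [Fintype N] [DecidableEq N] in
theorem ph_nonneg (T : Tr N) (e : HS N k) (c : N) : 0 ≤ ph T e c := le_max_right _ _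

theorem pi_nonneg (T : Tr N) (e : HS N k) (c : N) : 0 ≤ pi T e c := by
  unfold pi
  split_ifs
  · exact le_max_right _ _
  · exact ph_nonneg T e c

theorem trig_budget {g : ℝ} {q y : Fin k → ℝ} (hg : g = gt y) (h : ¬ szOK g (GG q)) :
    GG q + g ≤ 1000 * VV q y := by
  have h1 := GG_le_ref q y
  have h2 := GG_le_ref' q y
  have h3 := GG_nonneg q
  have h4 := VV_nonneg q y
  unfold szOK at h
  unfold gt at hg
  split_ifs at hg with hc
  · have h5 : ¬ (g ≤ 11 / 10 * GG q ∧ GG q ≤ 11 / 10 * g) := fun h6 =>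
      h (Or.inr ⟨by linarith, h6⟩)
    rw [← hg] at h1 h2
    by_cases h6 : g ≤ 11 / 10 * GG q
    · have h7 : 11 / 10 * g < GG q := not_le.1 fun h7 => h5 ⟨h6, h7⟩
      linarith
    · have h7 := not_le.1 h6
      linarith
  · have h5 : 1 / 10 ≤ GG q := not_lt.1 fun h6 => h (Or.inl ⟨hg, h6⟩)
    have h6 := not_le.1 hc
    linarith

end H4

open H4

theorem stB (h1 : S1) : StB := by
  intro N _ _ k T e e' q0 q res C w
  have hL := Lam_ge C.hk
  have ha := C.str0.par.th_lo w
  have hb := C.str0.par.th_hi w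
  have ha' := C.str.par.th_lo w
  have hb' := C.str.par.th_hi w
  have hL0 : 0 ≤ L0 k := by
    unfold L0
    linarith
  have key : ∀ c ∈ T.ch w, 44 / 10 * |bb T e' c - bb T e c| +
      co T e c * (DD (e'.th w) (q c) - DD (e.th w) (q c)) ≤
      W1 k * (VV (q c) (e.x c) - VV (q c) (e'.x c)) +
        (160 + 12 * L0 k) * |e'.th w - e.th w| * GG (q c) := by
    intro c hc
    obtain ⟨hc1, hc2⟩ := mem_ch.1 hc
    have hx := C.nxt.x_eq c
    rw [hc2] at hx
    have h2 := db_le h1 C.hk ha hb ha' hb' (C.adm.box c) (C.bal0.xbox c) hx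
    have h3 := DD_drift h1 ha hb ha' hb' (C.adm.box c)
    have h4 := C.str0.co_le c hc1
    have h5 : co T e c * (DD (e'.th w) (q c) - DD (e.th w) (q c)) ≤
        L0 k * (12 * |e'.th w - e.th w| * GG (q c)) := by
      refine (le_abs_self _).trans ?_
      rw [abs_mul]
      exact mul_le_mul h4 h3 (abs_nonneg _) hL0
    unfold bb
    rw [hc2]
    linarith
  have h2 := sum_le_sum key
  rw [sum_add_distrib, sum_add_distrib, ← mul_sum, ← mul_sum, ← mul_sum] at h2
  have h3 : (160 + 12 * L0 k) * |e'.th w - e.th w| * ∑ c ∈ T.ch w, GG (q c) ≤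
      (160 + 12 * L0 k) * |e'.th w - e.th w| * GG (q w) :=
    mul_le_mul_of_nonneg_left (GG_ch C.adm w) (mul_nonneg (by linarith) (abs_nonneg _))
  linarith

theorem stM : StM := by
  intro N _ _ k T e e' q0 q res C
  have key : ∀ w, ∑ c ∈ T.ch w, |e'.mu c - e.mu c| ≤
      41 / 20 * ∑ c ∈ T.ch w, |bb T e' c - bb T e c| +
        max (RR T e' w) 0 * ∑ c ∈ T.ch w, |pi T e' c - pi T e c| +
        21 / 20 * |e'.mu w - e.mu w| := by
    intro w
    have hR : |max (RR T e' w) 0 - max (RR T e w) 0| ≤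
        ∑ c ∈ T.ch w, |bb T e' c - bb T e c| + |e'.mu w - e.mu w| := by
      refine (abs_max_sub_max_le_abs _ _ _).trans ?_
      have h2 : RR T e' w - RR T e w =
          ∑ c ∈ T.ch w, (bb T e' c - bb T e c) - (e'.mu w - e.mu w) := by
        unfold RR
        rw [sum_sub_distrib]
        ring
      rw [h2]
      exact (abs_sub _ _).trans (add_le_add (abs_sum_le_sum_abs _ _) le_rfl)
    have h3 : ∀ c ∈ T.ch w, |e'.mu c - e.mu c| ≤ |bb T e' c - bb T e c| +
        max (RR T e' w) 0 * |pi T e' c - pi T e c| +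
        |max (RR T e' w) 0 - max (RR T e w) 0| * pi T e c := by
      intro c hc
      obtain ⟨hc1, hc2⟩ := mem_ch.1 hc
      rw [C.bal.mustep c hc1, C.bal0.mustep c hc1, hc2]
      have h4 : bb T e' c - max (RR T e' w) 0 * pi T e' c -
          (bb T e c - max (RR T e w) 0 * pi T e c) = (bb T e' c - bb T e c) -
          max (RR T e' w) 0 * (pi T e' c - pi T e c) -
          (max (RR T e' w) 0 - max (RR T e w) 0) * pi T e c := by ring
      rw [h4]
      refine (abs_sub _ _).trans (add_le_add ((abs_sub _ _).trans (add_le_add le_rfl ?_)) ?_)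
      · rw [abs_mul, abs_of_nonneg (le_max_right _ _)]
      · rw [abs_mul, abs_of_nonneg (pi_nonneg T e c)]
    have h4 := sum_le_sum h3
    rw [sum_add_distrib, sum_add_distrib, ← mul_sum, ← mul_sum] at h4
    have h5 : |max (RR T e' w) 0 - max (RR T e w) 0| * ∑ c ∈ T.ch w, pi T e c ≤
        |max (RR T e' w) 0 - max (RR T e w) 0| * (21 / 20) :=
      mul_le_mul_of_nonneg_left (C.str0.pisum w) (abs_nonneg _)
    linarith
  have hM : tmv T e.mu e'.mu = ∑ w, T.rho (T.dep w + 1) * ∑ c ∈ T.ch w, |e'.mu c - e.mu c| := by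
    unfold tmv
    rw [sum_regroup T, C.bal.muroot, C.bal0.muroot, sub_self, abs_zero, mul_zero, zero_add]
    refine sum_congr rfl fun w _ => ?_
    rw [mul_sum]
    exact sum_congr rfl fun c hc => by rw [dep_ch hc]
  have hM2 : tmv T e.mu e'.mu = 2 * ∑ w, T.rho (T.dep w + 1) * |e'.mu w - e.mu w| := by
    unfold tmv
    rw [mul_sum]
    exact sum_congr rfl fun w _ => by rw [T.rho_half (T.dep w)]; ring
  have h6 : ∑ w, T.rho (T.dep w + 1) * ∑ c ∈ T.ch w, |e'.mu c - e.mu c| ≤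
      ∑ w, (19 / 40 * (T.rho (T.dep w + 1) *
        (44 / 10 * ∑ c ∈ T.ch w, |bb T e' c - bb T e c| +
          22 / 10 * (max (RR T e' w) 0 * ∑ c ∈ T.ch w, |pi T e' c - pi T e c|))) +
        21 / 20 * (T.rho (T.dep w + 1) * |e'.mu w - e.mu w|)) := by
    refine sum_le_sum fun w _ => ?_
    have h7 := mul_le_mul_of_nonneg_left (key w) (T.rho_pos (T.dep w + 1)).le
    have h8 : 0 ≤ T.rho (T.dep w + 1) * ∑ c ∈ T.ch w, |bb T e' c - bb T e c| :=
      mul_nonneg (T.rho_pos _).le (sum_nonneg fun _ _ => abs_nonneg _)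
    have h9 : 0 ≤ T.rho (T.dep w + 1) *
        (max (RR T e' w) 0 * ∑ c ∈ T.ch w, |pi T e' c - pi T e c|) :=
      mul_nonneg (T.rho_pos _).le
        (mul_nonneg (le_max_right _ _) (sum_nonneg fun _ _ => abs_nonneg _))
    linarith
  rw [sum_add_distrib, ← mul_sum, ← mul_sum] at h6
  linarith

namespace H4

variable {N : Type} [Fintype N] [DecidableEq N] {k : ℕ} {T : Tr N} {e e' : HS N k}
  {q0 q : N → Fin k → ℝ} {res : N → Prop}

theorem not_res_root (C : Ctx T e q0 q e' res) : ¬ res T.root := by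
  rw [C.nxt.res_iff]
  rintro (h | h)
  · apply h
    have hk : (1 : ℝ) ≤ k := by exact_mod_cast C.hk
    have h1 : GG (e.y T.root) = k := by
      unfold GG
      simp [C.bal0.sz.yroot]
    have h2 : GG (q T.root) = k := by
      unfold GG
      simp [C.adm.root]
    have h3 : sz e.y T.root = k := by
      unfold sz gt
      rw [h1, if_pos (by linarith)]
    rw [h2, h3]
    exact Or.inr ⟨by linarith, by linarith, by linarith⟩
  · exact h.1 rfl

theorem sz_eq (C : Ctx T e q0 q e' res) {v : N} (h : ¬ res v) : sz e'.y v = sz e.y v := by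
  unfold sz
  rw [C.nxt.y_eq v, if_neg h]

theorem not_res_par (C : Ctx T e q0 q e' res) {c : N} (hc : c ≠ T.root) (h : ¬ res c) :
    ¬ res (T.par c) := fun h1 => h ((C.nxt.res_iff c).2 (Or.inr ⟨hc, h1⟩))

theorem core_iff (C : Ctx T e q0 q e' res) {c : N} (hc : c ≠ T.root) (h : ¬ res c) :
    core T e'.y c ↔ core T e.y c := by
  unfold core
  rw [sz_eq C h, sz_eq C (not_res_par C hc h)]

open Classical in
theorem side_eq {y : N → Fin k → ℝ} {th : N → ℝ} (hP : Par T y th) {c : N} (hc : core T y c) :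
    side T y (T.par c) = (T.ch (T.par c)).erase c := by
  ext c'
  unfold side
  rw [mem_filter, mem_erase]
  constructor
  · rintro ⟨h1, h2⟩
    exact ⟨fun h3 => h2 (h3 ▸ hc), h1⟩
  · rintro ⟨h1, h2⟩
    exact ⟨h2, fun h3 => h1 (hP.uniq c' c h3 hc (mem_ch.1 h2).2)⟩

open Classical in
/-- the drift of the increment of a heavy child which is not renewed -/
theorem dDl_le (C : Ctx T e q0 q e' res) {c : N} (h : ¬ res c) (hc : core T e.y c) :
    |Dl T e'.y (T.par c) - Dl T e.y (T.par c)| * GG (q (T.par c)) ≤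
      1 / 72 * ∑ c' ∈ T.ch (T.par c), (if trig e q c' then GG (q c') + sz e.y c' else 0) := by
  have hL := Lam_ge C.hk
  have hc' : core T e'.y c := (core_iff C hc.1 h).2 hc
  have hw := not_res_par C hc.1 h
  have hw0 : sz e.y (T.par c) ≠ 0 := fun h0 => by
    have h1 := hc.2
    rw [h0, C.bal0.sz.par c hc.1 h0] at h1
    linarith
  have hok : szOK (sz e.y (T.par c)) (GG (q (T.par c))) := by
    by_contra h1
    exact hw ((C.nxt.res_iff _).2 (Or.inl h1))
  obtain ⟨hpos, -, hG⟩ := hok.resolve_left fun h1 => hw0 h1.1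
  set g : ℝ := sz e.y (T.par c) with hg
  set S : ℝ := ∑ c' ∈ T.ch (T.par c), (if trig e q c' then GG (q c') + sz e.y c' else 0) with hS
  have hnn : ∀ c', 0 ≤ (if trig e q c' then GG (q c') + sz e.y c' else 0) := fun c' => by
    split_ifs
    · exact add_nonneg (GG_nonneg _) (gt_nonneg _)
    · exact le_rfl
  have hS0 : 0 ≤ S := sum_nonneg fun c' _ => hnn c'
  have hden : 0 < 80 * Lam k * g := mul_pos (by linarith) hpos
  have h1 : |Dl T e'.y (T.par c) - Dl T e.y (T.par c)| ≤ S / (80 * Lam k * g) := by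
    unfold Dl
    rw [side_eq C.str.par hc', side_eq C.str0.par hc, ← sum_sub_distrib, hS, sum_div]
    refine (abs_sum_le_sum_abs _ _).trans ((sum_le_sum fun c' hc'' => ?_).trans
      (sum_le_sum_of_subset_of_nonneg (erase_subset _ _) fun c' _ _ =>
        div_nonneg (hnn c') hden.le))
    obtain ⟨h2, h3⟩ := mem_ch.1 (mem_of_mem_erase hc'')
    unfold dl
    rw [h3, sz_eq C hw, ← hg, ← sub_div, abs_div, abs_of_pos hden]
    refine div_le_div_of_nonneg_right ?_ hden.le
    by_cases h4 : res c'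
    · have h5 : trig e q c' := ((C.nxt.res_iff c').1 h4).resolve_right fun h6 => hw (h3 ▸ h6.2)
      rw [if_pos h5]
      have h6 : sz e'.y c' = gt (q c') := by
        unfold sz
        rw [C.nxt.y_eq c', if_pos h4]
      have h7 := gt_le (q c')
      have h8 := gt_nonneg (q c')
      have h9 : 0 ≤ sz e.y c' := gt_nonneg _
      rw [h6]
      exact abs_le.2 ⟨by linarith, by linarith⟩
    · rw [sz_eq C h4, sub_self, abs_zero]
      exact hnn c'
  have h2 : S / (80 * Lam k * g) * (11 / 10 * g) = S * (11 / (800 * Lam k)) := by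
    field_simp
    ring
  have h3 : 11 / (800 * Lam k) ≤ 1 / 72 := by
    rw [div_le_div_iff₀ (by linarith) (by norm_num)]
    linarith
  calc |Dl T e'.y (T.par c) - Dl T e.y (T.par c)| * GG (q (T.par c))
      ≤ S / (80 * Lam k * g) * (11 / 10 * g) :=
        mul_le_mul h1 hG (GG_nonneg _) (div_nonneg hS0 hden.le)
    _ = S * (11 / (800 * Lam k)) := h2
    _ ≤ S * (1 / 72) := mul_le_mul_of_nonneg_left h3 hS0
    _ = 1 / 72 * S := mul_comm _ _

open Classical in
theorem xi_le (C : Ctx T e q0 q e' res) (w : N) :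
    ∑ c ∈ T.ch w, 2 * |inc T e'.y c - inc T e.y c| * GG (q c) ≤
      1 / 4 * ∑ c ∈ T.ch w, (if res c then GG (q c) else 0) +
        1 / 72 * ∑ c ∈ T.ch w, (if trig e q c then GG (q c) + sz e.y c else 0) := by
  obtain ⟨A, hA0, hA1, hA2⟩ : ∃ A : ℝ, 0 ≤ A ∧ A * GG (q w) ≤
      1 / 72 * ∑ c ∈ T.ch w, (if trig e q c then GG (q c) + sz e.y c else 0) ∧
      ∀ c ∈ T.ch w, ¬ res c → core T e.y c → |Dl T e'.y w - Dl T e.y w| ≤ A := by
    by_cases h : ∃ c ∈ T.ch w, ¬ res c ∧ core T e.y c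
    · obtain ⟨c, hc, h1, h2⟩ := h
      have h3 := dDl_le C h1 h2
      rw [(mem_ch.1 hc).2] at h3
      exact ⟨_, abs_nonneg _, h3, fun _ _ _ _ => le_rfl⟩
    · refine ⟨0, le_rfl, ?_, fun c hc h1 h2 => absurd ⟨c, hc, h1, h2⟩ h⟩
      rw [zero_mul]
      refine mul_nonneg (by norm_num) (sum_nonneg fun c _ => ?_)
      split_ifs
      · exact add_nonneg (GG_nonneg _) (gt_nonneg _)
      · exact le_rfl
  have key : ∀ c ∈ T.ch w, 2 * |inc T e'.y c - inc T e.y c| * GG (q c) ≤
      1 / 4 * (if res c then GG (q c) else 0) + A * GG (q c) := by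
    intro c hc
    obtain ⟨hc1, hc2⟩ := mem_ch.1 hc
    have hG := GG_nonneg (q c)
    have hAG : 0 ≤ A * GG (q c) := mul_nonneg hA0 hG
    by_cases h : res c
    · rw [if_pos h]
      have h1 := C.str.par.inc01 c hc1
      have h2 := C.str0.par.inc01 c hc1
      have h3 : |inc T e'.y c - inc T e.y c| ≤ 1 / 8 := abs_le.2 ⟨by linarith, by linarith⟩
      have h4 := mul_le_mul_of_nonneg_right h3 hG
      linarith
    · rw [if_neg h, mul_zero, zero_add]
      refine mul_le_mul_of_nonneg_right ?_ hG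
      by_cases h1 : core T e.y c
      · have h2 := hA2 c hc h h1
        unfold inc
        rw [if_pos h1, if_pos ((core_iff C hc1 h).2 h1), hc2, ← sub_div, abs_div, abs_two]
        linarith
      · unfold inc
        rw [if_neg h1, if_neg fun h2 => h1 ((core_iff C hc1 h).1 h2)]
        unfold ep
        rw [sz_eq C h, sz_eq C (not_res_par C hc1 h), sub_self, abs_zero, mul_zero]
        exact hA0
  have h2 := sum_le_sum key
  rw [sum_add_distrib, ← mul_sum, ← mul_sum] at h2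
  have h3 := mul_le_mul_of_nonneg_left (GG_ch C.adm w) hA0
  linarith

end H4

open Classical in
theorem stZ : StZ := by
  intro N _ _ k T e e' q0 q res C
  have hroot := not_res_root C
  have hnn : ∀ c, 0 ≤ (if trig e q c then GG (q c) + sz e.y c else 0) := fun c => by
    split_ifs
    · exact add_nonneg (GG_nonneg _) (gt_nonneg _)
    · exact le_rfl
  have hnt : ¬ trig e q T.root := fun h => hroot ((C.nxt.res_iff _).2 (Or.inl h))
  set U : ℝ := ∑ v, T.rho (T.dep v) * (if trig e q v then GG (q v) + sz e.y v else 0) with hU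
  set Y : ℝ := ∑ v, T.rho (T.dep v) * (if res v then GG (q v) else 0) with hY
  have hU0 : 0 ≤ U := sum_nonneg fun v _ => mul_nonneg (T.rho_pos _).le (hnn v)
  have hU1 : U = ∑ w, T.rho (T.dep w + 1) *
      ∑ c ∈ T.ch w, (if trig e q c then GG (q c) + sz e.y c else 0) := by
    rw [hU, sum_regroup T, if_neg hnt, mul_zero, zero_add]
    refine sum_congr rfl fun w _ => ?_
    rw [mul_sum]
    exact sum_congr rfl fun c hc => by rw [dep_ch hc]
  have hY1 : Y = ∑ w, T.rho (T.dep w + 1) * ∑ c ∈ T.ch w, (if res c then GG (q c) else 0) := by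
    rw [hY, sum_regroup T, if_neg hroot, mul_zero, zero_add]
    refine sum_congr rfl fun w _ => ?_
    rw [mul_sum]
    exact sum_congr rfl fun c hc => by rw [dep_ch hc]
  have hY2 : Y = 2 * ∑ w, T.rho (T.dep w + 1) * (if res w then GG (q w) else 0) := by
    rw [hY, mul_sum]
    exact sum_congr rfl fun w _ => by rw [T.rho_half (T.dep w)]; ring
  have hYU : Y ≤ 2 * U := by
    have key : ∀ w, ∑ c ∈ T.ch w, (if res c then GG (q c) else 0) ≤
        ∑ c ∈ T.ch w, (if trig e q c then GG (q c) + sz e.y c else 0) +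
          (if res w then GG (q w) else 0) := by
      intro w
      by_cases hw : res w
      · rw [if_pos hw]
        have h1 : ∑ c ∈ T.ch w, (if res c then GG (q c) else 0) ≤ ∑ c ∈ T.ch w, GG (q c) :=
          sum_le_sum fun c _ => by
            split_ifs
            · exact le_rfl
            · exact GG_nonneg _
        have h2 := GG_ch C.adm w
        have h3 : 0 ≤ ∑ c ∈ T.ch w, (if trig e q c then GG (q c) + sz e.y c else 0) :=
          sum_nonneg fun c _ => hnn c
        linarith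
      · rw [if_neg hw, add_zero]
        refine sum_le_sum fun c hc => ?_
        by_cases h1 : res c
        · have h2 : trig e q c := ((C.nxt.res_iff c).1 h1).resolve_right fun h3 =>
            hw ((mem_ch.1 hc).2 ▸ h3.2)
          rw [if_pos h1, if_pos h2]
          exact le_add_of_nonneg_right (gt_nonneg _)
        · rw [if_neg h1]
          exact hnn c
    have h1 : ∑ w, T.rho (T.dep w + 1) * ∑ c ∈ T.ch w, (if res c then GG (q c) else 0) ≤
        ∑ w, (T.rho (T.dep w + 1) *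
          ∑ c ∈ T.ch w, (if trig e q c then GG (q c) + sz e.y c else 0) +
          T.rho (T.dep w + 1) * (if res w then GG (q w) else 0)) :=
      sum_le_sum fun w _ => by
        rw [← mul_add]
        exact mul_le_mul_of_nonneg_left (key w) (T.rho_pos _).le
    rw [sum_add_distrib, ← hU1, ← hY1] at h1
    linarith
  refine ⟨hroot, hYU, ?_, fun v => ?_⟩
  · set Z : ℝ := ∑ w, T.rho (T.dep w + 1) * (|e'.th w - e.th w| * GG (q w)) with hZ
    have hZ1 : 2 * Z = ∑ w, T.rho (T.dep w + 1) *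
        ∑ c ∈ T.ch w, |e'.th c - e.th c| * GG (q c) := by
      have h1 : 2 * Z = ∑ w, T.rho (T.dep w) * (|e'.th w - e.th w| * GG (q w)) := by
        rw [hZ, mul_sum]
        exact sum_congr rfl fun w _ => by rw [T.rho_half (T.dep w)]; ring
      rw [h1, sum_regroup T, C.bal.sz.throot, C.bal0.sz.throot, sub_self, abs_zero, zero_mul,
        mul_zero, zero_add]
      refine sum_congr rfl fun w _ => ?_
      rw [mul_sum]
      exact sum_congr rfl fun c hc => by rw [dep_ch hc]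
    have key : ∀ w, ∑ c ∈ T.ch w, |e'.th c - e.th c| * GG (q c) ≤
        |e'.th w - e.th w| * GG (q w) +
          (1 / 4 * ∑ c ∈ T.ch w, (if res c then GG (q c) else 0) +
            1 / 72 * ∑ c ∈ T.ch w, (if trig e q c then GG (q c) + sz e.y c else 0)) := by
      intro w
      have h1 : ∀ c ∈ T.ch w, |e'.th c - e.th c| * GG (q c) ≤ |e'.th w - e.th w| * GG (q c) +
          2 * |inc T e'.y c - inc T e.y c| * GG (q c) := by
        intro c hc
        obtain ⟨hc1, hc2⟩ := mem_ch.1 hc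
        rw [← add_mul]
        refine mul_le_mul_of_nonneg_right ?_ (GG_nonneg _)
        rw [C.bal.sz.thstep c hc1, C.bal0.sz.thstep c hc1, hc2]
        have h2 : e'.th w + 2 * inc T e'.y c - (e.th w + 2 * inc T e.y c) =
            (e'.th w - e.th w) + 2 * (inc T e'.y c - inc T e.y c) := by ring
        rw [h2]
        refine (abs_add_le _ _).trans (add_le_add le_rfl ?_)
        rw [abs_mul, abs_two]
      have h2 := sum_le_sum h1
      rw [sum_add_distrib, ← mul_sum] at h2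
      have h3 := mul_le_mul_of_nonneg_left (GG_ch C.adm w) (abs_nonneg (e'.th w - e.th w))
      have h4 := xi_le C w
      linarith
    have h1 : ∑ w, T.rho (T.dep w + 1) * ∑ c ∈ T.ch w, |e'.th c - e.th c| * GG (q c) ≤
        ∑ w, (T.rho (T.dep w + 1) * (|e'.th w - e.th w| * GG (q w)) +
          (1 / 4 * (T.rho (T.dep w + 1) * ∑ c ∈ T.ch w, (if res c then GG (q c) else 0)) +
            1 / 72 * (T.rho (T.dep w + 1) *
              ∑ c ∈ T.ch w, (if trig e q c then GG (q c) + sz e.y c else 0)))) :=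
      sum_le_sum fun w _ => by
        have h2 := mul_le_mul_of_nonneg_left (key w) (T.rho_pos (T.dep w + 1)).le
        linarith
    rw [sum_add_distrib, sum_add_distrib, ← mul_sum, ← mul_sum, ← hU1, ← hY1, ← hZ, ← hZ1] at h1
    linarith
  · by_cases h : trig e q v
    · have h1 : res v := (C.nxt.res_iff v).2 (Or.inl h)
      rw [if_pos h, C.nxt.y_eq v, if_pos h1, VV_self, sub_zero]
      exact trig_budget rfl h
    · rw [if_neg h, C.nxt.y_eq v]
      split_ifs
      · rw [VV_self, sub_zero]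
        exact mul_nonneg (by norm_num) (VV_nonneg _ _)
      · rw [sub_self, mul_zero]

end Vale.Agent.P304Z.H
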