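import Vale.Agent.P304Z.H0

/-!
# P304Z, layer H: the cost of changing the shares
-/

open Finset

namespace Vale.Agent.P304Z.H

namespace H5

variable {N : Type} [Fintype N] [DecidableEq N] {k : ℕ} {T : Tr N}

theorem mem_ch {w c : N} : c ∈ T.ch w ↔ c ≠ T.root ∧ T.par c = w := by
  simp [Tr.ch]

theorem mem_side {y : N → Fin k → ℝ} {w c : N} :
    c ∈ side T y w ↔ c ∈ T.ch w ∧ ¬ core T y c := by
  unfold side
  simp only [mem_filter]

theorem Lam_ge (hk : 1 ≤ k) : 4 ≤ Lam k := by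
  have h : (1 : ℝ) ≤ k := by exact_mod_cast hk
  have := Real.log_nonneg h
  unfold Lam
  linarith

theorem GG_nonneg (q : Fin k → ℝ) : 0 ≤ GG q := sum_nonneg fun _ _ => sq_nonneg _

theorem gt_nonneg (q : Fin k → ℝ) : 0 ≤ gt q := by
  unfold gt
  split_ifs
  · exact GG_nonneg q
  · exact le_rfl

theorem gt_le (q : Fin k → ℝ) : gt q ≤ GG q := by
  unfold gt
  split_ifs
  · exact le_rfl
  · exact GG_nonneg q

theorem DD_nonneg (h1 : S1) {θ : ℝ} {q : Fin k → ℝ} (hθ : 0 ≤ θ) (hq : ∀ j, q j ≤ 1) :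
    0 ≤ DD θ q :=
  sum_nonneg fun j _ => h1.be_nonneg _ (mul_nonneg hθ (sub_nonneg.mpr (hq j)))

theorem DD_le (h1 : S1) {θ : ℝ} {q : Fin k → ℝ} (hθ : 3 / 2 ≤ θ) (hθ' : θ ≤ 2)
    (hq : ∀ j, 0 ≤ q j ∧ q j ≤ 1) : DD θ q ≤ 9 * GG q := by
  unfold DD GG
  rw [mul_sum]
  refine sum_le_sum fun j _ => ?_
  have h := (h1.ka_le θ (q j) hθ hθ' (hq j).1 (hq j).2).1
  have h0 : 0 ≤ ff (θ * (1 - q j)) := sq_nonneg _
  unfold ka at h
  linarith

theorem GG_ch {q : N → Fin k → ℝ} (h : Adm T q) (w : N) : ∑ c ∈ T.ch w, GG (q c) ≤ GG (q w) := by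
  have h0 := h.sa w 0 le_rfl
  have e : ∀ v j, max (q v j - 0) 0 = q v j := fun v j => by
    rw [sub_zero]
    exact max_eq_left (h.box v j).1
  simpa only [e, GG] using h0

theorem move_le (h2 : S2) {ε δ ρ r : ℝ} (hε : 0 < ε) (hε' : ε ≤ 1 / 8) (hδ : 0 < δ) (hρ : 0 ≤ ρ)
    (hr : 0 ≤ r) (hfar : (ε * ρ + δ) / 16 < |ρ - r|) :
    442 / 100 * |max (r * (1 + ε / 4) - δ / 8) 0 - max (ρ * (1 + ε / 4) - δ / 8) 0| +
      (400 / ε * (r - δ / ε * Real.log (1 + ε * r / δ))
        - 400 / ε * Real.log (1 + ε * r / δ) * r) ≤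
      400 / ε * (ρ - δ / ε * Real.log (1 + ε * ρ / δ))
        - 400 / ε * Real.log (1 + ε * ρ / δ) * r := by
  have hb := h2.breg ε δ ρ r hε hδ hρ hr
  have d0 : 0 ≤ |ρ - r| := abs_nonneg _
  have a1 : |max (r * (1 + ε / 4) - δ / 8) 0 - max (ρ * (1 + ε / 4) - δ / 8) 0|
      ≤ 33 / 32 * |ρ - r| := by
    refine le_trans (abs_max_sub_max_le_abs _ _ _) ?_
    have e : r * (1 + ε / 4) - δ / 8 - (ρ * (1 + ε / 4) - δ / 8) = (1 + ε / 4) * (r - ρ) := by ring
    rw [e, abs_mul, abs_sub_comm r ρ, abs_of_nonneg (by linarith : 0 ≤ 1 + ε / 4)]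
    exact mul_le_mul_of_nonneg_right (by linarith) d0
  have hden : 0 < 2 * δ + ε * ρ + ε * r := by positivity
  have a2 : 2 * δ + ε * ρ + ε * r ≤ 33 * |ρ - r| := by
    have b1 : r - ρ ≤ |ρ - r| := by
      rw [abs_sub_comm]
      exact le_abs_self _
    have b2 : ε * (r - ρ) ≤ ε * |ρ - r| := mul_le_mul_of_nonneg_left b1 hε.le
    have b3 : ε * |ρ - r| ≤ 1 / 8 * |ρ - r| := mul_le_mul_of_nonneg_right hε' d0
    linarith
  have a3 : 6 * |ρ - r| ≤ 200 * (r - ρ) ^ 2 / (2 * δ + ε * ρ + ε * r) := by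
    rw [le_div_iff₀ hden]
    have b1 : (r - ρ) ^ 2 = |ρ - r| * |ρ - r| := by
      rw [abs_mul_abs_self]
      ring
    have b2 := mul_le_mul_of_nonneg_left a2 d0
    have b3 := mul_nonneg d0 d0
    rw [b1]
    linarith
  linarith

theorem t1_ge (h2 : S2) {ε δ ρ : ℝ} (hε : 0 < ε) (hε' : ε ≤ 1 / 8) (hδ : 0 < δ) (hρ : 0 ≤ ρ) :
    442 / 100 * max (ρ * (1 + ε / 4) - δ / 8) 0
      ≤ 400 / ε * (ρ - δ / ε * Real.log (1 + ε * ρ / δ)) := by
  have hb := h2.breg ε δ ρ 0 hε hδ hρ le_rfl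
  simp only [mul_zero, zero_div, add_zero, Real.log_one, sub_zero, zero_add, zero_sub,
    neg_sq] at hb
  refine le_trans ?_ hb
  have hden : 0 < 2 * δ + ε * ρ := by positivity
  have b1 : ε * ρ ≤ 1 / 8 * ρ := mul_le_mul_of_nonneg_right hε' hρ
  rcases le_total (ρ * (1 + ε / 4) - δ / 8) 0 with h | h
  · rw [max_eq_right h, mul_zero]
    positivity
  · rw [max_eq_left h, le_div_iff₀ hden]
    have b2 : ρ * (1 + ε / 4) - δ / 8 ≤ 33 / 32 * ρ := by linarith
    have b3 : 2 * δ + ε * ρ ≤ 17 * ρ := by linarith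
    have b4 := mul_le_mul b2 b3 hden.le (by positivity)
    have b5 := sq_nonneg ρ
    linarith

omit [Fintype N] [DecidableEq N] in
theorem ph_nonneg (e : HS N k) (c : N) : 0 ≤ ph T e c := le_max_right _ _

theorem pi_nonneg (e : HS N k) (c : N) : 0 ≤ pi T e c := by
  unfold pi
  split_ifs
  · exact le_max_right _ _
  · exact ph_nonneg e c

theorem co_sum (e : HS N k) (w : N) (D : N → ℝ) :
    ∑ c ∈ T.ch w, co T e c * D c
      = ∑ c ∈ side T e.y w, (t1 T e c * ∑ c' ∈ T.ch w, D c' - t2 T e c * D c) := by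
  classical
  have e1 : ∀ c ∈ T.ch w, co T e c * D c = (∑ c' ∈ side T e.y w, t1 T e c') * D c
      - if ¬ core T e.y c then t2 T e c * D c else 0 := by
    intro c hc
    unfold co
    rw [(mem_ch.mp hc).2]
    by_cases h : core T e.y c
    · simp [h]
    · simp [h, sub_mul]
  rw [sum_congr rfl e1, sum_sub_distrib, sum_sub_distrib, ← mul_sum, ← sum_mul, ← sum_filter]
  congr 1

variable {e e' : HS N k} {q0 q : N → Fin k → ℝ} {res : N → Prop}

theorem not_res_par (h : Ctx T e q0 q e' res) {c : N} (hc : c ≠ T.root) (hr : ¬ res c) :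
    ¬ res (T.par c) := fun h' => hr ((h.nxt.res_iff c).mpr (Or.inr ⟨hc, h'⟩))

theorem sz_eq (h : Ctx T e q0 q e' res) {c : N} (hr : ¬ res c) : sz e'.y c = sz e.y c := by
  unfold sz
  rw [h.nxt.y_eq c, if_neg hr]

theorem ep_eq (h : Ctx T e q0 q e' res) {c : N} (hc : c ≠ T.root) (hr : ¬ res c) :
    ep T e'.y c = ep T e.y c := by
  unfold ep
  rw [sz_eq h hr, sz_eq h (not_res_par h hc hr)]

theorem dl_eq (h : Ctx T e q0 q e' res) {c : N} (hc : c ≠ T.root) (hr : ¬ res c) :
    dl T e'.y c = dl T e.y c := by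
  unfold dl
  rw [sz_eq h hr, sz_eq h (not_res_par h hc hr)]

theorem core_eq (h : Ctx T e q0 q e' res) {c : N} (hc : c ≠ T.root) (hr : ¬ res c) :
    core T e'.y c ↔ core T e.y c := by
  unfold core
  rw [sz_eq h hr, sz_eq h (not_res_par h hc hr)]

theorem DDc_nonneg (h1 : S1) (h : Ctx T e q0 q e' res) (w c : N) : 0 ≤ DD (e'.th w) (q c) :=
  DD_nonneg h1 (le_trans (by norm_num) (h.str.par.th_lo w)) fun j => (h.adm.box c j).2

theorem DDc_le (h1 : S1) (h : Ctx T e q0 q e' res) (w c : N) :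
    DD (e'.th w) (q c) ≤ 9 * GG (q c) :=
  DD_le h1 (h.str.par.th_lo w) (h.str.par.th_hi w) (h.adm.box c)

theorem Dt_nonneg (h1 : S1) (h : Ctx T e q0 q e' res) (w : N) : 0 ≤ Dt T e'.th q w :=
  sum_nonneg fun c _ => DDc_nonneg h1 h w c

theorem Dt_le (h1 : S1) (h : Ctx T e q0 q e' res) (w : N) : Dt T e'.th q w ≤ 9 * GG (q w) := by
  refine le_trans (sum_le_sum fun c _ => DDc_le h1 h w c) ?_
  rw [← mul_sum]
  linarith [GG_ch h.adm w]

theorem rr_nonneg (h1 : S1) (h : Ctx T e q0 q e' res) (c : N) : 0 ≤ rr T e'.th q c :=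
  div_nonneg (DDc_nonneg h1 h _ c) (Dt_nonneg h1 h _)

theorem DD_eq (h1 : S1) (h : Ctx T e q0 q e' res) {w c : N} (hc : c ∈ T.ch w) :
    DD (e'.th w) (q c) = Dt T e'.th q w * rr T e'.th q c := by
  unfold rr
  rw [(mem_ch.mp hc).2]
  rcases (Dt_nonneg h1 h w).eq_or_lt with h0 | h0
  · have a1 : DD (e'.th w) (q c) ≤ Dt T e'.th q w :=
      single_le_sum (f := fun c => DD (e'.th w) (q c)) (fun c _ => DDc_nonneg h1 h w c) hc
    have a2 := DDc_nonneg h1 h w c
    rw [← h0, zero_mul]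
    linarith
  · field_simp

/-- a renewed share has a nonpositive entropy term -/
theorem self_le (h1 : S1) (h2 : S2) (h : Ctx T e q0 q e' res) {c : N} (hc : c ≠ T.root)
    (hs : ¬ core T e'.y c) (he : e'.rh c = rr T e'.th q c) :
    t1 T e' c - t2 T e' c * rr T e'.th q c ≤ 0 := by
  by_cases h0 : sz e'.y c = 0
  · have := (h.str.par.inact c h0).1
    simp [t1, t2, this]
  · obtain ⟨a1, -, a3, -⟩ := h.str.par.act c hc hs h0
    have hL := Lam_ge h.hk
    have a4 : 0 < ep T e'.y c := lt_of_lt_of_le (by positivity) a1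
    have := h2.self_le _ _ _ a4 a3 (rr_nonneg h1 h c)
    unfold t1 t2 lg
    rw [he]
    exact this

/-- a child which is not renewed pays for the change of its share -/
theorem keep_le (h1 : S1) (h2 : S2) (h : Ctx T e q0 q e' res) {c : N} (hc : c ≠ T.root)
    (hs : ¬ core T e.y c) (hr : ¬ res c) :
    442 / 100 * |ph T e' c - ph T e c| + (t1 T e' c - t2 T e' c * rr T e'.th q c)
      ≤ t1 T e c - t2 T e c * rr T e'.th q c := by
  have e1 := ep_eq h hc hr
  have e2 := dl_eq h hc hr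
  by_cases hh : e'.rh c = e.rh c
  · unfold ph t1 t2 lg
    rw [e1, e2, hh]
    simp
  · have h0 : sz e.y c ≠ 0 := by
      intro h0
      apply hh
      rw [(h.str0.rh_inact c hc h0).1, (h.str.rh_inact c hc (by rw [sz_eq h hr, h0])).1]
    obtain ⟨a1, a2, a3, -⟩ := h.str0.par.act c hc hs h0
    have hL := Lam_ge h.hk
    have a4 : 0 < ep T e.y c := lt_of_lt_of_le (by positivity) a1
    have e3 := h.nxt.rh_eq c
    rw [e1, e2] at e3
    split_ifs at e3 with h3
    · exact absurd e3 hh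
    · have hfar : (ep T e.y c * e.rh c + dl T e.y c) / 16 < |e.rh c - rr T e'.th q c| := by
        by_contra h4
        exact h3 ⟨hr, not_lt.mp h4⟩
      have := move_le h2 a4 a2 a3 (h.bal0.rh01 c).1 (rr_nonneg h1 h c) hfar
      unfold ph t1 t2 lg
      rw [e1, e2, e3]
      exact this

theorem ph_le_t1 (h2 : S2) (h : Ctx T e q0 q e' res) {c : N} (hc : c ≠ T.root)
    (hs : ¬ core T e.y c) : 442 / 100 * ph T e c ≤ t1 T e c := by
  by_cases h0 : sz e.y c = 0
  · obtain ⟨a1, a2, -⟩ := h.str0.par.inact c h0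
    have a3 := (h.str0.rh_inact c hc h0).1
    simp [ph, t1, a1, a2, a3]
  · obtain ⟨a1, a2, a3, -⟩ := h.str0.par.act c hc hs h0
    have hL := Lam_ge h.hk
    have a4 : 0 < ep T e.y c := lt_of_lt_of_le (by positivity) a1
    exact t1_ge h2 a4 a2 a3 (h.bal0.rh01 c).1

theorem rh_res (h : Ctx T e q0 q e' res) {c : N} (hr : res c) : e'.rh c = rr T e'.th q c := by
  rw [h.nxt.rh_eq c, if_neg fun h' => h'.1 hr]

theorem old_ge (h1 : S1) (h : Ctx T e q0 q e' res) {w c : N} (hc : c ≠ T.root)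
    (hs : ¬ core T e.y c) : t2 T e c * DD (e'.th w) (q c) ≤ 9 * L0 k * GG (q c) := by
  obtain ⟨-, a2, a3⟩ := h.str0.t12 c hc hs
  have := mul_le_mul a3 (DDc_le h1 h w c) (DDc_nonneg h1 h w c) (le_trans a2 a3)
  linarith

open Classical in
/-- the entropy terms, child by child -/
theorem child_gen (h1 : S1) (h2 : S2) (h : Ctx T e q0 q e' res) {w c : N} (hc : c ∈ T.ch w) :
    (if ¬ core T e'.y c then t1 T e' c * Dt T e'.th q w - t2 T e' c * DD (e'.th w) (q c) else 0)
      - (if ¬ core T e.y c then t1 T e c * Dt T e'.th q w - t2 T e c * DD (e'.th w) (q c) else 0)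
      ≤ (9 * L0 k + 43) * (if res c then GG (q c) else 0) := by
  have hc' := (mem_ch.mp hc).1
  have hD := Dt_nonneg h1 h w
  have hG := GG_nonneg (q c)
  have hL : 0 ≤ L0 k := by
    have := Lam_ge h.hk
    unfold L0
    positivity
  have hLG : 0 ≤ 9 * L0 k * GG (q c) := by positivity
  by_cases hr : res c
  · rw [if_pos hr]
    have a1 : (if ¬ core T e'.y c then
        t1 T e' c * Dt T e'.th q w - t2 T e' c * DD (e'.th w) (q c) else 0) ≤ 0 := by
      split_ifs with hs
      · exact le_rfl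
      · have := mul_le_mul_of_nonneg_left (self_le h1 h2 h hc' hs (rh_res h hr)) hD
        rw [DD_eq h1 h hc]
        linarith
    have a2 : -(9 * L0 k * GG (q c)) ≤ (if ¬ core T e.y c then
        t1 T e c * Dt T e'.th q w - t2 T e c * DD (e'.th w) (q c) else 0) := by
      split_ifs with hs
      · linarith
      · have b1 := old_ge (w := w) h1 h hc' hs
        have b2 := mul_nonneg (h.str0.t12 c hc' hs).1 hD
        linarith
    linarith
  · rw [if_neg hr, mul_zero]
    by_cases hs : core T e.y c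
    · have hs' := (core_eq h hc' hr).mpr hs
      simp [hs, hs']
    · have hs' : ¬ core T e'.y c := fun h' => hs ((core_eq h hc' hr).mp h')
      rw [if_pos hs, if_pos hs', DD_eq h1 h hc]
      have b1 := mul_le_mul_of_nonneg_left (keep_le h1 h2 h hc' hs hr) hD
      have b2 : 0 ≤ Dt T e'.th q w * |ph T e' c - ph T e c| := mul_nonneg hD (abs_nonneg _)
      linarith

open Classical in
/-- the entropy terms and the change of the share, for a child which stays light -/
theorem child_side (h1 : S1) (h2 : S2) (h : Ctx T e q0 q e' res) {w c : N} (hc : c ∈ T.ch w)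
    (hs : ¬ core T e.y c) (hs' : ¬ core T e'.y c) :
    442 / 100 * (Dt T e'.th q w * |ph T e' c - ph T e c|)
      + (t1 T e' c * Dt T e'.th q w - t2 T e' c * DD (e'.th w) (q c))
      - (t1 T e c * Dt T e'.th q w - t2 T e c * DD (e'.th w) (q c))
      ≤ (9 * L0 k + 43) * (if res c then GG (q c) else 0) := by
  have hc' := (mem_ch.mp hc).1
  have hD := Dt_nonneg h1 h w
  have hG := GG_nonneg (q c)
  by_cases hr : res c
  · rw [if_pos hr]
    have a1 := mul_le_mul_of_nonneg_left (self_le h1 h2 h hc' hs' (rh_res h hr)) hD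
    have a2 := old_ge (w := w) h1 h hc' hs
    have a3 := mul_le_mul_of_nonneg_left (ph_le_t1 h2 h hc' hs) hD
    have a4 := mul_le_mul_of_nonneg_left (h.str.ph_le c hc' hs').2 hD
    have a5 : |ph T e' c - ph T e c| ≤ ph T e' c + ph T e c := by
      have b1 := ph_nonneg (T := T) e c
      have b2 := ph_nonneg (T := T) e' c
      rw [abs_le]
      constructor <;> linarith
    have a6 := mul_le_mul_of_nonneg_left a5 hD
    have a7 := DDc_le h1 h w c
    have a8 := DD_eq h1 h hc
    rw [a8] at a2 a7 ⊢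
    linarith
  · rw [if_neg hr, mul_zero, DD_eq h1 h hc]
    have b1 := mul_le_mul_of_nonneg_left (keep_le h1 h2 h hc' hs hr) hD
    linarith

theorem pi_same (h : Ctx T e q0 q e' res) {w : N} (hs : side T e'.y w = side T e.y w) :
    ∑ c ∈ T.ch w, |pi T e' c - pi T e c| ≤ 2 * ∑ c ∈ side T e.y w, |ph T e' c - ph T e c| := by
  classical
  have hcore : ∀ c ∈ T.ch w, (core T e'.y c ↔ core T e.y c) := by
    intro c hc
    have a1 : c ∈ side T e'.y w ↔ c ∈ side T e.y w := by rw [hs]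
    rw [mem_side, mem_side] at a1
    tauto
  have p0 : 0 ≤ ∑ c ∈ side T e.y w, |ph T e' c - ph T e c| := sum_nonneg fun _ _ => abs_nonneg _
  rw [← sum_filter_add_sum_filter_not (T.ch w) (fun c => core T e.y c)]
  have a1 : ∑ c ∈ (T.ch w).filter (fun c => ¬ core T e.y c), |pi T e' c - pi T e c|
      = ∑ c ∈ side T e.y w, |ph T e' c - ph T e c| := by
    refine sum_congr ?_ fun c hc => ?_
    · ext c
      rw [mem_side, mem_filter]
    · obtain ⟨b1, b2⟩ := mem_side.mp hc
      have b3 : ¬ core T e'.y c := fun h' => b2 ((hcore c b1).mp h')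
      unfold pi
      rw [if_neg b2, if_neg b3]
  have a2 : ∑ c ∈ (T.ch w).filter (fun c => core T e.y c), |pi T e' c - pi T e c|
      ≤ ∑ c ∈ side T e.y w, |ph T e' c - ph T e c| := by
    have b1 : ((T.ch w).filter (fun c => core T e.y c)).card ≤ 1 := by
      refine card_le_one.mpr fun a ha b hb => ?_
      obtain ⟨a1, a2⟩ := mem_filter.mp ha
      obtain ⟨b1, b2⟩ := mem_filter.mp hb
      exact h.str0.par.uniq a b a2 b2 (by rw [(mem_ch.mp a1).2, (mem_ch.mp b1).2])
    have b2 : ∀ c ∈ (T.ch w).filter (fun c => core T e.y c),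
        |pi T e' c - pi T e c| ≤ ∑ c ∈ side T e.y w, |ph T e' c - ph T e c| := by
      intro c hc
      obtain ⟨c1, c2⟩ := mem_filter.mp hc
      unfold pi
      rw [if_pos c2, if_pos ((hcore c c1).mpr c2), (mem_ch.mp c1).2, hs]
      refine le_trans (abs_max_sub_max_le_abs _ _ _) ?_
      rw [sub_sub_sub_cancel_left, abs_sub_comm, ← sum_sub_distrib]
      exact abs_sum_le_sum_abs _ _
    refine le_trans (sum_le_card_nsmul _ _ _ b2) ?_
    rw [nsmul_eq_mul]
    have b3 : (((T.ch w).filter (fun c => core T e.y c)).card : ℝ) ≤ 1 := by exact_mod_cast b1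
    exact mul_le_of_le_one_left p0 b3
  linarith

theorem pi_any (h : Ctx T e q0 q e' res) (w : N) :
    ∑ c ∈ T.ch w, |pi T e' c - pi T e c| ≤ 21 / 10 := by
  have a1 := h.str0.pisum w
  have a2 := h.str.pisum w
  have a3 : ∑ c ∈ T.ch w, |pi T e' c - pi T e c| ≤ ∑ c ∈ T.ch w, (pi T e' c + pi T e c) := by
    refine sum_le_sum fun c _ => ?_
    have b1 := pi_nonneg (T := T) e c
    have b2 := pi_nonneg (T := T) e' c
    rw [abs_le]
    constructor <;> linarith
  rw [sum_add_distrib] at a3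
  linarith

open Classical in
theorem changed (h : Ctx T e q0 q e' res) {w : N} (hs : side T e'.y w ≠ side T e.y w)
    (hw : ¬ res w) :
    43 * GG (q w) ≤ 71 * ∑ c ∈ T.ch w, (if trig e q c then GG (q c) + sz e.y c else 0) := by
  obtain ⟨c, hc, hne⟩ : ∃ c ∈ T.ch w, ¬ (core T e'.y c ↔ core T e.y c) := by
    by_contra h'
    apply hs
    ext c
    rw [mem_side, mem_side]
    by_cases hc : c ∈ T.ch w
    · have : core T e'.y c ↔ core T e.y c := by
        by_contra h''
        exact h' ⟨c, hc, h''⟩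
      rw [this]
    · simp [hc]
  obtain ⟨c1, c2⟩ := mem_ch.mp hc
  have hr : res c := by
    by_contra hr
    exact hne (core_eq h c1 hr)
  have ht : trig e q c := by
    rcases (h.nxt.res_iff c).mp hr with h' | h'
    · exact h'
    · exact absurd (c2 ▸ h'.2) hw
  have e1 := sz_eq h hw
  have e2 : sz e'.y c ≤ GG (q c) := by
    unfold sz
    rw [h.nxt.y_eq c, if_pos hr]
    exact gt_le _
  have p1 : 0 ≤ sz e.y c := gt_nonneg _
  have p2 := GG_nonneg (q c)
  have hcore : core T e'.y c ∨ core T e.y c := by tauto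
  have a1 : sz e'.y w ≠ 0 := by
    intro h0
    have b1 := h.bal.sz.par c c1 (by rw [c2, h0])
    have b2 := h.bal0.sz.par c c1 (by rw [c2, ← e1, h0])
    rcases hcore with h' | h'
    · exact (h.str.par.inact c b1).2.2 h'
    · exact (h.str0.par.inact c b2).2.2 h'
  have a2 : GG (q w) ≤ 11 / 10 * sz e'.y w := by
    rcases h.bal.sz.size w with h' | h'
    · exact absurd h'.1 a1
    · exact h'.2.2
  have a3 : 2 / 3 * sz e'.y w ≤ GG (q c) + sz e.y c := by
    rcases hcore with h' | h'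
    · have := h'.2
      rw [c2] at this
      linarith
    · have := h'.2
      rw [c2, ← e1] at this
      linarith
  have a4 : GG (q c) + sz e.y c
      ≤ ∑ c ∈ T.ch w, (if trig e q c then GG (q c) + sz e.y c else 0) := by
    refine le_trans (le_of_eq ?_) (single_le_sum
      (f := fun c => if trig e q c then GG (q c) + sz e.y c else 0) (fun c _ => ?_) hc)
    · rw [if_pos ht]
    · split_ifs
      · exact add_nonneg (GG_nonneg _) (gt_nonneg _)
      · exact le_rfl
  linarith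

end H5

open H5 in
theorem stPi (h1 : S1) (h2 : S2) : StPi := by
  classical
  intro N _ _ k T e e' q0 q res h w
  have hD := Dt_nonneg h1 h w
  have hL := Lam_ge h.hk
  have hη : eta k ≤ 1 / 2400 := by
    unfold eta
    exact one_div_le_one_div_of_le (by norm_num) (by linarith)
  have hη0 : 0 ≤ eta k := by
    unfold eta
    positivity
  have a0 : max (RR T e' w) 0 ≤ 221 / 220 * Dt T e'.th q w := by
    have b1 := h.fea.RR_le w
    have b2 := mul_le_mul_of_nonneg_right hη hD
    exact max_le (by linarith) (by linarith)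
  have p0 : 0 ≤ ∑ c ∈ T.ch w, |pi T e' c - pi T e c| := sum_nonneg fun _ _ => abs_nonneg _
  have a1 := mul_le_mul_of_nonneg_right a0 p0
  have a2 : ∑ c ∈ T.ch w, (co T e' c - co T e c) * DD (e'.th w) (q c)
      = ∑ c ∈ side T e'.y w, (t1 T e' c * Dt T e'.th q w - t2 T e' c * DD (e'.th w) (q c))
        - ∑ c ∈ side T e.y w, (t1 T e c * Dt T e'.th q w - t2 T e c * DD (e'.th w) (q c)) := by
    simp only [sub_mul]
    rw [sum_sub_distrib, co_sum e' w, co_sum e w]
    rfl
  have p1 : 0 ≤ (if res w then GG (q w) else 0) := by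
    split_ifs
    · exact GG_nonneg _
    · exact le_rfl
  have p2 : 0 ≤ ∑ c ∈ T.ch w, (if trig e q c then GG (q c) + sz e.y c else 0) := by
    refine sum_nonneg fun c _ => ?_
    split_ifs
    · exact add_nonneg (GG_nonneg _) (gt_nonneg _)
    · exact le_rfl
  rw [a2]
  by_cases hs : side T e'.y w = side T e.y w
  · have b1 := mul_le_mul_of_nonneg_left (pi_same h hs) hD
    have b2 : ∑ c ∈ side T e.y w, (442 / 100 * (Dt T e'.th q w * |ph T e' c - ph T e c|)
        + (t1 T e' c * Dt T e'.th q w - t2 T e' c * DD (e'.th w) (q c))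
        - (t1 T e c * Dt T e'.th q w - t2 T e c * DD (e'.th w) (q c)))
        ≤ ∑ c ∈ side T e.y w, (9 * L0 k + 43) * (if res c then GG (q c) else 0) := by
      refine sum_le_sum fun c hc => ?_
      exact child_side h1 h2 h (mem_side.mp hc).1 (mem_side.mp hc).2 (mem_side.mp (hs ▸ hc)).2
    have b3 : ∑ c ∈ side T e.y w, (9 * L0 k + 43) * (if res c then GG (q c) else 0)
        ≤ ∑ c ∈ T.ch w, (9 * L0 k + 43) * (if res c then GG (q c) else 0) := by
      refine sum_le_sum_of_subset_of_nonneg (fun c hc => (mem_side.mp hc).1) fun c _ _ => ?_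
      refine mul_nonneg (by unfold L0; positivity) ?_
      split_ifs
      · exact GG_nonneg _
      · exact le_rfl
    rw [sum_sub_distrib, sum_add_distrib, ← mul_sum, ← mul_sum] at b2
    rw [← mul_sum (s := T.ch w)] at b3
    rw [hs]
    linarith
  · have b1 := mul_le_mul_of_nonneg_left (pi_any h w) hD
    have b2 := sum_le_sum fun c (hc : c ∈ T.ch w) => child_gen h1 h2 h hc
    have s1 : ∀ y : N → Fin k → ℝ, (T.ch w).filter (fun c => ¬ core T y c) = side T y w := by
      intro y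
      ext c
      rw [mem_side, mem_filter]
    rw [sum_sub_distrib, ← sum_filter, ← sum_filter, s1, s1, ← mul_sum] at b2
    have b3 := Dt_le h1 h w
    have b4 := GG_nonneg (q w)
    by_cases hw : res w
    · rw [if_pos hw]
      linarith
    · have b5 := changed h hs hw
      linarith

end Vale.Agent.P304Z.H
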