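import Vale.Agent.P304Z.H0

/-!
# P304Z, layer H: assembly of the tree engine
-/

open Finset

set_option linter.unusedSectionVars false

namespace Vale.Agent.P304Z.H

namespace H6

variable {N : Type} [Fintype N] [DecidableEq N] {k : ℕ} (T : Tr N)

theorem mem_ch {w c : N} : c ∈ T.ch w ↔ c ≠ T.root ∧ T.par c = w := by
  simp [Tr.ch]

/-- regrouping a sum over the nodes by their parents -/
theorem regroup (f : N → ℝ) :
    ∑ c ∈ univ.erase T.root, T.rho (T.dep c) * f c =
      ∑ w, T.rho (T.dep w + 1) * ∑ c ∈ T.ch w, f c := by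
  rw [← Finset.sum_fiberwise (s := univ.erase T.root) (g := T.par)]
  refine Finset.sum_congr rfl fun w _ => ?_
  rw [Finset.mul_sum]
  refine Finset.sum_congr ?_ fun c hc => ?_
  · ext c
    simp [Tr.ch]
  · obtain ⟨h1, h2⟩ := (mem_ch T).1 hc
    rw [T.dep_par c h1, h2]

theorem sum_erase_of_zero (f : N → ℝ) (h : f T.root = 0) :
    ∑ c ∈ univ.erase T.root, T.rho (T.dep c) * f c = ∑ c, T.rho (T.dep c) * f c :=
  Finset.sum_erase _ (by rw [h, mul_zero])

theorem sum_half (f : N → ℝ) :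
    ∑ w, T.rho (T.dep w + 1) * f w = (∑ w, T.rho (T.dep w) * f w) / 2 := by
  rw [Finset.sum_div]
  refine Finset.sum_congr rfl fun w _ => ?_
  rw [T.rho_half (T.dep w)]
  ring

theorem GG_nonneg (q : Fin k → ℝ) : 0 ≤ GG q := Finset.sum_nonneg fun _ _ => sq_nonneg _

theorem sz_nonneg (y : N → Fin k → ℝ) (v : N) : 0 ≤ sz y v := by
  unfold sz gt
  split_ifs
  · exact GG_nonneg _
  · exact le_rfl

theorem log_nonneg (hk : 1 ≤ k) : 0 ≤ Real.log k := Real.log_nonneg (by exact_mod_cast hk)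

theorem four_le_Lam (hk : 1 ≤ k) : 4 ≤ Lam k := by
  unfold Lam
  linarith [log_nonneg hk]

theorem sum_gg (x y q : Fin k → ℝ) (a θ : ℝ) :
    ∑ j, gg k (x j) (y j) a θ (q j) =
      W0 k * ∑ j, q j * (1 - q j) + W1 k * VV q x + W2 k * VV q y + a * DD θ q := by
  simp only [gg, VV, DD, Finset.mul_sum, Finset.sum_add_distrib]

/-! ### the initial state -/

variable (k) in
/-- all ranks at the root -/
def q00 : N → Fin k → ℝ := fun v _ => if v = T.root then 1 else 0

variable (k) in
/-- the initial state -/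
noncomputable def st0 : HS N k where
  x := fun _ _ => 0
  y := q00 k T
  rh := fun _ => 0
  th := fun _ => 3 / 2
  mu := fun v => if v = T.root then k else 0

theorem q00_ne {c : N} (hc : c ≠ T.root) : q00 k T c = fun _ => 0 := funext fun _ => if_neg hc

theorem q00_root : q00 k T T.root = fun _ => 1 := funext fun _ => if_pos rfl

theorem q00_box : q00 k T ∈ Box N k := fun v j => by
  unfold q00
  split_ifs <;> norm_num

theorem adm_q00 : Adm T (q00 k T) where
  box := q00_box T
  root := fun _ => if_pos rfl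
  sa := fun w t ht => by
    refine le_of_eq_of_le (Finset.sum_eq_zero fun c hc => ?_)
      (Finset.sum_nonneg fun _ _ => sq_nonneg _)
    rw [q00_ne T ((mem_ch T).1 hc).1]
    refine Finset.sum_eq_zero fun j _ => ?_
    rw [max_eq_right (by linarith)]
    norm_num
  sa1 := fun w => by
    refine le_of_eq_of_le (Finset.sum_eq_zero fun c hc => ?_)
      (Finset.sum_nonneg fun j _ => (q00_box T w j).1)
    rw [q00_ne T ((mem_ch T).1 hc).1]
    simp

theorem sz_q00 {c : N} (hc : c ≠ T.root) : sz (q00 k T) c = 0 := by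
  unfold sz gt
  rw [q00_ne T hc]
  simp [GG]

theorem ep_q00 {c : N} (hc : c ≠ T.root) : ep T (q00 k T) c = 0 := by
  unfold ep
  rw [sz_q00 T hc]
  simp

theorem not_core_q00 (c : N) : ¬ core T (q00 k T) c := by
  rintro ⟨h1, h2⟩
  rw [sz_q00 T h1] at h2
  linarith [sz_nonneg (q00 k T) (T.par c)]

theorem uu_three_half : uu (3 / 2) = 0 := by
  unfold uu
  norm_num

theorem DD_zero : DD (3 / 2) (fun _ : Fin k => (0 : ℝ)) = 0 := by
  simp [DD, be, uu_three_half]

theorem KK_zero : KK (3 / 2) (fun _ : Fin k => (0 : ℝ)) = 0 := by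
  simp [KK, ka, ff, be, uu_three_half]

theorem bal_st0 (hk : 1 ≤ k) : Bal T (st0 k T) (q00 k T) where
  sz :=
    { ybox := q00_box T
      yroot := fun _ => if_pos rfl
      size := fun v => by
        change szOK (sz (q00 k T) v) (GG (q00 k T v))
        by_cases hv : v = T.root
        · have hk' : (1 : ℝ) ≤ k := by exact_mod_cast hk
          have h1 : GG (q00 k T v) = k := by rw [hv, q00_root]; simp [GG]
          have h2 : sz (q00 k T) v = k := by
            unfold sz gt
            rw [h1, if_pos (by linarith)]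
          rw [h1, h2]
          exact Or.inr ⟨by linarith, by linarith, by linarith⟩
        · rw [sz_q00 T hv, q00_ne T hv]
          exact Or.inl ⟨rfl, by simp [GG]⟩
      par := fun c hc _ => sz_q00 T hc
      throot := rfl
      thstep := fun c hc => by
        change (3 / 2 : ℝ) = 3 / 2 + 2 * inc T (q00 k T) c
        unfold inc
        rw [if_neg (not_core_q00 T c), ep_q00 T hc]
        ring }
  xbox := fun _ _ => ⟨le_rfl, zero_le_one⟩
  xref := fun c hc => by
    change VV (q00 k T c) (fun _ => 0) ≤ eta k ^ 2 / 96 * DD (3 / 2) (q00 k T c)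
    rw [q00_ne T hc, DD_zero]
    simp [VV]
  rh01 := fun _ => ⟨le_rfl, zero_le_one⟩
  track := fun c hc _ => by
    change |0 - DD (3 / 2) (q00 k T c) / _| ≤ (ep T (q00 k T) c * 0 + dl T (q00 k T) c) / 16
    unfold dl
    rw [q00_ne T hc, DD_zero, sz_q00 T hc]
    simp
  muroot := if_pos rfl
  mustep := fun c hc => by
    have hb : ∀ c, bb T (st0 k T) c = 0 := fun _ => KK_zero
    have hR : RR T (st0 k T) (T.par c) ≤ 0 := by
      unfold RR
      simp only [hb, Finset.sum_const_zero, zero_sub, neg_nonpos]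
      change 0 ≤ (if T.par c = T.root then (k : ℝ) else 0)
      split_ifs
      · exact Nat.cast_nonneg k
      · exact le_rfl
    rw [hb, max_eq_right hR, zero_mul, sub_zero]
    exact if_neg hc

open Classical in
theorem co_st0 {c : N} (hc : c ≠ T.root) : co T (st0 k T) c = 0 := by
  unfold co
  have h1 : ∑ c' ∈ side T (st0 k T).y (T.par c), t1 T (st0 k T) c' = 0 := by
    refine Finset.sum_eq_zero fun c' hc' => ?_
    have h2 : c' ≠ T.root := by
      unfold side at hc'
      exact ((mem_ch T).1 (Finset.mem_of_mem_filter _ hc')).1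
    unfold t1
    change 400 / ep T (q00 k T) c' * _ = 0
    rw [ep_q00 T h2]
    simp
  have h3 : t2 T (st0 k T) c = 0 := by
    unfold t2
    change 400 / ep T (q00 k T) c * _ = 0
    rw [ep_q00 T hc]
    simp
  rw [h1, h3]
  simp

theorem mass_le {q : N → Fin k → ℝ} (hq : Adm T q) :
    ∑ c ∈ univ.erase T.root, T.rho (T.dep c) * ∑ j, q c j ≤ k * T.rho 0 := by
  have h1 := regroup T fun c => ∑ j, q c j
  have h2 : ∑ w, T.rho (T.dep w + 1) * ∑ c ∈ T.ch w, ∑ j, q c j ≤
      ∑ w, T.rho (T.dep w + 1) * ∑ j, q w j :=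
    Finset.sum_le_sum fun w _ => mul_le_mul_of_nonneg_left (hq.sa1 w) (T.rho_pos _).le
  have h3 := sum_half T fun w => ∑ j, q w j
  have h4 := Finset.add_sum_erase univ (fun w => T.rho (T.dep w) * ∑ j, q w j) (mem_univ T.root)
  have h5 : ∑ j, q T.root j = k := by simp [hq.root]
  simp only [h5, T.dep_root] at h4
  linarith

theorem Phi_st0 (hk : 1 ≤ k) {q : N → Fin k → ℝ} (hq : Adm T q) :
    Phi T (st0 k T) q ≤ 10000000000 * Lam k * (k * T.rho 0) := by
  have hL := four_le_Lam hk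
  refine le_trans ?_ (mul_le_mul_of_nonneg_left (mass_le T hq) (by linarith))
  rw [Finset.mul_sum]
  refine Finset.sum_le_sum fun c hc => ?_
  have hc' := (Finset.mem_erase.1 hc).1
  rw [mul_left_comm]
  refine mul_le_mul_of_nonneg_left ?_ (T.rho_pos _).le
  rw [Finset.mul_sum]
  refine Finset.sum_le_sum fun j _ => ?_
  rw [co_st0 T hc']
  change gg k 0 (q00 k T c j) 0 _ _ ≤ _
  rw [q00_ne T hc']
  obtain ⟨a1, a2⟩ := hq.box c j
  unfold gg W0 W1 W2
  have b1 : q c j * (1 - q c j) ≤ q c j := by nlinarith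
  have b2 : (q c j - 0) ^ 2 ≤ q c j := by nlinarith
  nlinarith [mul_le_mul_of_nonneg_left b1 (show 0 ≤ Lam k by linarith),
    mul_le_mul_of_nonneg_left b2 (show 0 ≤ Lam k by linarith),
    mul_nonneg (show 0 ≤ Lam k by linarith) a1]

theorem box_convex : Convex ℝ (Box N k) := by
  intro q hq q' hq' a b ha hb hab v j
  obtain ⟨a1, a2⟩ := hq v j
  obtain ⟨b1, b2⟩ := hq' v j
  simp only [Pi.add_apply, Pi.smul_apply, smul_eq_mul]
  constructor <;> nlinarith

/-! ### one step -/

open Classical in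
theorem step_le (hB : StB) (hPi : StPi) (hZ : StZ) (hM : StM) {e e' : HS N k}
    {q0 q : N → Fin k → ℝ} {res : N → Prop} (hc : Ctx T e q0 q e' res) :
    tmv T e.mu e'.mu + Phi T e' q ≤ Phi T e q := by
  have hL := four_le_Lam hc.hk
  obtain ⟨z1, z2, z3, z4⟩ := hZ N k T e e' q0 q res hc
  set rG : N → ℝ := fun v => if res v then GG (q v) else 0 with hrG
  set tG : N → ℝ := fun v => if trig e q v then GG (q v) + sz e.y v else 0 with htG
  set U : ℝ := ∑ v, T.rho (T.dep v) * tG v with hU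
  have hU0 : 0 ≤ U := Finset.sum_nonneg fun v _ => mul_nonneg (T.rho_pos _).le (by
    simp only [htG]
    split_ifs
    · exact add_nonneg (GG_nonneg _) (sz_nonneg _ _)
    · exact le_rfl)
  have r0 : rG T.root = 0 := if_neg z1
  have t0 : tG T.root = 0 := if_neg fun h => z1 ((hc.nxt.res_iff _).2 (Or.inl h))
  have s1 : ∑ w, T.rho (T.dep w + 1) * ∑ c ∈ T.ch w, rG c ≤ 2 * U := by
    rw [← regroup, sum_erase_of_zero T rG r0]
    exact z2
  have s2 : ∑ w, T.rho (T.dep w + 1) * rG w ≤ U := by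
    rw [sum_half]
    linarith
  have s3 : ∑ w, T.rho (T.dep w + 1) * ∑ c ∈ T.ch w, tG c = U := by
    rw [← regroup, sum_erase_of_zero T tG t0]
  have eP : ∀ f : HS N k, Phi T f q = ∑ w, T.rho (T.dep w + 1) * ∑ c ∈ T.ch w,
      (W0 k * ∑ j, q c j * (1 - q c j) + W1 k * VV (q c) (f.x c) + W2 k * VV (q c) (f.y c) +
        co T f c * DD (f.th w) (q c)) := fun f => by
    unfold Phi
    rw [regroup]
    refine Finset.sum_congr rfl fun w _ => congrArg _ (Finset.sum_congr rfl fun c hc => ?_)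
    rw [sum_gg, ((mem_ch T).1 hc).2]
  have key : ∀ w, (44 / 10 * ∑ c ∈ T.ch w, |bb T e' c - bb T e c| +
      22 / 10 * (max (RR T e' w) 0 * ∑ c ∈ T.ch w, |pi T e' c - pi T e c|)) +
      ∑ c ∈ T.ch w, (W0 k * ∑ j, q c j * (1 - q c j) + W1 k * VV (q c) (e'.x c) +
        W2 k * VV (q c) (e'.y c) + co T e' c * DD (e'.th w) (q c)) ≤
      ∑ c ∈ T.ch w, (W0 k * ∑ j, q c j * (1 - q c j) + W1 k * VV (q c) (e.x c) +
        W2 k * VV (q c) (e.y c) + co T e c * DD (e.th w) (q c)) +
      ((160 + 12 * L0 k) * (|e'.th w - e.th w| * GG (q w)) +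
        (9 * L0 k + 43) * ∑ c ∈ T.ch w, rG c + 43 * rG w +
        (71 - W2 k / 1000) * ∑ c ∈ T.ch w, tG c) := fun w => by
    have b1 := hB N k T e e' q0 q res hc w
    have b2 := hPi N k T e e' q0 q res hc w
    have b3 : W2 k / 1000 * ∑ c ∈ T.ch w, tG c ≤
        W2 k * ∑ c ∈ T.ch w, (VV (q c) (e.y c) - VV (q c) (e'.y c)) := by
      rw [Finset.mul_sum, Finset.mul_sum]
      refine Finset.sum_le_sum fun c _ => ?_
      have hW : 0 ≤ W2 k / 1000 := by unfold W2; linarith
      have := mul_le_mul_of_nonneg_left (z4 c) hW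
      linarith
    simp only [Finset.sum_add_distrib, Finset.sum_sub_distrib, ← Finset.mul_sum, mul_sub,
      sub_mul] at b1 b2 b3 ⊢
    linarith
  have tot := Finset.sum_le_sum fun w (_ : w ∈ (univ : Finset N)) =>
    mul_le_mul_of_nonneg_left (key w) (T.rho_pos (T.dep w + 1)).le
  have m1 := hM N k T e e' q0 q res hc
  rw [eP e, eP e']
  have split : ∑ w, T.rho (T.dep w + 1) *
      ((160 + 12 * L0 k) * (|e'.th w - e.th w| * GG (q w)) +
        (9 * L0 k + 43) * ∑ c ∈ T.ch w, rG c + 43 * rG w +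
        (71 - W2 k / 1000) * ∑ c ∈ T.ch w, tG c) =
      (160 + 12 * L0 k) * ∑ w, T.rho (T.dep w + 1) * (|e'.th w - e.th w| * GG (q w)) +
        (9 * L0 k + 43) * ∑ w, T.rho (T.dep w + 1) * ∑ c ∈ T.ch w, rG c +
        43 * ∑ w, T.rho (T.dep w + 1) * rG w +
        (71 - W2 k / 1000) * ∑ w, T.rho (T.dep w + 1) * ∑ c ∈ T.ch w, tG c := by
    rw [Finset.mul_sum, Finset.mul_sum, Finset.mul_sum, Finset.mul_sum, ← Finset.sum_add_distrib,
      ← Finset.sum_add_distrib, ← Finset.sum_add_distrib]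
    exact Finset.sum_congr rfl fun w _ => by ring
  simp only [mul_add (T.rho _), Finset.sum_add_distrib (s := (univ : Finset N))] at tot m1 split
  have hL0 : 0 ≤ L0 k := by unfold L0; linarith
  have f1 := mul_le_mul_of_nonneg_left z3 (show 0 ≤ 160 + 12 * L0 k by linarith)
  have f2 := mul_le_mul_of_nonneg_left s1 (show 0 ≤ 9 * L0 k + 43 by linarith)
  have f3 : (160 + 12 * L0 k) * U + (9 * L0 k + 43) * (2 * U) + 43 * U +
      (71 - W2 k / 1000) * U ≤ 0 := by
    unfold L0 W2
    nlinarith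
  rw [s3] at split
  linarith

end H6

open H6 in
theorem stH (_h1 : S1) (h2 : S2) (_hP : StPar) (hS : StStr) (hF : StFea) (hN : StNxt) (hB : StB)
    (hPi : StPi) (hZ : StZ) (hM : StM) : StH := by
  refine ⟨40000000000, by norm_num, fun N _ _ T k hk => ?_⟩
  have hlog := log_nonneg hk
  have hL := four_le_Lam hk
  have hLam : 10000000000 * Lam k ≤ 40000000000 * (1 + Real.log k) := by
    unfold Lam
    linarith
  have hstr : ∀ e : {e : HS N k // ∃ q, Adm T q ∧ Bal T e q}, ∃ q, Adm T q ∧ Bal T e.1 q ∧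
      Str T e.1 q := fun e => by
    obtain ⟨q, a, b⟩ := e.2
    exact ⟨q, a, b, hS N k T e.1 q hk a b⟩
  refine ⟨
    { S := {e : HS N k // ∃ q, Adm T q ∧ Bal T e q}
      mu := fun e => e.1.mu
      Φ := fun e => Phi T e.1
      Bal := fun e q => Bal T e.1 q
      e0 := ⟨st0 k T, q00 k T, adm_q00 T, bal_st0 T hk⟩
      flow := fun e => ?_
      mu_e0 := fun v hv => if_neg hv
      Φ_e0 := fun q hq => ?_
      Φ_nonneg := fun e q hq => ?_
      concave := fun e => ?_
      lip := fun e q q' hq hq' => ?_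
      step := fun e q hq => ?_
      mass := fun e q hq hb => (hF N k T e.1 q hk hq hb (hS N k T e.1 q hk hq hb)).mass
      cover := fun e q hq hb v j hj => ?_ }⟩
  · obtain ⟨q, a, b, c⟩ := hstr e
    exact (hF N k T e.1 q hk a b c).flow
  · refine (Phi_st0 T hk hq).trans ?_
    rw [mul_assoc (40000000000 * (1 + Real.log k))]
    exact mul_le_mul_of_nonneg_right hLam (mul_nonneg (Nat.cast_nonneg k) (T.rho_pos 0).le)
  · obtain ⟨q0, -, -, c⟩ := hstr e
    refine Finset.sum_nonneg fun v hv => mul_nonneg (T.rho_pos _).le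
      (Finset.sum_nonneg fun j _ => ?_)
    exact h2.gg_nonneg k _ _ _ _ _ hk (c.co_le v (Finset.mem_erase.1 hv).1) (c.par.th_lo _)
      (c.par.th_hi _) (hq v j).1 (hq v j).2
  · obtain ⟨q0, -, -, c⟩ := hstr e
    refine ⟨box_convex, fun q hq q' hq' a b ha hb hab => ?_⟩
    simp only [smul_eq_mul]
    unfold Phi
    rw [Finset.mul_sum, Finset.mul_sum, ← Finset.sum_add_distrib]
    refine Finset.sum_le_sum fun v hv => ?_
    rw [mul_left_comm a, mul_left_comm b, ← mul_add]
    refine mul_le_mul_of_nonneg_left ?_ (T.rho_pos _).le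
    rw [Finset.mul_sum, Finset.mul_sum, ← Finset.sum_add_distrib]
    refine Finset.sum_le_sum fun j _ => ?_
    exact (h2.gg_concave k _ _ _ _ hk (c.co_le v (Finset.mem_erase.1 hv).1) (c.par.th_lo _)
      (c.par.th_hi _)).2 (hq v j) (hq' v j) ha hb hab
  · obtain ⟨q0, -, b, c⟩ := hstr e
    have a1 : Phi T e.1 q' ≤ Phi T e.1 q + 5000000000 * Lam k *
        ∑ v ∈ univ.erase T.root, T.rho (T.dep v) * ∑ j, |q' v j - q v j| := by
      unfold Phi
      rw [Finset.mul_sum, ← Finset.sum_add_distrib]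
      refine Finset.sum_le_sum fun v hv => ?_
      rw [mul_left_comm, ← mul_add]
      refine mul_le_mul_of_nonneg_left ?_ (T.rho_pos _).le
      rw [Finset.mul_sum, ← Finset.sum_add_distrib]
      refine Finset.sum_le_sum fun j _ => ?_
      exact h2.gg_lip k _ _ _ _ _ _ hk (c.co_le v (Finset.mem_erase.1 hv).1) (c.par.th_lo _)
        (c.par.th_hi _) (b.xbox v j).1 (b.xbox v j).2 (b.sz.ybox v j).1 (b.sz.ybox v j).2
        (hq v j).1 (hq v j).2 (hq' v j).1 (hq' v j).2
    have hnn : ∀ v, 0 ≤ T.rho (T.dep v) * ∑ j, |q' v j - q v j| := fun v =>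
      mul_nonneg (T.rho_pos _).le (Finset.sum_nonneg fun _ _ => abs_nonneg _)
    have a2 : ∑ v ∈ univ.erase T.root, T.rho (T.dep v) * ∑ j, |q' v j - q v j| ≤ qd T q q' :=
      Finset.sum_le_sum_of_subset_of_nonneg (Finset.erase_subset _ _) fun v _ _ => hnn v
    have a3 : 0 ≤ qd T q q' := Finset.sum_nonneg fun v _ => hnn v
    have a4 := mul_le_mul_of_nonneg_left a2 (show 0 ≤ 5000000000 * Lam k by linarith)
    have a5 := mul_le_mul_of_nonneg_right
      (show 5000000000 * Lam k ≤ 40000000000 * (1 + Real.log k) by linarith) a3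
    linarith
  · obtain ⟨q0, a, b, c⟩ := hstr e
    obtain ⟨e', res, hn, hb⟩ := hN N k T e.1 q0 q hk a b hq
    have s := hS N k T e' q hk hq hb
    exact ⟨⟨e', q, hq, hb⟩, hb, step_le T hB hPi hZ hM
      ⟨hk, a, hq, b, hb, c, s, hF N k T e' q hk hq hb s, hn⟩⟩
  · refine le_trans ?_ ((hF N k T e.1 q hk hq hb (hS N k T e.1 q hk hq hb)).need v)
    have a1 : ff (e.1.th v * (1 - q v j)) = 1 := by
      rw [hj]
      simp [ff, uu]
    rw [← a1]
    exact Finset.single_le_sum (f := fun j => ff (e.1.th v * (1 - q v j)))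
      (fun _ _ => sq_nonneg _) (mem_univ j)

end Vale.Agent.P304Z.H
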