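import Vale.Agent.P304Z.RR.Tree

/-! Rounding on a tree and physical realisation. -/

open Finset

namespace Vale.Agent.P304Z

open Vale.Agent.P304

namespace RR

section Push

variable {ι α γ : Type} [Fintype ι] [DecidableEq α]

/-- image of a weight function -/
noncomputable def pf (f : ι → α) (w : ι → ℝ) (a : α) : ℝ := ∑ i, if f i = a then w i else 0

theorem sum_pf [Fintype α] (f : ι → α) (w : ι → ℝ) (h : α → ℝ) :
    ∑ a, pf f w a * h a = ∑ i, w i * h (f i) := by
  simp only [pf, sum_mul, ite_mul, zero_mul]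
  rw [sum_comm]
  exact sum_congr rfl fun i _ => by simp

theorem pf_nonneg (f : ι → α) {w : ι → ℝ} (hw : ∀ i, 0 ≤ w i) (a : α) : 0 ≤ pf f w a :=
  sum_nonneg fun i _ => by split_ifs <;> simp [hw]

theorem le_pf (f : ι → α) {w : ι → ℝ} (hw : ∀ i, 0 ≤ w i) (i : ι) : w i ≤ pf f w (f i) := by
  have := single_le_sum (f := fun j => if f j = f i then w j else 0) (s := univ)
    (fun j _ => by split_ifs <;> simp [hw]) (mem_univ i)
  simpa [pf] using this

theorem pf_pf [Fintype α] [DecidableEq γ] (f : ι → α) (g : α → γ) (w : ι → ℝ) :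
    pf g (pf f w) = pf (fun i => g (f i)) w := by
  funext c
  have := sum_pf f w fun a => if g a = c then 1 else 0
  simpa [pf] using this

theorem pf_congr {f g : ι → α} {w : ι → ℝ} (h : ∀ i, w i ≠ 0 → f i = g i) : pf f w = pf g w := by
  funext a
  refine sum_congr rfl fun i _ => ?_
  by_cases hi : w i = 0
  · simp [hi]
  · rw [h i hi]

end Push

theorem cpl_of {X ι : Type} [MetricSpace X] [Fintype X] [DecidableEq X] [Fintype ι] {k : ℕ}
    (f g : ι → Fin k → X) {w : ι → ℝ} (hw : ∀ i, 0 ≤ w i) {c : ℝ}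
    (hc : ∑ i, w i * mdist (f i) (g i) ≤ c) : Cpl (pf f w) (pf g w) c := by
  refine ⟨fun a b => pf (fun i => (f i, g i)) w (a, b), fun a b => pf_nonneg _ hw _,
    fun a => ?_, fun b => ?_, ?_⟩
  · simp only [pf]
    rw [sum_comm]
    exact sum_congr rfl fun i _ => by by_cases h : f i = a <;> simp [h]
  · simp only [pf]
    rw [sum_comm]
    exact sum_congr rfl fun i _ => by by_cases h : g i = b <;> simp [h]
  · have := sum_pf (fun i => (f i, g i)) w fun p => mdist p.1 p.2
    rw [Fintype.sum_prod_type] at this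
    exact this.trans_le hc

section Ultra

variable {N : Type} [Fintype N] [DecidableEq N] (H : HST.Hier N)

theorem ex_lev (x y : N) : ∃ l, y ∈ H.cl l x := ⟨H.D, by rw [H.cl_top]; exact mem_univ _⟩

/-- the least level of a common cluster -/
def lev (x y : N) : ℕ := Nat.find (ex_lev H x y)

theorem mem_lev (x y : N) : y ∈ H.cl (lev H x y) x := Nat.find_spec (ex_lev H x y)

theorem lev_le {x y : N} {l : ℕ} (h : y ∈ H.cl l x) : lev H x y ≤ l := Nat.find_min' _ h

/-- the ultrametric of the clustering -/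
noncomputable def td (x y : N) : ℝ := 2 * ∑ j ∈ range (lev H x y), H.rho j

theorem sum_mono {a b : ℕ} (h : a ≤ b) : ∑ j ∈ range a, H.rho j ≤ ∑ j ∈ range b, H.rho j :=
  sum_le_sum_of_subset_of_nonneg (range_mono h) fun j _ _ => (H.rho_pos j).le

theorem td_nonneg (x y : N) : 0 ≤ td H x y :=
  mul_nonneg zero_le_two (sum_nonneg fun j _ => (H.rho_pos j).le)

theorem lev_pos {x y : N} (h : x ≠ y) : 0 < lev H x y := by
  by_contra h0
  have h1 := mem_lev H x y
  rw [show lev H x y = 0 by omega, H.cl_zero, mem_singleton] at h1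
  exact h h1.symm

theorem le_td {x y : N} (h : x ≠ y) : 2 * H.rho (lev H x y - 1) ≤ td H x y := by
  have := lev_pos H h
  refine mul_le_mul_of_nonneg_left ?_ zero_le_two
  exact single_le_sum (f := H.rho) (fun j _ => (H.rho_pos j).le) (mem_range.2 (by omega))

/-- the ultrametric as a metric space structure -/
@[reducible] noncomputable def ultra : MetricSpace N where
  dist := td H
  dist_self x := by
    have : lev H x x = 0 := Nat.le_zero.1 (lev_le H (H.mem_self 0 x))
    simp [td, this]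
  dist_comm x y := by
    have : lev H x y = lev H y x :=
      le_antisymm (lev_le H (HST.mem_cl_symm H (mem_lev H y x)))
        (lev_le H (HST.mem_cl_symm H (mem_lev H x y)))
    simp only [td, this]
  dist_triangle x y z := by
    have h1 := td_nonneg H x y
    have h2 := td_nonneg H y z
    rcases le_total (lev H x y) (lev H y z) with h | h
    · have h3 : y ∈ H.cl (lev H y z) x := HST.cl_mono H h x (mem_lev H x y)
      have h4 : z ∈ H.cl (lev H y z) x := by
        rw [← H.eq_of_mem _ _ _ h3]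
        exact mem_lev H y z
      have := sum_mono H (lev_le H h4)
      simp only [td] at h1 ⊢
      linarith
    · have h4 : z ∈ H.cl (lev H x y) x := by
        rw [← H.eq_of_mem _ _ _ (mem_lev H x y)]
        exact HST.cl_mono H h y (mem_lev H y z)
      have := sum_mono H (lev_le H h4)
      simp only [td] at h2 ⊢
      linarith
  eq_of_dist_eq_zero {x y} h := by
    by_contra hne
    have h1 := le_td H hne
    have h2 := H.rho_pos (lev H x y - 1)
    linarith

theorem exists_mt {k : ℕ} (p : Fin k → N) (n : N → ℕ) :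
    ∃ q : Fin k → N, ∑ x, n x = k → HST.cnt q = n ∧
      ∑ j, td H (p j) (q j) ≤ H.tn (fun x => (HST.cnt p x : ℝ)) (fun x => (n x : ℝ)) := by
  by_cases hn : ∑ x, n x = k
  · let _ := ultra H
    obtain ⟨q, hq⟩ := HST.exists_match H
      (fun l x y h => mul_le_mul_of_nonneg_left (sum_mono H (lev_le H h)) zero_le_two) p n hn
    exact ⟨q, fun _ => hq⟩
  · exact ⟨p, fun h => absurd h hn⟩

/-- occupation numbers -/
def cf {k : ℕ} (Y : Fin k → N) (x : N) : Fin (k + 2) :=
  ⟨HST.cnt Y x, lt_of_le_of_lt (card_le_univ _) (by simp)⟩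

omit [Fintype N] in
theorem vec_cf {k : ℕ} (Y : Fin k → N) : HST.vec (cf Y) = fun x => (HST.cnt Y x : ℝ) := rfl

omit [Fintype N] in
theorem cnt_pos {k : ℕ} (Y : Fin k → N) (i : Fin k) : 1 ≤ HST.cnt Y (Y i) :=
  card_pos.2 ⟨i, by simp⟩

theorem sum_cnt_mul {k : ℕ} (Y : Fin k → N) (f : N → ℝ) :
    ∑ v, (HST.cnt Y v : ℝ) * f v = ∑ i, f (Y i) := by
  have := sum_pf Y (fun _ => (1 : ℝ)) f
  simp only [one_mul] at this
  rw [← this]
  refine sum_congr rfl fun v _ => ?_
  simp [pf, HST.cnt]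

variable {H}

theorem pos_of_bal {k : ℕ} {z : N → ℝ} {μ : (N → Fin (k + 2)) → ℝ} (h : HST.Bal H k z μ)
    {A : N → Fin (k + 2)} (hA : μ A ≠ 0) {x : N} (hx : 1 ≤ (A x : ℕ)) : 0 < z x := by
  rw [← h.mean x]
  have h1 : 0 < μ A := lt_of_le_of_ne (h.nonneg A) hA.symm
  have h2 : (0 : ℝ) < ((A x : ℕ) : ℝ) := by exact_mod_cast hx
  exact (mul_pos h1 h2).trans_le (single_le_sum (f := fun A => μ A * ((A x : ℕ) : ℝ))
    (fun B _ => mul_nonneg (h.nonneg B) (Nat.cast_nonneg _)) (mem_univ A))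

end Ultra

variable {N : Type} [Fintype N] [DecidableEq N] {T : Tr N} {k : ℕ}
  {X : Type} [MetricSpace X]

theorem phys {mu mu' : N → ℝ} (h : Flow T k mu) (h' : Flow T k mu') {loc loc' : N → X} {K : ℝ}
    (hK : 0 ≤ K)
    (hl : ∀ v, v ≠ T.root → 0 < mu v → dist (loc v) (loc (T.par v)) ≤ K * T.rho (T.dep v))
    (hl' : ∀ v, v ≠ T.root → 0 < mu' v → dist (loc' v) (loc' (T.par v)) ≤ K * T.rho (T.dep v))
    (hm : ∀ v, 0 < mu v → 0 < mu' v → dist (loc v) (loc' v) ≤ K * T.rho (T.dep v + 1))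
    {y y' : N} (hy : 0 < mu y) (hy' : 0 < mu' y') (hne : y ≠ y') :
    dist (loc y) (loc' y') ≤ 5 / 2 * K * td (hier T) y y' := by
  have hL := lev_pos (hier T) hne
  have hD : lev (hier T) y y' ≤ top T :=
    lev_le (hier T) (l := (hier T).D) (by rw [(hier T).cl_top]; exact mem_univ _)
  have h1 := le_td (hier T) hne
  have hmem : y' ∈ clu T (top T - lev (hier T) y y') y := mem_lev (hier T) y y'
  set L := lev (hier T) y y'
  have h2 : (hier T).rho (L - 1) = T.rho (top T - L + 1) := by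
    simp only [hier]
    rw [rho_eq T _ _ (by omega), show top T - (L - 1) = top T - L + 1 by omega]
  rcases (mem_clu T).1 hmem with h3 | ⟨h3, h4, h5⟩
  · exact absurd h3.symm hne
  obtain ⟨a1, a2⟩ := chain_anc h hK hl hy h3
  obtain ⟨b1, b2⟩ := chain_anc h' hK hl' hy' h4
  rw [h5] at b1 b2
  have c := hm _ a1 b1
  rw [dep_anc T h3] at c
  have d := dist_triangle4 (loc y) (loc (anc T (top T - L) y)) (loc' (anc T (top T - L) y))
    (loc' y')
  rw [dist_comm] at b2
  rw [T.rho_half] at a2 b2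
  rw [h2] at h1
  nlinarith

/-- balanced laws -/
def RB (T : Tr N) (k : ℕ) (mu : N → ℝ) (ν : (Fin k → N) → ℝ) : Prop :=
  ν ∈ stdSimplex ℝ (Fin k → N) ∧ HST.Bal (hier T) k (park T mu) (pf cf ν)

theorem init (mu : N → ℝ) (h0 : mu T.root = k) (h1 : ∀ v, v ≠ T.root → mu v = 0) :
    ∃ ν, RB T k mu ν := by
  set Y : Fin k → N := fun _ => T.root with hY
  have hp : park T mu = fun x => (HST.cnt Y x : ℝ) := by
    funext x
    have : ∑ c ∈ T.ch x, mu c = 0 := sum_eq_zero fun c hc => h1 c (mem_filter.1 hc).2.1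
    rw [park, this, sub_zero]
    by_cases hx : x = T.root
    · simp [hx, h0, HST.cnt, hY]
    · simp [h1 x hx, HST.cnt, hY, Ne.symm hx]
  have hν : ∀ u : Unit, (0 : ℝ) ≤ (fun _ => 1) u := fun _ => zero_le_one
  refine ⟨pf (fun _ : Unit => Y) fun _ => 1, ⟨pf_nonneg _ hν, ?_⟩, ?_⟩
  · simpa using sum_pf (fun _ : Unit => Y) (fun _ => 1) fun _ => 1
  · rw [pf_pf, hp]
    refine ⟨pf_nonneg _ hν, ?_, fun x => ?_, fun A hA l _ C _ => ?_⟩
    · simpa using sum_pf (fun _ : Unit => cf Y) (fun _ => 1) fun _ => 1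
    · rw [sum_pf (fun _ : Unit => cf Y) (fun _ => 1) fun A => ((A x : ℕ) : ℝ)]
      simp [cf]
    · obtain rfl : cf Y = A := by simpa [pf] using hA
      have e : ∑ y ∈ C, (HST.cnt Y y : ℝ) = ((∑ y ∈ C, HST.cnt Y y : ℕ) : ℝ) := by push_cast; rfl
      have e' : ∑ y ∈ C, (((cf Y y : Fin (k + 2)) : ℕ) : ℝ) = ∑ y ∈ C, (HST.cnt Y y : ℝ) := rfl
      rw [e', e, Int.floor_natCast, Int.ceil_natCast]
      simp

theorem cover {mu : N → ℝ} {ν : (Fin k → N) → ℝ} (h : RB T k mu ν) (v : N) (hv : 1 ≤ park T mu v)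
    (Y : Fin k → N) (hY : ν Y ≠ 0) : ∃ i, Y i = v := by
  have h1 : 0 < ν Y := lt_of_le_of_ne (h.1.1 Y) hY.symm
  have h2 := h.2.floor_le (h1.trans_le (le_pf cf h.1.1 Y)).ne' v
  have h3 : (1 : ℝ) ≤ (⌊park T mu v⌋ : ℝ) := by
    exact_mod_cast Int.le_floor.2 (by exact_mod_cast hv)
  have h4 : 0 < HST.cnt Y v := by
    have : (1 : ℝ) ≤ (HST.cnt Y v : ℝ) := h3.trans h2
    exact_mod_cast this
  obtain ⟨i, hi⟩ := card_pos.1 h4
  exact ⟨i, (mem_filter.1 hi).2⟩

theorem step [Fintype X] [DecidableEq X] {mu mu' : N → ℝ} {ν : (Fin k → N) → ℝ}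
    (h : Flow T k mu) (hν : RB T k mu ν) (h' : Flow T k mu') (loc loc' : N → X) (K : ℝ)
    (fol : N → ℝ) (hK : 0 ≤ K) (hf : ∀ v, 0 ≤ fol v)
    (hl : ∀ v, v ≠ T.root → 0 < mu v → dist (loc v) (loc (T.par v)) ≤ K * T.rho (T.dep v))
    (hl' : ∀ v, v ≠ T.root → 0 < mu' v → dist (loc' v) (loc' (T.par v)) ≤ K * T.rho (T.dep v))
    (hm : ∀ v, 0 < mu v → 0 < mu' v → dist (loc v) (loc' v) ≤ K * T.rho (T.dep v + 1))
    (hfo : ∀ v, 0 < mu v → 0 < mu' v → dist (loc v) (loc' v) ≤ fol v) :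
    ∃ ν', RB T k mu' ν' ∧
      Cpl (push loc ν) (push loc' ν') (100 * K * tmv T mu mu' + ∑ v, park T mu v * fol v) := by
  have : Nonempty N := ⟨T.root⟩
  obtain ⟨⟨hν0, hν1⟩, hB⟩ := hν
  obtain ⟨π, μ', hB', π0, π1, π2, π3, π4⟩ := HST.exists_step (hier T) (hier_geom T) (park T mu)
    (park T mu') (park_nonneg h) (park_nonneg h') (by rw [park_total h, park_total h'])
    (by rw [park_total h]; linarith) _ hB
  choose mt hmt using fun (Y : Fin k → N) (A : N → Fin (k + 2)) =>
    exists_mt (hier T) Y fun x => (A x : ℕ)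
  set μ := pf cf ν with hμ
  set w : (Fin k → N) × (N → Fin (k + 2)) → ℝ := fun p => ν p.1 * (π (cf p.1) p.2 / μ (cf p.1))
    with hw
  have w0 : ∀ p, 0 ≤ w p := fun p => mul_nonneg (hν0 _) (div_nonneg (π0 _ _) (hB.nonneg _))
  have πz : ∀ A A', μ A * (π A A' / μ A) = π A A' := by
    intro A A'
    by_cases hA : μ A = 0
    · have := single_le_sum (f := π A) (s := univ) (fun B _ => π0 A B) (mem_univ A')
      rw [π1, hA] at this
      rw [hA, zero_mul]
      exact le_antisymm (π0 A A') this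
    · field_simp
  have wsum : ∀ F : (N → Fin (k + 2)) → (N → Fin (k + 2)) → ℝ,
      ∑ p, w p * F (cf p.1) p.2 = ∑ A, ∑ A', π A A' * F A A' := by
    intro F
    have := sum_pf cf ν fun A => ∑ A', π A A' / μ A * F A A'
    rw [Fintype.sum_prod_type]
    simp only [hw, mul_assoc, ← mul_sum]
    rw [← this]
    refine sum_congr rfl fun A _ => ?_
    rw [mul_sum]
    exact sum_congr rfl fun A' _ => by rw [← mul_assoc, πz]
  have wfst : ∀ Y, ∑ A', w (Y, A') = ν Y := by
    intro Y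
    simp only [hw, ← mul_sum, ← sum_div, π1]
    by_cases hY : ν Y = 0
    · simp [hY]
    · have : 0 < μ (cf Y) := (lt_of_le_of_ne (hν0 Y) (Ne.symm hY)).trans_le (le_pf cf hν0 Y)
      rw [div_self this.ne', mul_one]
  have wsum1 : ∀ F : (Fin k → N) → ℝ, ∑ p, w p * F p.1 = ∑ Y, ν Y * F Y := by
    intro F
    rw [Fintype.sum_prod_type]
    exact sum_congr rfl fun Y _ => by simp only [← sum_mul, wfst]
  have wne : ∀ p, w p ≠ 0 → μ (cf p.1) ≠ 0 ∧ μ' p.2 ≠ 0 ∧ cf (mt p.1 p.2) = p.2 ∧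
      ∑ j, td (hier T) (p.1 j) (mt p.1 p.2 j) ≤ (hier T).tn (HST.vec (cf p.1)) (HST.vec p.2) := by
    intro p hp
    have a1 : π (cf p.1) p.2 ≠ 0 := fun e => hp (by simp [hw, e])
    have a2 : μ (cf p.1) ≠ 0 := fun e => hp (by simp [hw, e])
    have a3 : 0 < μ' p.2 := by
      rw [← π2]
      exact (lt_of_le_of_ne (π0 _ _) a1.symm).trans_le
        (single_le_sum (f := fun A => π A p.2) (fun B _ => π0 B _) (mem_univ _))
    have a4 : ∑ x, (p.2 x : ℕ) = k := by
      have e := π3 _ _ a1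
      rw [vec_cf] at e
      simp only [HST.vec] at e
      rw [← Nat.cast_sum, ← Nat.cast_sum, HST.sum_cnt] at e
      exact_mod_cast e
    obtain ⟨b1, b2⟩ := hmt p.1 p.2 a4
    exact ⟨a2, a3.ne', funext fun x => Fin.ext (congrFun b1 x), b2⟩
  refine ⟨pf (fun p => mt p.1 p.2) w, ⟨⟨pf_nonneg _ w0, ?_⟩, ?_⟩, ?_⟩
  · have e1 := sum_pf (fun p : (Fin k → N) × (N → Fin (k + 2)) => mt p.1 p.2) w fun _ => 1
    have e2 := wsum1 fun _ => 1
    simp only [mul_one] at e1 e2
    rw [e1, e2, hν1]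
  · rw [pf_pf, pf_congr (g := fun p => p.2) fun p hp => (wne p hp).2.2.1]
    have : pf (fun p : (Fin k → N) × (N → Fin (k + 2)) => p.2) w = μ' := by
      funext B
      have e := wsum fun _ A' => if A' = B then 1 else 0
      simp only [mul_ite, mul_one, mul_zero, sum_ite_eq', mem_univ, if_true, π2] at e
      exact e
    rw [this]
    exact hB'
  · have e1 : push loc ν = pf (fun p : (Fin k → N) × (N → Fin (k + 2)) => fun i => loc (p.1 i)) w := by
      funext y
      have e := wsum1 fun Y => if (fun i => loc (Y i)) = y then 1 else 0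
      simp only [mul_ite, mul_one, mul_zero] at e
      exact e.symm
    have e2 : push loc' (pf (fun p : (Fin k → N) × (N → Fin (k + 2)) => mt p.1 p.2) w)
        = pf (fun p : (Fin k → N) × (N → Fin (k + 2)) => fun i => loc' (mt p.1 p.2 i)) w :=
      pf_pf _ (fun (Y : Fin k → N) i => loc' (Y i)) w
    rw [e1, e2]
    refine cpl_of _ _ w0 ?_
    have key : ∀ p : (Fin k → N) × (N → Fin (k + 2)),
        w p * mdist (fun i => loc (p.1 i)) (fun i => loc' (mt p.1 p.2 i))
          ≤ 5 / 2 * K * (w p * (hier T).tn (HST.vec (cf p.1)) (HST.vec p.2))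
            + w p * ∑ i, fol (p.1 i) := by
      intro p
      by_cases hp : w p = 0
      · simp [hp]
      obtain ⟨a1, a2, a3, a4⟩ := wne p hp
      have b1 : ∀ i, dist (loc (p.1 i)) (loc' (mt p.1 p.2 i))
          ≤ 5 / 2 * K * td (hier T) (p.1 i) (mt p.1 p.2 i) + fol (p.1 i) := by
        intro i
        have c1 : 0 < mu (p.1 i) := (pos_of_bal hB a1 (cnt_pos p.1 i)).trans_le (park_le h _)
        have c2 : 0 < mu' (mt p.1 p.2 i) := by
          refine (pos_of_bal hB' a2 ?_).trans_le (park_le h' _)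
          have := cnt_pos (mt p.1 p.2) i
          rwa [show HST.cnt (mt p.1 p.2) (mt p.1 p.2 i) = (cf (mt p.1 p.2) (mt p.1 p.2 i) : ℕ)
            from rfl, a3] at this
        by_cases he : p.1 i = mt p.1 p.2 i
        · rw [← he] at c2 ⊢
          have := td_nonneg (hier T) (p.1 i) (p.1 i)
          exact le_add_of_nonneg_of_le (by positivity) (hfo _ c1 c2)
        · exact le_add_of_le_of_nonneg (phys h h' hK hl hl' hm c1 c2 he) (hf _)
      have b2 := (mdist_le 1 (fun i => loc (p.1 i)) fun i => loc' (mt p.1 p.2 i)).trans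
        (sum_le_sum fun i _ => b1 i)
      rw [sum_add_distrib, ← mul_sum] at b2
      have b3 := mul_le_mul_of_nonneg_left a4 (show 0 ≤ 5 / 2 * K by positivity)
      have b4 := mul_le_mul_of_nonneg_left (b2.trans (add_le_add b3 le_rfl)) (w0 p)
      linarith
    refine (sum_le_sum fun p _ => key p).trans ?_
    rw [sum_add_distrib, ← mul_sum, wsum fun A A' => (hier T).tn (HST.vec A) (HST.vec A'),
      wsum1 fun Y => ∑ i, fol (Y i)]
    have f1 : ∑ Y, ν Y * ∑ i, fol (Y i) = ∑ v, park T mu v * fol v := by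
      simp only [← sum_cnt_mul, mul_sum]
      rw [sum_comm]
      refine sum_congr rfl fun v _ => ?_
      rw [← hB.mean v, sum_pf cf ν fun A => ((A v : ℕ) : ℝ), sum_mul]
      exact sum_congr rfl fun Y _ => (mul_assoc _ _ _).symm
    have f2 := tn_le T mu mu'
    have f3 : 0 ≤ tmv T mu mu' :=
      sum_nonneg fun v _ => mul_nonneg (T.rho_pos _).le (abs_nonneg _)
    rw [f1]
    nlinarith

end RR

theorem stRR : StRR := fun _ _ _ T k _ _ _ _ =>
  ⟨{ RB := RR.RB T k
     mem := fun _ _ h => h.1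
     init := RR.init
     cover := fun _ _ h => RR.cover h
     step := fun _ _ _ h hν h' => RR.step h hν h' }⟩

end Vale.Agent.P304Z
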