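import Vale.Agent.P304Z.E0

/-!
# P304Z: the summation facts `Tel`
-/

open Finset

namespace Vale.Agent.P304Z

open Vale.Agent.P304 Vale.Agent.P304.Dyn

namespace TelAux

theorem cheb_aux {X : Type} [DecidableEq X] (q d : X → ℝ) (hq : ∀ x, 0 ≤ q x) (hd : ∀ x, 0 ≤ d x)
    (s : Finset X) :
    ∑ x ∈ s, q x * d x * Real.log ((∑ y ∈ s, q y) / ∑ y ∈ s, if d y ≤ d x then q y else 0) ≤
      ∑ x ∈ s, q x * d x := by
  induction s using Finset.induction_on_max_value d with
  | empty => simp
  | insert a s ha hmax ih =>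
    have hm : 0 ≤ ∑ y ∈ s, q y := sum_nonneg fun y _ => hq y
    have h0 : ∑ y ∈ insert a s, (if d y ≤ d a then q y else 0) = ∑ y ∈ insert a s, q y := by
      refine sum_congr rfl fun y hy => if_pos ?_
      rcases mem_insert.1 hy with h | h
      · rw [h]
      · exact hmax y h
    have h1 : Real.log ((∑ y ∈ insert a s, q y) / ∑ y ∈ insert a s, q y) = 0 := by
      rcases eq_or_ne (∑ y ∈ insert a s, q y) 0 with h | h
      · rw [h]; simp
      · rw [div_self h, Real.log_one]
    have h2 : ∀ x ∈ s, q x * d x * Real.log ((∑ y ∈ insert a s, q y) /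
          ∑ y ∈ insert a s, if d y ≤ d x then q y else 0) ≤
        q x * d x * Real.log ((∑ y ∈ s, q y) / ∑ y ∈ s, if d y ≤ d x then q y else 0) +
          q x * (d a * (q a / ∑ y ∈ s, q y)) := by
      intro x hx
      rcases (hq x).eq_or_lt with h | h
      · simp [← h]
      · have hQ : q x ≤ ∑ y ∈ s, if d y ≤ d x then q y else 0 := by
          have := single_le_sum (f := fun y => if d y ≤ d x then q y else 0)
            (fun y _ => by split_ifs; exacts [hq y, le_rfl]) hx
          simpa using this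
        have hM : q x ≤ ∑ y ∈ s, q y := single_le_sum (fun y _ => hq y) hx
        rw [sum_insert ha, sum_insert ha]
        set Q := ∑ y ∈ s, if d y ≤ d x then q y else 0
        set m := ∑ y ∈ s, q y
        have hQ0 : 0 < Q := h.trans_le hQ
        have hm0 : 0 < m := h.trans_le hM
        have hqa := hq a
        have hi : 0 ≤ (if d a ≤ d x then q a else 0) := by split_ifs; exacts [hqa, le_rfl]
        have h3 : Real.log ((q a + m) / ((if d a ≤ d x then q a else 0) + Q)) ≤
            Real.log (m / Q) + q a / m := by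
          have h4 : Real.log ((q a + m) / ((if d a ≤ d x then q a else 0) + Q)) ≤
              Real.log ((q a + m) / Q) :=
            Real.log_le_log (by positivity)
              (div_le_div_of_nonneg_left (by positivity) hQ0 (by linarith))
          have h5 : Real.log ((q a + m) / Q) = Real.log (m / Q) + Real.log ((q a + m) / m) := by
            rw [← Real.log_mul (by positivity) (by positivity)]
            congr 1
            field_simp
          have h6 : Real.log ((q a + m) / m) ≤ (q a + m) / m - 1 :=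
            Real.log_le_sub_one_of_pos (by positivity)
          have h7 : (q a + m) / m - 1 = q a / m := by field_simp; ring
          linarith
        have h8 : q x * d x * (q a / m) ≤ q x * (d a * (q a / m)) := by
          rw [mul_assoc]
          exact mul_le_mul_of_nonneg_left
            (mul_le_mul_of_nonneg_right (hmax x hx) (by positivity)) h.le
        have h9 := mul_le_mul_of_nonneg_left h3 (mul_nonneg h.le (hd x))
        linarith
    have h3 : ∑ x ∈ s, q x * (d a * (q a / ∑ y ∈ s, q y)) ≤ q a * d a := by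
      rw [← sum_mul]
      rcases hm.eq_or_lt with h | h
      · rw [← h, zero_mul]; exact mul_nonneg (hq a) (hd a)
      · refine le_of_eq ?_
        field_simp
    have h4 := sum_le_sum h2
    rw [sum_add_distrib] at h4
    rw [sum_insert ha (f := fun x => q x * d x * Real.log ((∑ y ∈ insert a s, q y) /
      ∑ y ∈ insert a s, if d y ≤ d x then q y else 0)), h0, h1, mul_zero, zero_add,
      sum_insert ha (f := fun x => q x * d x)]
    linarith

theorem logsum (N : ℕ) : ∑ i ∈ range N, Real.log ((N : ℝ) / ((i : ℝ) + 1)) ≤ N := by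
  induction N with
  | zero => simp
  | succ N ih =>
    rcases Nat.eq_zero_or_pos N with rfl | hN
    · simp
    have hN' : (0 : ℝ) < N := by exact_mod_cast hN
    rw [sum_range_succ]
    push_cast
    rw [div_self (by positivity), Real.log_one, add_zero]
    have h1 : ∀ i ∈ range N, Real.log (((N : ℝ) + 1) / ((i : ℝ) + 1)) ≤
        Real.log ((N : ℝ) / ((i : ℝ) + 1)) + 1 / N := by
      intro i _
      have h5 : Real.log (((N : ℝ) + 1) / ((i : ℝ) + 1)) =
          Real.log ((N : ℝ) / ((i : ℝ) + 1)) + Real.log (((N : ℝ) + 1) / N) := by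
        rw [← Real.log_mul (by positivity) (by positivity)]
        congr 1
        field_simp
      have h6 : Real.log (((N : ℝ) + 1) / N) ≤ ((N : ℝ) + 1) / N - 1 :=
        Real.log_le_sub_one_of_pos (by positivity)
      have h7 : ((N : ℝ) + 1) / N - 1 = 1 / N := by field_simp; ring
      linarith
    have h2 := sum_le_sum h1
    rw [sum_add_distrib, sum_const, card_range, nsmul_eq_mul, mul_one_div_cancel hN'.ne'] at h2
    linarith

theorem bud_one (μ : ℝ → ℝ) (a b r0 t : ℝ) (H : ℕ) (hμ : Monotone μ)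
    (hab : ∀ ρ, a ≤ μ ρ ∧ μ ρ ≤ b) (hr : 0 < r0) (ht : 0 < t) (ht1 : t ≤ 1) :
    ∑ l ∈ range H, (μ (64 * (r0 / 2 ^ (l + 1))) - μ (t * (r0 / 2 ^ (l + 1)))) ≤
      (7 + 2 * Real.log (1 / t)) * (b - a) := by
  have hl2 : 0 < Real.log 2 := Real.log_pos one_lt_two
  have hlt : 0 ≤ Real.log (1 / t) := Real.log_nonneg (by rw [le_div_iff₀ ht]; linarith)
  set m := ⌈Real.log (1 / t) / Real.log 2⌉₊ with hm
  have hm1 : (m : ℝ) ≤ 2 * Real.log (1 / t) + 1 := by
    have h1 : (m : ℝ) < Real.log (1 / t) / Real.log 2 + 1 := Nat.ceil_lt_add_one (by positivity)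
    have h2 : Real.log (1 / t) / Real.log 2 ≤ 2 * Real.log (1 / t) := by
      rw [div_le_iff₀ hl2]
      have := Real.log_two_gt_d9
      nlinarith
    linarith
  have hm2 : 1 / t ≤ 2 ^ m := by
    have h1 : Real.log (1 / t) / Real.log 2 ≤ m := Nat.le_ceil _
    rw [div_le_iff₀ hl2, ← Real.log_pow] at h1
    exact (Real.log_le_log_iff (by positivity) (by positivity)).1 h1
  have hba : 0 ≤ b - a := sub_nonneg.2 ((hab 0).1.trans (hab 0).2)
  have h1 := ss_shift (fun l => -μ (64 * (r0 / 2 ^ (l + 1)))) (-b) (-a)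
    (fun l => neg_le_neg (hab _).2) (fun l => neg_le_neg (hab _).1) H (6 + m)
  have h2 : ∀ l ∈ range H, μ (64 * (r0 / 2 ^ (l + 1))) - μ (t * (r0 / 2 ^ (l + 1))) ≤
      -μ (64 * (r0 / 2 ^ (l + (6 + m) + 1))) - -μ (64 * (r0 / 2 ^ (l + 1))) := by
    intro l _
    have h3 : 64 * (r0 / 2 ^ (l + (6 + m) + 1)) ≤ t * (r0 / 2 ^ (l + 1)) := by
      have e : 64 * (r0 / 2 ^ (l + (6 + m) + 1)) = 1 / 2 ^ m * (r0 / 2 ^ (l + 1)) := by
        field_simp
        ring
      rw [e]
      refine mul_le_mul_of_nonneg_right ?_ (by positivity)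
      rw [div_le_iff₀ (by positivity)]
      rw [div_le_iff₀ ht] at hm2
      linarith
    linarith [hμ h3]
  refine (sum_le_sum h2).trans (h1.trans ?_)
  have e : -a - -b = b - a := by ring
  rw [e]
  refine mul_le_mul_of_nonneg_right ?_ hba
  push_cast
  linarith

theorem bud (μ : ℝ → ℝ) (a b r0 : ℝ) (N H : ℕ) (hμ : Monotone μ)
    (hab : ∀ ρ, a ≤ μ ρ ∧ μ ρ ≤ b) (hr : 0 < r0) (hN : 1 ≤ N) :
    ∑ l ∈ range H, (∑ i ∈ range N, (μ (64 * (r0 / 2 ^ (l + 1))) -
      μ (((i : ℝ) + 1) / N * (r0 / 2 ^ (l + 1))))) / N ≤ 9 * (b - a) := by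
  have hN' : (0 : ℝ) < N := by exact_mod_cast hN
  have hba : 0 ≤ b - a := sub_nonneg.2 ((hab 0).1.trans (hab 0).2)
  rw [← sum_div, sum_comm, div_le_iff₀ hN']
  have h1 : ∀ i ∈ range N, ∑ l ∈ range H, (μ (64 * (r0 / 2 ^ (l + 1))) -
      μ (((i : ℝ) + 1) / N * (r0 / 2 ^ (l + 1)))) ≤
      (7 + 2 * Real.log ((N : ℝ) / ((i : ℝ) + 1))) * (b - a) := by
    intro i hi
    have hi' : (i : ℝ) + 1 ≤ N := by exact_mod_cast mem_range.1 hi
    have h2 := bud_one μ a b r0 (((i : ℝ) + 1) / N) H hμ hab hr (by positivity)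
      ((div_le_one hN').2 hi')
    rwa [one_div_div] at h2
  refine (sum_le_sum h1).trans ?_
  rw [← sum_mul, sum_add_distrib, ← mul_sum, sum_const, card_range, nsmul_eq_mul]
  have h3 := logsum N
  nlinarith

theorem abel (H : ℕ) (M om : ℕ → ℝ) (a b K : ℝ) (ha : 0 < a) (hK : 0 ≤ K)
    (hM : ∀ l, a ≤ M l ∧ M l ≤ b) (hA : Antitone M) (hom : ∀ l, 0 ≤ om l)
    (hs : ∀ l, ∑ l' ∈ Ico l H, om l' ≤ K * M l) :
    ∑ l ∈ range H, om l / M l ≤ K * (1 + Real.log (b / a)) := by
  have h1 := follow_abel (n := H) (h := fun j => M (H - 1 - j))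
    (N := fun j => if j < H then om (H - 1 - j) else 0) (e := a) (b := b) (K := K) ha
    (fun l => (hM _).1) (fun l => (hM _).2) (fun i j hij => hA (by omega))
    (fun l => by split_ifs; exacts [hom _, le_rfl]) hK (fun l => by
      refine le_trans (le_of_eq ?_) (hs (H - 1 - l))
      rw [← sum_filter]
      refine sum_nbij' (fun j => H - 1 - j) (fun j => H - 1 - j) ?_ ?_ ?_ ?_ ?_
      · intro j hj
        simp only [mem_filter, mem_range, mem_Ico] at hj ⊢
        omega
      · intro j hj
        simp only [mem_filter, mem_range, mem_Ico] at hj ⊢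
        omega
      · intro j hj
        simp only [mem_filter, mem_range] at hj
        omega
      · intro j hj
        simp only [mem_Ico] at hj
        omega
      · intro j _
        rfl)
  refine le_trans (le_of_eq ?_) h1
  rw [← sum_range_reflect]
  exact sum_congr rfl fun j hj => by rw [if_pos (mem_range.1 hj)]

theorem geo_small (H : ℕ) (r0 d : ℝ) (hr : 0 < r0) (hd : 0 ≤ d) :
    ∑ l ∈ range H, (if d ≤ r0 / 2 ^ (l + 1) / 8 then d / (r0 / 2 ^ (l + 1)) else 0) ≤
      min (1 / 4) (d / (r0 / 2 ^ (H + 1))) := by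
  induction H with
  | zero => rw [sum_range_zero]; positivity
  | succ H ih =>
    have hu : 0 < r0 / 2 ^ (H + 1) := by positivity
    have e : d / (r0 / 2 ^ (H + 1 + 1)) = 2 * (d / (r0 / 2 ^ (H + 1))) := by
      field_simp
      ring
    have h0 : 0 ≤ d / (r0 / 2 ^ (H + 1)) := by positivity
    rw [sum_range_succ, e]
    have h1 := ih.trans (min_le_left _ _)
    have h2 := ih.trans (min_le_right _ _)
    split_ifs with h
    · have h3 : d / (r0 / 2 ^ (H + 1)) ≤ 1 / 8 := by
        rw [div_le_iff₀ hu]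
        linarith
      exact le_min (by linarith) (by linarith)
    · exact le_min (by linarith) (by linarith)

theorem geo_large (H : ℕ) (r0 d : ℝ) (hr : 0 < r0) :
    ∑ l ∈ range H, (if d ≤ r0 / 2 ^ (l + 1) / 8 then 0 else r0 / 2 ^ (l + 1)) ≤
      16 * d - min (16 * d) (2 * (r0 / 2 ^ (H + 1))) := by
  induction H with
  | zero => rw [sum_range_zero]; exact sub_nonneg.2 (min_le_left _ _)
  | succ H ih =>
    have hu : 0 < r0 / 2 ^ (H + 1) := by positivity
    have e : 2 * (r0 / 2 ^ (H + 1 + 1)) = r0 / 2 ^ (H + 1) := by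
      field_simp
      ring
    rw [sum_range_succ, e]
    have h1 : min (16 * d) (r0 / 2 ^ (H + 1)) ≤ min (16 * d) (2 * (r0 / 2 ^ (H + 1))) :=
      min_le_min le_rfl (by linarith)
    split_ifs with h
    · linarith
    · rw [min_eq_right (by linarith [not_le.1 h])] at ih
      linarith [min_le_right (16 * d) (r0 / 2 ^ (H + 1))]

end TelAux

theorem tel : Tel where
  cheb X _ q d hq h1 hd := by
    classical
    have h := TelAux.cheb_aux q d hq hd univ
    rwa [h1] at h
  bud μ a b r0 N H hμ hab hr hN := TelAux.bud μ a b r0 N H hμ hab hr hN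
  abel H M om a b K ha _ hK hM hA hom hs := TelAux.abel H M om a b K ha hK hM hA hom hs
  geo_small H r0 d hr hd := (TelAux.geo_small H r0 d hr hd).trans (min_le_left _ _)
  geo_large H r0 d hr hd := (TelAux.geo_large H r0 d hr).trans (by
    have : 0 ≤ min (16 * d) (2 * (r0 / 2 ^ (H + 1))) := by positivity
    linarith)
  logsum := TelAux.logsum

end Vale.Agent.P304Z
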