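import Vale.Agent.P304Z.G
import Vale.Agent.P304Z.RR
import Vale.Agent.P304Z.H1
import Vale.Agent.P304Z.H2
import Vale.Agent.P304Z.H3
import Vale.Agent.P304Z.H4
import Vale.Agent.P304Z.H5
import Vale.Agent.P304Z.H6
import Vale.Agent.P304Z.Tel
import Vale.Agent.P304Z.E2
import Vale.Agent.P304Z.E3
import Vale.Agent.P304Z.E4
import Vale.Agent.P304Z.E5
import Vale.Agent.P304Z.E6
import Vale.Agent.P304Z.E7
import Vale.Agent.P304Z.A1
import Vale.Agent.P304Z.A2
import Vale.Agent.P304Z.A3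
import Vale.Agent.P304Z.A4
import Vale.Agent.P304Z.A5
import Vale.Agent.P304Z.A6

/-!
# P304Z: all blocks together
-/

namespace Vale.Agent.P304Z

open Vale.Agent.P304

theorem treeEngine : StH :=
  H.stH H.s1 H.s2 H.stPar (H.stStr H.s1) (H.stFea H.s1) (H.stNxt H.s1 H.stPar) (H.stB H.s1)
    (H.stPi H.s1 H.s2) H.stZ H.stM

theorem levels : StLev :=
  have hP : E.StPT := E.stPT E.basic E.stThin (E.stTE E.stMH)
  E.stLev E.basic E.stMH hP (E.stPO E.basic E.stThin (E.stTE E.stMH)) (E.stYL E.basic tel hP)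
    (E.stOM E.basic E.stMH)

theorem glob : StGlob :=
  A.stGlob treeEngine stRR levels A.stAddr A.stTran A.stReopt A.stParked (A.stLevels tel)
    (A.stMove tel) A.stRest

theorem R_le_log_sq : ∃ C : ℝ, 0 < C ∧ ∀ k : ℕ, 1 ≤ k →
    R k ≤ ENNReal.ofReal (C * (1 + Real.log k) ^ 2) := by
  obtain ⟨C, hC, h⟩ := glob
  refine ⟨2 * C, by positivity, fun k hk => ?_⟩
  have h1 := stG k (C * (1 + Real.log k) ^ 2) hk (by positivity) (h k hk)
  rwa [← mul_assoc] at h1

end Vale.Agent.P304Z
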