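import Vale.Agent.P304Z.Cpl

/-!
# P304Z, layer G: a Bayesian engine bounds the ratio

Backward induction on the number of remaining requests, for a weighted finite family of hidden
services.
-/

open Finset

namespace Vale.Agent.P304Z

open Vale.Agent.P304

set_option linter.unusedSectionVars false

namespace G

section Run

variable {X : Type} [MetricSpace X] {k : ℕ}

/-- relabelled policy from other starting positions -/
theorem runCost_perm (a : List X → Fin k) (π : Equiv.Perm (Fin k)) (σ : List X) :
    ∀ (h : List X) (p q : Fin k → X),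
      runCost (fun x => π (a x)) h p σ ≤ lab π p q + runCost a h q σ := by
  induction σ with
  | nil =>
    intro h p q
    simp only [runCost, add_zero]
    exact lab_nonneg _ _ _
  | cons r σ ih =>
    intro h p q
    simp only [runCost]
    have h1 := ih (h ++ [r]) (Function.update p (π (a (h ++ [r]))) r)
      (Function.update q (a (h ++ [r])) r)
    have h2 := lab_update π p q (a (h ++ [r])) r
    linarith

theorem exists_lip (a : List X → Fin k) (p q : Fin k → X) :
    ∃ b : List X → Fin k, ∀ σ, runCost b [] p σ ≤ mdist p q + runCost a [] q σ := by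
  obtain ⟨π, hπ⟩ := exists_mdist p q
  exact ⟨fun x => π (a x), fun σ => hπ ▸ runCost_perm a π σ [] p q⟩

/-- the cost depends only on the policy on nontrivial extensions of the history -/
theorem runCost_congr (a b : List X → Fin k) (σ : List X) :
    ∀ (h h' : List X) (p : Fin k → X), (∀ r t, a (h ++ r :: t) = b (h' ++ r :: t)) →
      runCost a h p σ = runCost b h' p σ := by
  induction σ with
  | nil => intro h h' p _; rfl
  | cons r σ ih =>
    intro h h' p hab
    simp only [runCost]
    rw [hab r [], ih (h ++ [r]) (h' ++ [r])]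
    intro r' t
    have := hab r (r' :: t)
    simpa only [List.append_assoc, List.singleton_append] using this

/-- serve `r` from `p` by going to a configuration `q` which covers `r`, then follow `a` -/
theorem exists_first (a : List X → Fin k) (p q : Fin k → X) (r : X) (hq : ∃ j, q j = r) :
    ∃ b : List X → Fin k, ∀ σ, runCost b [] p (r :: σ) ≤ mdist p q + runCost a [] q σ := by
  obtain ⟨j, hj⟩ := hq
  obtain ⟨b, hb⟩ := exists_lip (fun x => if x.tail = [] then j else a x.tail) p q
  refine ⟨b, fun σ => (hb (r :: σ)).trans (le_of_eq ?_)⟩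
  have e : Function.update q j r = q := by rw [← hj]; exact Function.update_eq_self j q
  simp only [runCost, List.nil_append, List.tail_cons, if_true]
  rw [e, hj, dist_self, zero_add]
  refine congrArg (fun t => mdist p q + t) (runCost_congr _ _ σ _ _ _ fun r' t => ?_)
  simp

end Run

/-- normalised image law of a weighted family -/
theorem exists_norm {ι Y : Type} [Fintype ι] [Fintype Y] [Nonempty Y] (w : ι → ℝ)
    (hw : ∀ a, 0 ≤ w a) (g : ι → Y) :
    ∃ β ∈ stdSimplex ℝ Y, ∀ f : Y → ℝ, (∑ a, w a) * ∑ y, β y * f y = ∑ a, w a * f (g a) := by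
  classical
  by_cases hW : ∑ a, w a = 0
  · have h0 : ∀ a, w a = 0 := fun a =>
      (Finset.sum_eq_zero_iff_of_nonneg fun a _ => hw a).1 hW a (mem_univ a)
    refine ⟨Pi.single (Classical.arbitrary Y) 1, single_mem_stdSimplex ℝ _, fun f => ?_⟩
    rw [hW, zero_mul]
    exact (Finset.sum_eq_zero fun a _ => by rw [h0 a, zero_mul]).symm
  · have key : ∀ f : Y → ℝ, (∑ a, w a) *
        ∑ y, ((∑ a, if g a = y then w a else 0) / ∑ a, w a) * f y = ∑ a, w a * f (g a) := by
      intro f
      have e : ∀ y, (∑ a, w a) * (((∑ a, if g a = y then w a else 0) / ∑ a, w a) * f y) =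
          ∑ a, if g a = y then w a * f y else 0 := by
        intro y
        rw [← mul_assoc, mul_div_cancel₀ _ hW, Finset.sum_mul]
        exact Finset.sum_congr rfl fun a _ => by split_ifs <;> simp
      rw [Finset.mul_sum, Finset.sum_congr rfl fun y _ => e y, Finset.sum_comm]
      exact Finset.sum_congr rfl fun a _ => by simp
    refine ⟨fun y => (∑ a, if g a = y then w a else 0) / ∑ a, w a, ⟨fun y => ?_, ?_⟩, key⟩
    · refine div_nonneg (Finset.sum_nonneg fun a _ => ?_) (Finset.sum_nonneg fun a _ => hw a)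
      split_ifs
      · exact hw a
      · exact le_rfl
    · have h1 := key fun _ => 1
      simp only [mul_one] at h1
      exact mul_left_cancel₀ hW (h1.trans (mul_one _).symm)

/-- Jensen inequality with unnormalised weights -/
theorem conc {U Y : Type} [Fintype U] [Fintype Y] {Φ : (Y → ℝ) → ℝ}
    (hΦ : ConcaveOn ℝ (stdSimplex ℝ Y) Φ) (W : U → ℝ) (hW : ∀ u, 0 ≤ W u) (b : U → Y → ℝ)
    (hb : ∀ u, b u ∈ stdSimplex ℝ Y) (β : Y → ℝ)
    (hβ : ∀ y, (∑ u, W u) * β y = ∑ u, W u * b u y) :
    ∑ u, W u * Φ (b u) ≤ (∑ u, W u) * Φ β := by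
  by_cases h : ∑ u, W u = 0
  · have h0 : ∀ u, W u = 0 := fun u =>
      (Finset.sum_eq_zero_iff_of_nonneg fun u _ => hW u).1 h u (mem_univ u)
    rw [h, zero_mul]
    exact le_of_eq (Finset.sum_eq_zero fun u _ => by rw [h0 u, zero_mul])
  · have hpos : 0 < ∑ u, W u := lt_of_le_of_ne (Finset.sum_nonneg fun u _ => hW u) (Ne.symm h)
    have h1 := hΦ.le_map_sum (t := Finset.univ) (w := fun u => W u / ∑ u, W u) (p := b)
      (fun u _ => div_nonneg (hW u) hpos.le) (by rw [← Finset.sum_div, div_self h])
      (fun u _ => hb u)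
    have h2 : ∑ u, (W u / ∑ u, W u) • b u = β := by
      funext y
      rw [Finset.sum_apply]
      simp only [Pi.smul_apply, smul_eq_mul]
      refine mul_left_cancel₀ h ?_
      rw [hβ y, Finset.mul_sum]
      refine Finset.sum_congr rfl fun u _ => ?_
      rw [← mul_assoc, mul_div_cancel₀ _ h]
    rw [h2] at h1
    have h3 := mul_le_mul_of_nonneg_left h1 hpos.le
    refine le_trans (le_of_eq ?_) h3
    rw [Finset.mul_sum]
    refine Finset.sum_congr rfl fun u _ => ?_
    rw [smul_eq_mul, ← mul_assoc, mul_div_cancel₀ _ h]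

section Main

variable {X : Type} [MetricSpace X] [Fintype X] [DecidableEq X] {k : ℕ}

/-- derandomisation of one coupling -/
theorem derand [NeZero k] {p q : (Fin k → X) → ℝ} {c W : ℝ} (hW : 0 ≤ W) (h : Cpl p q c) (r : X)
    (hq : ∀ y, q y ≠ 0 → ∃ i, y i = r) (V : (Fin k → X) → ℝ) :
    ∃ g : (Fin k → X) → Fin k → X, (∀ y, ∃ i, g y i = r) ∧
      ∑ y, p y * (W * mdist y (g y) + V (g y)) ≤ W * c + ∑ y, q y * V y := by
  classical
  obtain ⟨π, h0, h1, h2, h3⟩ := h
  have hne : (univ.filter fun y : Fin k → X => ∃ i, y i = r).Nonempty :=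
    ⟨fun _ => r, mem_filter.2 ⟨mem_univ _, 0, rfl⟩⟩
  have hmin := fun y : Fin k → X =>
    Finset.exists_min_image _ (fun y' => W * mdist y y' + V y') hne
  choose g hg hgm using hmin
  refine ⟨g, fun y => (mem_filter.1 (hg y)).2, ?_⟩
  calc ∑ y, p y * (W * mdist y (g y) + V (g y))
      ≤ ∑ y, ∑ y', π y y' * (W * mdist y y' + V y') := by
        refine Finset.sum_le_sum fun y _ => ?_
        rw [← h1 y, Finset.sum_mul]
        refine Finset.sum_le_sum fun y' _ => ?_
        by_cases hz : π y y' = 0
        · rw [hz, zero_mul, zero_mul]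
        · refine mul_le_mul_of_nonneg_left (hgm y y' (mem_filter.2 ⟨mem_univ _, hq y' ?_⟩))
            (h0 y y')
          intro hq0
          exact hz ((Finset.sum_eq_zero_iff_of_nonneg fun a _ => h0 a y').1 ((h2 y').trans hq0) y
            (mem_univ y))
    _ = W * ∑ y, ∑ y', π y y' * mdist y y' + ∑ y, q y * V y := by
        simp only [mul_add, Finset.sum_add_distrib, Finset.mul_sum]
        refine congrArg₂ (· + ·) ?_ ?_
        · exact Finset.sum_congr rfl fun y _ => Finset.sum_congr rfl fun y' _ => by ring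
        · rw [Finset.sum_comm]
          exact Finset.sum_congr rfl fun y' _ => by rw [← Finset.sum_mul, h2]
    _ ≤ W * c + ∑ y, q y * V y := by
        have := mul_le_mul_of_nonneg_left h3 hW
        linarith

/-- index of the server which makes the first move -/
def idx [NeZero k] : List (Fin k × X) → Fin k
  | [] => 0
  | z :: _ => z.1

/-- the first request -/
def hd : List (Fin k × X) → Option X
  | [] => none
  | z :: _ => some z.2

theorem eq_of_hd [NeZero k] {l : List (Fin k × X)} {r : X} (h : hd l = some r) :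
    l = (idx l, r) :: l.tail := by
  cases l with
  | nil => exact absurd h (by simp [hd])
  | cons z t =>
    have : z.2 = r := by simpa [hd] using h
    simp [idx, ← this]

theorem eq_nil_of_hd {l : List (Fin k × X)} (h : hd l = none) : l = [] := by
  cases l with
  | nil => rfl
  | cons z t => exact absurd h (by simp [hd])

/-- the statement proved by induction on the number `T` of remaining requests -/
def Claim {c B ε : ℝ} (E : Eng X k c B ε) (ι : Type) [Fintype ι] (T : ℕ) : Prop :=
  ∀ (w : ι → ℝ) (o : ι → Fin k → X) (l : ι → List (Fin k × X)) (s : E.S)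
    (β : (Fin k → X) → ℝ), (∀ a, 0 ≤ w a) → (∀ a, (l a).length ≤ T) →
    β ∈ stdSimplex ℝ (Fin k → X) →
    (∀ f : (Fin k → X) → ℝ, (∑ a, w a) * ∑ y, β y * f y = ∑ a, w a * f (o a)) →
    ∃ A : (Fin k → X) → List X → Fin k,
      ∑ y, E.law s y * ∑ a, w a * runCost (A y) [] y ((l a).map Prod.snd) ≤
        (∑ a, w a) * E.Φ s β + c * ∑ a, w a * moveCost (o a) (l a) + ε * T * ∑ a, w a

/-- all services of positive weight start with the request `r` -/
theorem one_req [NeZero k] {c B ε : ℝ} (E : Eng X k c B ε) {ι : Type} [Fintype ι] {T : ℕ}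
    (ih : Claim E ι T) (w : ι → ℝ) (o : ι → Fin k → X) (l : ι → List (Fin k × X)) (s : E.S)
    (hw : ∀ a, 0 ≤ w a) (hl : ∀ a, (l a).length ≤ T + 1) (r : X)
    (hr : ∀ a, w a ≠ 0 → hd (l a) = some r) (Q : (Fin k → X) × Fin k → ℝ)
    (hQ : Q ∈ stdSimplex ℝ ((Fin k → X) × Fin k))
    (hQf : ∀ f : (Fin k → X) × Fin k → ℝ,
      (∑ a, w a) * ∑ z, Q z * f z = ∑ a, w a * f (o a, idx (l a))) :
    ∃ A : (Fin k → X) → List X → Fin k,
      ∑ y, E.law s y * ∑ a, w a * runCost (A y) [] y ((l a).map Prod.snd) ≤
        (∑ a, w a) * E.Φ s (pre Q) + c * ∑ a, w a * moveCost (o a) (l a) +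
          ε * (T + 1 : ℕ) * ∑ a, w a := by
  have hW : 0 ≤ ∑ a, w a := Finset.sum_nonneg fun a _ => hw a
  obtain ⟨s₁, c₁, hO₁, hC₁, hP₁⟩ := E.reopt s (pre Q) (pre_mem hQ)
  have hM := E.move s₁ Q r hQ hO₁
  obtain ⟨s₂, c₂, hO₂, hC₂, hP₂⟩ := E.reopt s₁ (post Q r) (post_mem hQ r)
  have hcov := E.cover s₂ (post Q r) r (post_mem hQ r) hO₂ (post_cover Q r)
  obtain ⟨A, hA⟩ := ih w (fun a => Function.update (o a) (idx (l a)) r) (fun a => (l a).tail) s₂
    (post Q r) hw (fun a => by have := hl a; rw [List.length_tail]; omega) (post_mem hQ r)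
    (fun f => by rw [sum_post, hQf])
  obtain ⟨g, hg, hgV⟩ := derand hW (hC₁.trans hC₂) r hcov
    (fun y => ∑ a, w a * runCost (A y) [] y ((l a).tail.map Prod.snd))
  have hb := fun y => exists_first (A (g y)) y (g y) r (hg y)
  choose b hb using hb
  refine ⟨b, ?_⟩
  have h1 : ∀ y, ∑ a, w a * runCost (b y) [] y ((l a).map Prod.snd) ≤
      (∑ a, w a) * mdist y (g y) +
        ∑ a, w a * runCost (A (g y)) [] (g y) ((l a).tail.map Prod.snd) := by
    intro y
    rw [Finset.sum_mul, ← Finset.sum_add_distrib]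
    refine Finset.sum_le_sum fun a _ => ?_
    by_cases ha : w a = 0
    · rw [ha, zero_mul, zero_mul, zero_mul, add_zero]
    · rw [← mul_add]
      refine mul_le_mul_of_nonneg_left ?_ (hw a)
      have e : (l a).map Prod.snd = r :: (l a).tail.map Prod.snd := by
        conv_lhs => rw [eq_of_hd (hr a ha)]
        rfl
      rw [e]
      exact hb y _
  have h2 : ∑ a, w a * moveCost (o a) (l a) =
      (∑ a, w a) * ∑ z : (Fin k → X) × Fin k, Q z * dist (z.1 z.2) r +
        ∑ a, w a * moveCost (Function.update (o a) (idx (l a)) r) (l a).tail := by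
    rw [hQf fun z => dist (z.1 z.2) r, ← Finset.sum_add_distrib]
    refine Finset.sum_congr rfl fun a _ => ?_
    by_cases ha : w a = 0
    · rw [ha, zero_mul, zero_mul, zero_mul, add_zero]
    · rw [← mul_add]
      refine congrArg (fun t => w a * t) ?_
      conv_lhs => rw [eq_of_hd (hr a ha)]
      rfl
  have h3 : ∑ y, E.law s y * ∑ a, w a * runCost (b y) [] y ((l a).map Prod.snd) ≤
      ∑ y, E.law s y * ((∑ a, w a) * mdist y (g y) +
        ∑ a, w a * runCost (A (g y)) [] (g y) ((l a).tail.map Prod.snd)) :=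
    Finset.sum_le_sum fun y _ => mul_le_mul_of_nonneg_left (h1 y) ((E.law_mem s).1 y)
  have h4 : c₁ + c₂ + E.Φ s₂ (post Q r) ≤
      E.Φ s (pre Q) + c * ∑ z : (Fin k → X) × Fin k, Q z * dist (z.1 z.2) r + ε := by linarith
  have h5 := mul_le_mul_of_nonneg_left h4 hW
  rw [h2]
  push_cast
  nlinarith [h3, hgV, hA, h5]

theorem claim [NeZero k] {c B ε : ℝ} (hc : 0 ≤ c) (hε : 0 ≤ ε) (E : Eng X k c B ε) (ι : Type)
    [Fintype ι] (T : ℕ) : Claim E ι T := by
  classical
  induction T with
  | zero =>
    intro w o l s β hw hl hβ _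
    refine ⟨fun _ _ => 0, ?_⟩
    have e : ∀ a, l a = [] := fun a => List.length_eq_zero_iff.1 (Nat.le_zero.1 (hl a))
    have h1 := mul_nonneg (Finset.sum_nonneg fun a (_ : a ∈ univ) => hw a) (E.Φ_nonneg s β hβ)
    simp only [e, List.map_nil, runCost, moveCost, mul_zero, Finset.sum_const_zero,
      Nat.cast_zero, zero_mul, add_zero]
    exact h1
  | succ T ih =>
    intro w o l s β hw hl hβ hβf
    have hne : Nonempty (Fin k → X) := by
      by_contra h
      have h2 := hβ.2
      rw [Finset.univ_eq_empty_iff.2 (not_nonempty_iff.1 h), Finset.sum_empty] at h2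
      exact zero_ne_one h2
    let wu : Option X → ι → ℝ := fun u a => if hd (l a) = u then w a else 0
    have hwu : ∀ u a, 0 ≤ wu u a := fun u a => by
      show 0 ≤ if hd (l a) = u then w a else 0
      split_ifs
      · exact hw a
      · exact le_rfl
    have hsplit : ∀ f : ι → ℝ, ∑ u, ∑ a, wu u a * f a = ∑ a, w a * f a := by
      intro f
      rw [Finset.sum_comm]
      refine Finset.sum_congr rfl fun a _ => ?_
      rw [← Finset.sum_mul]
      simp [wu]
    have hsum : ∑ u, ∑ a, wu u a = ∑ a, w a := by simpa using hsplit fun _ => 1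
    have hQ := fun u => exists_norm (wu u) (hwu u) fun a => (o a, idx (l a))
    choose Q hQ hQf using hQ
    have hall : ∀ u, ∃ A : (Fin k → X) → List X → Fin k,
        ∑ y, E.law s y * ∑ a, wu u a * runCost (A y) [] y ((l a).map Prod.snd) ≤
          (∑ a, wu u a) * E.Φ s (pre (Q u)) + c * ∑ a, wu u a * moveCost (o a) (l a) +
            ε * (T + 1 : ℕ) * ∑ a, wu u a := by
      intro u
      have hu : ∀ a, wu u a ≠ 0 → hd (l a) = u := fun a ha => by
        by_contra h
        exact ha (if_neg h)
      cases u with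
      | some r => exact one_req E ih (wu (some r)) o l s (hwu _) hl r hu (Q _) (hQ _) (hQf _)
      | none =>
        refine ⟨fun _ _ => 0, ?_⟩
        have hW : 0 ≤ ∑ a, wu none a := Finset.sum_nonneg fun a _ => hwu none a
        have e : ∀ y : Fin k → X,
            ∑ a, wu none a * runCost (fun _ => (0 : Fin k)) [] y ((l a).map Prod.snd) = 0 := by
          intro y
          refine Finset.sum_eq_zero fun a _ => ?_
          by_cases ha : wu none a = 0
          · rw [ha, zero_mul]
          · rw [eq_nil_of_hd (hu a ha)]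
            simp [runCost]
        simp only [e, mul_zero, Finset.sum_const_zero]
        have h1 := mul_nonneg hW (E.Φ_nonneg s _ (pre_mem (hQ none)))
        have h2 : 0 ≤ c * ∑ a, wu none a * moveCost (o a) (l a) :=
          mul_nonneg hc (Finset.sum_nonneg fun a _ => mul_nonneg (hwu _ a) (moveCost_nonneg _ _))
        have h3 : 0 ≤ ε * (T + 1 : ℕ) * ∑ a, wu none a := by positivity
        linarith
    choose A hA using hall
    refine ⟨fun y h => A h.head? y h, ?_⟩
    have e1 : ∀ y : Fin k → X,
        ∑ a, w a * runCost (fun h => A h.head? y h) [] y ((l a).map Prod.snd) =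
          ∑ u, ∑ a, wu u a * runCost (A u y) [] y ((l a).map Prod.snd) := by
      intro y
      rw [← hsplit]
      refine Finset.sum_congr rfl fun u _ => Finset.sum_congr rfl fun a _ => ?_
      by_cases ha : hd (l a) = u
      · refine congrArg (fun t => wu u a * t) ?_
        cases hla : l a with
        | nil => rfl
        | cons z t =>
          rw [hla] at ha
          have hu : u = some z.2 := ha.symm
          simp only [List.map_cons, runCost, List.nil_append, List.head?_cons, hu]
          refine congrArg (fun t => dist (y (A (some z.2) y [z.2])) z.2 + t)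
            (runCost_congr _ _ _ _ _ _ fun r' t' => ?_)
          simp
      · have : wu u a = 0 := if_neg ha
        rw [this, zero_mul, zero_mul]
    have e2 : ∑ y, E.law s y *
        ∑ a, w a * runCost (fun h => A h.head? y h) [] y ((l a).map Prod.snd) =
          ∑ u, ∑ y, E.law s y * ∑ a, wu u a * runCost (A u y) [] y ((l a).map Prod.snd) := by
      rw [Finset.sum_comm]
      exact Finset.sum_congr rfl fun y _ => by rw [e1, Finset.mul_sum]
    have hJ := conc (E.concave s) (fun u => ∑ a, wu u a)
      (fun u => Finset.sum_nonneg fun a _ => hwu u a) (fun u => pre (Q u))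
      (fun u => pre_mem (hQ u)) β (fun y => by
        have h1 := hβf fun x => if x = y then 1 else 0
        have h2 : ∀ u, (∑ a, wu u a) * pre (Q u) y =
            ∑ a, wu u a * if o a = y then 1 else 0 := by
          intro u
          have h3 := hQf u fun z => if z.1 = y then 1 else 0
          rw [← sum_pre (Q u) fun x => if x = y then 1 else 0] at h3
          simpa using h3
        rw [hsum, Finset.sum_congr rfl fun u _ => h2 u, hsplit, ← h1]
        simp)
    rw [e2]
    refine (Finset.sum_le_sum fun u _ => hA u).trans ?_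
    rw [Finset.sum_add_distrib, Finset.sum_add_distrib, ← Finset.mul_sum, ← Finset.mul_sum, hsplit,
      hsum]
    rw [hsum] at hJ
    linarith

/-- the Bayes bound on a finite space -/
theorem bayes [NeZero k] [Nonempty X] {c B : ℝ} (hc : 0 ≤ c)
    (H : ∀ ε : ℝ, 0 < ε → Nonempty (Eng X k c B ε)) (s : Fin k → X) :
    ∃ B' : ℝ, ∀ (F : Finset (List X)) (w : List X → ℝ), (∀ σ, 0 ≤ w σ) → ∑ σ ∈ F, w σ = 1 →
      ∃ a : List X → Fin k,
        ∑ σ ∈ F, w σ * policyCost s a σ ≤ ∑ σ ∈ F, w σ * (c * opt s σ + B') := by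
  classical
  obtain ⟨D, -, hD⟩ := exists_mdist_bound X k
  refine ⟨B + D + 1, fun F w hw hw1 => ?_⟩
  set T : ℕ := F.sup List.length with hT
  have hε : (0 : ℝ) < 1 / (T + 1) := by positivity
  obtain ⟨E⟩ := H _ hε
  choose f hf using fun σ : List X => exists_opt_eq s σ
  have hw1' : ∑ σ : F, w σ = 1 := by rw [Finset.sum_coe_sort F w, hw1]
  obtain ⟨β, hβ, hβf⟩ := exists_norm (fun σ : F => w σ) (fun σ => hw σ) fun _ => s
  obtain ⟨A, hA⟩ := claim hc hε.le E F T (fun σ => w σ) (fun _ => s)
    (fun σ => List.ofFn fun t => (f σ.1 t, σ.1.get t)) E.st0 β (fun σ => hw σ)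
    (fun σ => by rw [List.length_ofFn]; exact Finset.le_sup (f := List.length) σ.2) hβ hβf
  have e1 : ∀ σ : List X, (List.ofFn fun t => (f σ t, σ.get t)).map Prod.snd = σ := by
    intro σ
    rw [List.map_ofFn]
    exact List.ofFn_get σ
  have e2 : ∀ σ : List X, moveCost s (List.ofFn fun t => (f σ t, σ.get t)) = opt s σ :=
    fun σ => (hf σ).symm
  simp only [e1, e2, hw1', one_mul, mul_one] at hA
  obtain ⟨y, -, hy⟩ := Finset.exists_min_image Finset.univ
    (fun y : Fin k → X => ∑ σ : F, w σ * runCost (A y) [] y σ) ⟨s, mem_univ s⟩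
  have h1 : ∑ σ : F, w σ * runCost (A y) [] y σ ≤
      ∑ y', E.law E.st0 y' * ∑ σ : F, w σ * runCost (A y') [] y' σ := by
    calc ∑ σ : F, w σ * runCost (A y) [] y σ
        = ∑ y', E.law E.st0 y' * ∑ σ : F, w σ * runCost (A y) [] y σ := by
          rw [← Finset.sum_mul, (E.law_mem _).2, one_mul]
      _ ≤ _ := Finset.sum_le_sum fun y' _ =>
          mul_le_mul_of_nonneg_left (hy y' (mem_univ _)) ((E.law_mem _).1 y')
  obtain ⟨b, hb⟩ := exists_lip (A y) s y
  refine ⟨b, ?_⟩
  rw [← Finset.sum_coe_sort F, ← Finset.sum_coe_sort F]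
  have h2 : ∑ σ : F, w σ * policyCost s b σ ≤
      ∑ σ : F, w σ * (D + runCost (A y) [] y σ) := by
    refine Finset.sum_le_sum fun σ _ => mul_le_mul_of_nonneg_left ?_ (hw σ)
    rw [policyCost_eq]
    exact (hb σ).trans (add_le_add_left (hD s y) _)
  have h3 : ∑ σ : F, w σ * (D + runCost (A y) [] y σ) =
      D + ∑ σ : F, w σ * runCost (A y) [] y σ := by
    simp only [mul_add, Finset.sum_add_distrib]
    rw [← Finset.sum_mul, hw1', one_mul]
  have h4 : ∑ σ : F, w σ * (c * opt s σ + (B + D + 1)) =
      c * ∑ σ : F, w σ * opt s σ + (B + D + 1) := by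
    rw [Finset.sum_congr rfl fun (σ : F) _ => mul_add (w σ) (c * opt s σ) (B + D + 1),
      Finset.sum_add_distrib, ← Finset.sum_mul, hw1', one_mul, Finset.mul_sum]
    exact congrArg (fun t => t + (B + D + 1)) (Finset.sum_congr rfl fun σ _ => by ring)
  have h5 := E.Φ_st0 β hβ
  have h6 : 1 / ((T : ℝ) + 1) * T ≤ 1 := by
    rw [one_div, inv_mul_le_iff₀ (by positivity)]
    linarith
  rw [h4]
  linarith

end Main

end G

theorem stG : StG := by
  classical
  intro k c hk hc H
  have : NeZero k := ⟨by omega⟩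
  have hfin : Rfin k ≤ ENNReal.ofReal c := by
    unfold Rfin
    refine iSup_le fun X => iSup_le fun _ => iSup_le fun _ => iSup_le fun _ => iSup_le fun s => ?_
    have := Fintype.ofFinite X
    have : Nonempty X := ⟨s 0⟩
    obtain ⟨B, hB⟩ := H X
    obtain ⟨B', hB'⟩ := G.bayes hc hB s
    have h1 : IsCompetitive s (c.toNNReal : ℝ) := by
      rw [isCompetitive_iff]
      refine ⟨B', ?_⟩
      rw [Real.coe_toNNReal _ hc]
      exact good_of_finite s _ _ fun F => Dyn.good_of_bayes s _ _ F fun w hw hw1 => hB' F w hw hw1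
    exact ratio_le h1
  calc R k ≤ 2 * Rfin k - 1 := R_le
    _ ≤ 2 * Rfin k := tsub_le_self
    _ ≤ 2 * ENNReal.ofReal c := mul_le_mul_right hfin 2
    _ = ENNReal.ofReal (2 * c) := by
        rw [ENNReal.ofReal_mul (by norm_num), ENNReal.ofReal_ofNat]

end Vale.Agent.P304Z
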