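import Vale.Agent.P304Z.Defs

/-!
# P304Z, layer H: definitions of the tree engine and the statements of its blocks
-/

open Finset

namespace Vale.Agent.P304Z.H

noncomputable def uu (s : ℝ) : ℝ := max (1 - s) 0
noncomputable def ff (s : ℝ) : ℝ := uu s ^ 2
noncomputable def be (s : ℝ) : ℝ := 2 * s * uu s ^ 2
noncomputable def ka (s : ℝ) : ℝ := ff s + be s

section Vec

variable {k : ℕ}

noncomputable def FF (θ : ℝ) (q : Fin k → ℝ) : ℝ := ∑ j, ff (θ * (1 - q j))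
noncomputable def DD (θ : ℝ) (q : Fin k → ℝ) : ℝ := ∑ j, be (θ * (1 - q j))
noncomputable def KK (θ : ℝ) (q : Fin k → ℝ) : ℝ := ∑ j, ka (θ * (1 - q j))
noncomputable def GG (q : Fin k → ℝ) : ℝ := ∑ j, q j ^ 2
noncomputable def VV (q x : Fin k → ℝ) : ℝ := ∑ j, (q j - x j) ^ 2

/-- thresholded size -/
noncomputable def gt (y : Fin k → ℝ) : ℝ := if 1 / 20 ≤ GG y then GG y else 0

end Vec

noncomputable def Lam (k : ℕ) : ℝ := 4 + Real.log k
noncomputable def eta (k : ℕ) : ℝ := 1 / (600 * Lam k)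
noncomputable def L0 (k : ℕ) : ℝ := 25600 * Lam k
noncomputable def W1 (k : ℕ) : ℝ := 260000 * Lam k
noncomputable def W2 (k : ℕ) : ℝ := 1000000000 * Lam k
noncomputable def W0 (k : ℕ) : ℝ := 2000000000 * Lam k

/-- the lazy size `g` is a fair copy of the size `G` -/
def szOK (g G : ℝ) : Prop := (g = 0 ∧ G < 1 / 10) ∨ (0 < g ∧ g ≤ 11 / 10 * G ∧ G ≤ 11 / 10 * g)

/-- states: references `x` (for the demands) and `y` (for the sizes), tracked shares `rh`,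
multipliers `th`, masses `mu` -/
structure HS (N : Type) (k : ℕ) where
  x : N → Fin k → ℝ
  y : N → Fin k → ℝ
  rh : N → ℝ
  th : N → ℝ
  mu : N → ℝ

variable {N : Type} [Fintype N] [DecidableEq N] {k : ℕ} (T : Tr N)

/-- lazy size -/
noncomputable def sz (y : N → Fin k → ℝ) (v : N) : ℝ := gt (y v)

/-- heavy child -/
def core (y : N → Fin k → ℝ) (c : N) : Prop := c ≠ T.root ∧ 2 / 3 * sz y (T.par c) < sz y c

open Classical in
/-- the other children -/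
noncomputable def side (y : N → Fin k → ℝ) (w : N) : Finset N :=
  (T.ch w).filter fun c => ¬ core T y c

noncomputable def ep (y : N → Fin k → ℝ) (c : N) : ℝ :=
  Real.log (sz y (T.par c) / sz y c) / (8 * Lam k)

noncomputable def dl (y : N → Fin k → ℝ) (c : N) : ℝ := sz y c / (80 * Lam k * sz y (T.par c))

noncomputable def Dl (y : N → Fin k → ℝ) (w : N) : ℝ := ∑ c ∈ side T y w, dl T y c

open Classical in
noncomputable def inc (y : N → Fin k → ℝ) (c : N) : ℝ :=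
  if core T y c then Dl T y (T.par c) / 2 else ep T y c

/-- total flexible demand of the children of `w` -/
noncomputable def Dt (th : N → ℝ) (q : N → Fin k → ℝ) (w : N) : ℝ := ∑ c ∈ T.ch w, DD (th w) (q c)

/-- share of the child `c` -/
noncomputable def rr (th : N → ℝ) (q : N → Fin k → ℝ) (c : N) : ℝ :=
  DD (th (T.par c)) (q c) / Dt T th q (T.par c)

variable (e : HS N k)

noncomputable def bb (c : N) : ℝ := KK (e.th (T.par c)) (e.x c)

noncomputable def ph (c : N) : ℝ := max (e.rh c * (1 + ep T e.y c / 4) - dl T e.y c / 8) 0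

open Classical in
noncomputable def pi (c : N) : ℝ :=
  if core T e.y c then max (1 - ∑ c' ∈ side T e.y (T.par c), ph T e c') 0 else ph T e c

noncomputable def RR (w : N) : ℝ := ∑ c ∈ T.ch w, bb T e c - e.mu w

noncomputable def lg (c : N) : ℝ := Real.log (1 + ep T e.y c * e.rh c / dl T e.y c)

noncomputable def t1 (c : N) : ℝ := 400 / ep T e.y c * (e.rh c - dl T e.y c / ep T e.y c * lg T e c)

noncomputable def t2 (c : N) : ℝ := 400 / ep T e.y c * lg T e c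

open Classical in
noncomputable def co (c : N) : ℝ :=
  ∑ c' ∈ side T e.y (T.par c), t1 T e c' - if core T e.y c then 0 else t2 T e c

/-- the potential of one coordinate -/
noncomputable def gg (k : ℕ) (x y a θ t : ℝ) : ℝ :=
  W0 k * (t * (1 - t)) + W1 k * (t - x) ^ 2 + W2 k * (t - y) ^ 2 + a * be (θ * (1 - t))

noncomputable def Phi (q : N → Fin k → ℝ) : ℝ :=
  ∑ c ∈ univ.erase T.root, T.rho (T.dep c) *
    ∑ j, gg k (e.x c j) (e.y c j) (co T e c) (e.th (T.par c)) (q c j)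

/-- sizes and multipliers are balanced for `q` -/
structure Sz (y : N → Fin k → ℝ) (th : N → ℝ) (q : N → Fin k → ℝ) : Prop where
  ybox : y ∈ Box N k
  yroot : ∀ j, y T.root j = 1
  size : ∀ v, szOK (sz y v) (GG (q v))
  par : ∀ c, c ≠ T.root → sz y (T.par c) = 0 → sz y c = 0
  throot : th T.root = 3 / 2
  thstep : ∀ c, c ≠ T.root → th c = th (T.par c) + 2 * inc T y c

/-- the state is balanced for `q` -/
structure Bal (q : N → Fin k → ℝ) : Prop where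
  sz : Sz T e.y e.th q
  xbox : e.x ∈ Box N k
  xref : ∀ c, c ≠ T.root → VV (q c) (e.x c) ≤ eta k ^ 2 / 96 * DD (e.th (T.par c)) (q c)
  rh01 : ∀ c, 0 ≤ e.rh c ∧ e.rh c ≤ 1
  track : ∀ c, c ≠ T.root → ¬ core T e.y c →
    |e.rh c - rr T e.th q c| ≤ (ep T e.y c * e.rh c + dl T e.y c) / 16
  muroot : e.mu T.root = k
  mustep : ∀ c, c ≠ T.root → e.mu c = bb T e c - max (RR T e (T.par c)) 0 * pi T e c

/-- consequences of `Sz` -/
structure Par (y : N → Fin k → ℝ) (th : N → ℝ) : Prop where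
  th_lo : ∀ v, 3 / 2 ≤ th v
  th_hi : ∀ v, th v ≤ 2
  uniq : ∀ c c', core T y c → core T y c' → T.par c = T.par c' → c = c'
  act : ∀ c, c ≠ T.root → ¬ core T y c → sz y c ≠ 0 →
    1 / (20 * Lam k) ≤ ep T y c ∧ ep T y c ≤ 1 / 8 ∧ 0 < dl T y c ∧
      Real.log (1 + ep T y c / dl T y c) ≤ 64 * Lam k * ep T y c
  inact : ∀ c, sz y c = 0 → ep T y c = 0 ∧ dl T y c = 0 ∧ ¬ core T y c
  Dl_le : ∀ w, 0 ≤ Dl T y w ∧ Dl T y w ≤ 1 / (60 * Lam k)
  inc01 : ∀ c, c ≠ T.root → 0 ≤ inc T y c ∧ inc T y c ≤ 1 / 8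

/-- consequences of `Bal` -/
structure Str (q : N → Fin k → ℝ) : Prop where
  par : Par T e.y e.th
  rh_inact : ∀ c, c ≠ T.root → sz e.y c = 0 → e.rh c = 0 ∧ DD (e.th (T.par c)) (q c) = 0
  ph_le : ∀ c, c ≠ T.root → ¬ core T e.y c →
    ph T e c ≤ rr T e.th q c * (1 + 3 * ep T e.y c / 8) ∧ ph T e c ≤ 21 / 20 * rr T e.th q c
  ph_ge : ∀ c, c ≠ T.root → ¬ core T e.y c →
    rr T e.th q c * (1 + 1 / (120 * Lam k)) - dl T e.y c / 4 ≤ ph T e c
  pisum : ∀ w, ∑ c ∈ T.ch w, pi T e c ≤ 21 / 20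
  t12 : ∀ c, c ≠ T.root → ¬ core T e.y c → 0 ≤ t1 T e c ∧ 0 ≤ t2 T e c ∧ t2 T e c ≤ L0 k
  co_le : ∀ c, c ≠ T.root → |co T e c| ≤ L0 k
  bref : ∀ c, c ≠ T.root →
    |bb T e c - KK (e.th (T.par c)) (q c)| ≤ eta k * DD (e.th (T.par c)) (q c)

/-- feasibility -/
structure Fea (q : N → Fin k → ℝ) : Prop where
  need : ∀ v, FF (e.th v) (q v) ≤ e.mu v
  RR_le : ∀ w, RR T e w ≤ (1 + eta k) * Dt T e.th q w
  flow : Flow T k e.mu
  mass : ∀ v, e.mu v ≤ 6 * ∑ j, q v j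

/-- the size of `v` must be renewed -/
def trig (q : N → Fin k → ℝ) (v : N) : Prop := ¬ szOK (sz e.y v) (GG (q v))

open Classical in
/-- description of the next state; `res` = nodes below a trigger -/
structure Nxt (q : N → Fin k → ℝ) (e' : HS N k) (res : N → Prop) : Prop where
  res_iff : ∀ v, res v ↔ trig e q v ∨ (v ≠ T.root ∧ res (T.par v))
  y_eq : ∀ v, e'.y v = if res v then q v else e.y v
  x_eq : ∀ c, e'.x c =
    if VV (q c) (e.x c) ≤ eta k ^ 2 / 96 * DD (e'.th (T.par c)) (q c) then e.x c else q c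
  rh_eq : ∀ c, e'.rh c =
    if ¬ res c ∧ |e.rh c - rr T e'.th q c| ≤ (ep T e'.y c * e.rh c + dl T e'.y c) / 16
    then e.rh c else rr T e'.th q c

/-! ### the blocks -/

/-- scalar facts, part 1 -/
structure S1 : Prop where
  slack : ∀ s s' ε : ℝ, 0 ≤ s → 0 ≤ ε → ε ≤ 1 → s * (1 + ε) ≤ s' → ff s' + ε / 2 * be s ≤ ff s
  be_nonneg : ∀ s : ℝ, 0 ≤ s → 0 ≤ be s
  ka_le : ∀ θ q : ℝ, 3 / 2 ≤ θ → θ ≤ 2 → 0 ≤ q → q ≤ 1 →
    ka (θ * (1 - q)) ≤ 9 * q ^ 2 ∧ ka (θ * (1 - q)) ≤ 3 * q ∧ be (θ * (1 - q)) ≤ 12 * (q * (1 - q))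
  zero : ∀ θ q : ℝ, 3 / 2 ≤ θ → q ≤ 1 / 3 → uu (θ * (1 - q)) = 0
  ka_ref : ∀ s s' η : ℝ, 0 ≤ s → 0 ≤ s' → 0 < η →
    |ka s' - ka s| ≤ η / 2 * be s + (9 / η + 3) * (s' - s) ^ 2
  drift : ∀ θ θ' q : ℝ, 3 / 2 ≤ θ → θ ≤ 2 → 3 / 2 ≤ θ' → θ' ≤ 2 → 0 ≤ q → q ≤ 1 →
    |ka (θ' * (1 - q)) - ka (θ * (1 - q))| ≤ 9 * |θ' - θ| * q ^ 2 ∧
    |be (θ' * (1 - q)) - be (θ * (1 - q))| ≤ 12 * |θ' - θ| * q ^ 2
  ff_eq : ∀ θ q : ℝ, 0 < θ → ff (θ * (1 - q)) = θ ^ 2 * (max (q - (1 - 1 / θ)) 0) ^ 2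

/-- scalar facts, part 2 (entropy and the coordinate potential) -/
structure S2 : Prop where
  breg : ∀ ε δ ρ r : ℝ, 0 < ε → 0 < δ → 0 ≤ ρ → 0 ≤ r →
    (400 / ε * (r - δ / ε * Real.log (1 + ε * r / δ)) - 400 / ε * Real.log (1 + ε * r / δ) * r) +
      200 * (r - ρ) ^ 2 / (2 * δ + ε * ρ + ε * r) ≤
    400 / ε * (ρ - δ / ε * Real.log (1 + ε * ρ / δ)) - 400 / ε * Real.log (1 + ε * ρ / δ) * r
  self_le : ∀ ε δ r : ℝ, 0 < ε → 0 < δ → 0 ≤ r →
    400 / ε * (r - δ / ε * Real.log (1 + ε * r / δ)) - 400 / ε * Real.log (1 + ε * r / δ) * r ≤ 0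
  gg_nonneg : ∀ (k : ℕ) (x y a θ t : ℝ), 1 ≤ k → |a| ≤ L0 k → 3 / 2 ≤ θ → θ ≤ 2 → 0 ≤ t → t ≤ 1 →
    0 ≤ gg k x y a θ t
  gg_concave : ∀ (k : ℕ) (x y a θ : ℝ), 1 ≤ k → |a| ≤ L0 k → 3 / 2 ≤ θ → θ ≤ 2 →
    ConcaveOn ℝ (Set.Icc 0 1) (gg k x y a θ)
  gg_lip : ∀ (k : ℕ) (x y a θ t t' : ℝ), 1 ≤ k → |a| ≤ L0 k → 3 / 2 ≤ θ → θ ≤ 2 →
    0 ≤ x → x ≤ 1 → 0 ≤ y → y ≤ 1 → 0 ≤ t → t ≤ 1 → 0 ≤ t' → t' ≤ 1 →
    gg k x y a θ t' ≤ gg k x y a θ t + 5000000000 * Lam k * |t' - t|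

def StPar : Prop := ∀ (N : Type) [Fintype N] [DecidableEq N] (k : ℕ) (T : Tr N)
  (y : N → Fin k → ℝ) (th : N → ℝ) (q : N → Fin k → ℝ), 1 ≤ k → Adm T q → Sz T y th q → Par T y th

def StStr : Prop := ∀ (N : Type) [Fintype N] [DecidableEq N] (k : ℕ) (T : Tr N)
  (e : HS N k) (q : N → Fin k → ℝ), 1 ≤ k → Adm T q → Bal T e q → Str T e q

def StFea : Prop := ∀ (N : Type) [Fintype N] [DecidableEq N] (k : ℕ) (T : Tr N)
  (e : HS N k) (q : N → Fin k → ℝ), 1 ≤ k → Adm T q → Bal T e q → Str T e q → Fea T e q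

def StNxt : Prop := ∀ (N : Type) [Fintype N] [DecidableEq N] (k : ℕ) (T : Tr N)
  (e : HS N k) (q0 q : N → Fin k → ℝ), 1 ≤ k → Adm T q0 → Bal T e q0 → Adm T q →
  ∃ e' res, Nxt T e q e' res ∧ Bal T e' q

/-- everything known about one step -/
structure Ctx (q0 q : N → Fin k → ℝ) (e' : HS N k) (res : N → Prop) : Prop where
  hk : 1 ≤ k
  adm0 : Adm T q0
  adm : Adm T q
  bal0 : Bal T e q0
  bal : Bal T e' q
  str0 : Str T e q0
  str : Str T e' q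
  fea : Fea T e' q
  nxt : Nxt T e q e' res

open Classical in
/-- demands and drift of the entropy terms -/
def StB : Prop := ∀ (N : Type) [Fintype N] [DecidableEq N] (k : ℕ) (T : Tr N)
  (e e' : HS N k) (q0 q : N → Fin k → ℝ) (res : N → Prop), Ctx T e q0 q e' res → ∀ w,
  44 / 10 * ∑ c ∈ T.ch w, |bb T e' c - bb T e c| +
    ∑ c ∈ T.ch w, co T e c * (DD (e'.th w) (q c) - DD (e.th w) (q c)) ≤
  W1 k * ∑ c ∈ T.ch w, (VV (q c) (e.x c) - VV (q c) (e'.x c)) +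
    (160 + 12 * L0 k) * (|e'.th w - e.th w| * GG (q w))

open Classical in
/-- shares -/
def StPi : Prop := ∀ (N : Type) [Fintype N] [DecidableEq N] (k : ℕ) (T : Tr N)
  (e e' : HS N k) (q0 q : N → Fin k → ℝ) (res : N → Prop), Ctx T e q0 q e' res → ∀ w,
  22 / 10 * (max (RR T e' w) 0 * ∑ c ∈ T.ch w, |pi T e' c - pi T e c|) +
    ∑ c ∈ T.ch w, (co T e' c - co T e c) * DD (e'.th w) (q c) ≤
  (9 * L0 k + 43) * ∑ c ∈ T.ch w, (if res c then GG (q c) else 0) +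
    43 * (if res w then GG (q w) else 0) +
    71 * ∑ c ∈ T.ch w, (if trig e q c then GG (q c) + sz e.y c else 0)

open Classical in
/-- sums over the tree: renewed nodes, drift of the multipliers, budget of the triggers -/
def StZ : Prop := ∀ (N : Type) [Fintype N] [DecidableEq N] (k : ℕ) (T : Tr N)
  (e e' : HS N k) (q0 q : N → Fin k → ℝ) (res : N → Prop), Ctx T e q0 q e' res →
  ¬ res T.root ∧
  ∑ v, T.rho (T.dep v) * (if res v then GG (q v) else 0) ≤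
    2 * ∑ v, T.rho (T.dep v) * (if trig e q v then GG (q v) + sz e.y v else 0) ∧
  ∑ w, T.rho (T.dep w + 1) * (|e'.th w - e.th w| * GG (q w)) ≤
    ∑ v, T.rho (T.dep v) * (if trig e q v then GG (q v) + sz e.y v else 0) ∧
  ∀ v, (if trig e q v then GG (q v) + sz e.y v else 0) ≤
    1000 * (VV (q v) (e.y v) - VV (q v) (e'.y v))

/-- movement -/
def StM : Prop := ∀ (N : Type) [Fintype N] [DecidableEq N] (k : ℕ) (T : Tr N)
  (e e' : HS N k) (q0 q : N → Fin k → ℝ) (res : N → Prop), Ctx T e q0 q e' res →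
  tmv T e.mu e'.mu ≤ ∑ w, T.rho (T.dep w + 1) *
    (44 / 10 * ∑ c ∈ T.ch w, |bb T e' c - bb T e c| +
      22 / 10 * (max (RR T e' w) 0 * ∑ c ∈ T.ch w, |pi T e' c - pi T e c|))

end Vale.Agent.P304Z.H
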