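import Vale.Agent.P304.Bdl.B2

/-!
# P304Z, lower bound `c log ^ 2 k ≤ R k`: definitions and statements of the blocks

Set chasing games with a certificate: `ρ + φ x` is a lower bound for the expected remaining cost
of an online algorithm standing at `x`; `O` is a set of places of the offline player.
-/

open Finset

namespace Vale.Agent.P304Z.LB

open Vale.Agent.P304

/-- frame: points, start, end, diameter, cap for the values, height -/
structure Fr (E : Type) where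
  U : Finset E
  s : E
  t : E
  D : ℝ
  C : ℝ
  h : E → ℝ

variable {E : Type} [MetricSpace E] [DecidableEq E]

structure Fr.Ok (F : Fr E) : Prop where
  s_mem : F.s ∈ F.U
  t_mem : F.t ∈ F.U
  D_pos : 0 < F.D
  diam : ∀ x ∈ F.U, ∀ y ∈ F.U, dist x y ≤ F.D
  h_lip : ∀ x y, F.h x ≤ F.h y + dist x y
  h_s : F.h F.s = 0
  h_t : F.h F.t = F.D
  h_range : ∀ x ∈ F.U, 0 ≤ F.h x ∧ F.h x ≤ F.D

/-- conditions on every node -/
structure Nd (F : Fr E) (S O : Finset E) (ρ : ℝ) (φ : E → ℝ) : Prop where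
  sub : S ⊆ F.U
  osub : O ⊆ S
  one : O.Nonempty
  ρ_range : 0 ≤ ρ ∧ ρ ≤ F.C
  φ_range : ∀ x ∈ S, 0 ≤ φ x ∧ φ x ≤ F.D
  lip : ∀ x ∈ S, ∀ y ∈ S, φ x ≤ dist x y + φ y

/-- final nodes -/
def Term (F : Fr E) (S : Finset E) (ρ : ℝ) (φ : E → ℝ) : Prop := S = {F.t} ∧ ρ = 0 ∧ φ F.t = 0

/-- certified request trees of depth at most `N` -/
def Game (F : Fr E) : ℕ → Finset E → Finset E → ℝ → (E → ℝ) → Prop
  | 0, S, O, ρ, φ => Nd F S O ρ φ ∧ Term F S ρ φ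
  | N + 1, S, O, ρ, φ => Nd F S O ρ φ ∧ (Term F S ρ φ ∨
      ∃ (ι : Type) (_ : Fintype ι) (p : ι → ℝ) (S' O' : ι → Finset E) (ρ' : ι → ℝ)
        (φ' : ι → E → ℝ), p ∈ stdSimplex ℝ ι ∧ (∀ i, Game F N (S' i) (O' i) (ρ' i) (φ' i)) ∧
        (∀ i, ∀ y ∈ O' i, ∃ x ∈ O, F.h x + dist x y ≤ F.h y) ∧
        ∑ i, p i * ρ' i ≤ ρ ∧ ρ ≤ ∑ i, p i * ρ' i + F.D ∧
        ∀ x ∈ S, ∀ y : ι → E, (∀ i, y i ∈ S' i) →
          ρ + φ x ≤ ∑ i, p i * (dist x (y i) + ρ' i + φ' i (y i)))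

/-- a level with at most `n` points and ratio at least `x` -/
def Lvl (n : ℕ) (x : ℝ) : Prop :=
  ∃ (E : Type) (_ : MetricSpace E) (_ : DecidableEq E) (_ : Infinite E) (F : Fr E) (T : ℝ) (N : ℕ)
    (φ : E → ℝ), F.Ok ∧ F.U.card ≤ n ∧ F.C = 2 * T ∧ x * F.D ≤ T ∧ Game F N {F.s} {F.s} T φ

/-- a copy of the frame `F` in the frame `F'`, with the folding map `π` and the height shift `a` -/
structure Copy {E' : Type} [MetricSpace E'] (F : Fr E) (F' : Fr E') (e : E → E') (π : E' → E)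
    (a : ℝ) : Prop where
  mem : ∀ x ∈ F.U, e x ∈ F'.U
  inv : ∀ x ∈ F.U, π (e x) = x
  lip : ∀ x ∈ F.U, ∀ y ∈ F.U, dist (e x) (e y) ≤ dist x y
  fold : ∀ z z', dist (π z) (π z') ≤ dist z z'
  hgt : ∀ x ∈ F.U, F'.h (e x) = F.h x + a

/-- cost of the online set chaser `g` after the history `h`, standing at `x` -/
noncomputable def mcost (g : List (Finset E) → E) : List (Finset E) → E → List (Finset E) → ℝ
  | _, _, [] => 0
  | h, x, S :: σ => dist x (g (h ++ [S])) + mcost g (h ++ [S]) (g (h ++ [S])) σ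

/-- the sequence can be served offline from `x` at cost at most `c` -/
def Off : E → List (Finset E) → ℝ → Prop
  | _, [], c => 0 ≤ c
  | x, S :: σ, c => ∃ y ∈ S, Off y σ (c - dist x y)

/-- hard distributions for set chasing in `U`, with offline cost `m * a` and online cost `m * b` -/
def Hard (U : Finset E) (s : E) (a b : ℝ) : Prop := ∀ m : ℕ,
  ∃ (ι : Type) (_ : Fintype ι) (p : ι → ℝ) (σ : ι → List (Finset E)), p ∈ stdSimplex ℝ ι ∧
    (∀ i, ∀ S ∈ σ i, S ⊆ U ∧ S.Nonempty) ∧ (∀ i, Off s (σ i) (m * a)) ∧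
    ∀ g : List (Finset E) → E, (∀ h S, S.Nonempty → g (h ++ [S]) ∈ S) →
      m * b ≤ ∑ i, p i * mcost g [] s (σ i)

/-! ### the blocks -/

/-- structural rules -/
structure Rules : Prop where
  nd : ∀ (E : Type) [MetricSpace E] [DecidableEq E] (F : Fr E) N S O ρ φ,
    Game F N S O ρ φ → Nd F S O ρ φ
  mono : ∀ (E : Type) [MetricSpace E] [DecidableEq E] (F : Fr E) N N' S O ρ φ, N ≤ N' →
    Game F N S O ρ φ → Game F N' S O ρ φ
  lower : ∀ (E : Type) [MetricSpace E] [DecidableEq E] (F : Fr E) N S O ρ φ ψ,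
    Game F N S O ρ ψ → Nd F S O ρ φ → (∀ x ∈ S, φ x ≤ ψ x) → Game F N S O ρ φ
  cap : ∀ (E : Type) [MetricSpace E] [DecidableEq E] (F : Fr E) (C' : ℝ) N S O ρ φ, F.C ≤ C' →
    Game F N S O ρ φ → Game { F with C := C' } N S O ρ φ

/-- the same game in two copies at once (or in one copy, `e₁ = e₂`), followed by a continuation -/
def StSym : Prop := ∀ (E E' : Type) [MetricSpace E] [DecidableEq E] [MetricSpace E']
  [DecidableEq E'] (F : Fr E) (F' : Fr E') (e₁ e₂ : E → E') (π : E' → E) (a V : ℝ) (N' : ℕ)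
  (ψ : E' → ℝ), F.Ok → Copy F F' e₁ π a → Copy F F' e₂ π a → F.D ≤ F'.D → 0 ≤ V →
  F.C + V ≤ F'.C → Game F' N' {e₁ F.t, e₂ F.t} {e₁ F.t, e₂ F.t} V ψ →
  ∀ N S O ρ φ, Game F N S O ρ φ →
    Game F' (N + N') (S.image e₁ ∪ S.image e₂) (O.image e₁ ∪ O.image e₂) (ρ + V) (fun z => φ (π z))

/-- the middle stage: coin tosses between two far copies, then one copy is dropped -/
def StMid : Prop := ∀ (E E' : Type) [MetricSpace E] [DecidableEq E] [MetricSpace E']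
  [DecidableEq E'] (F : Fr E) (F' : Fr E') (e₁ e₂ : E → E') (π : E' → E) (a V T : ℝ),
  F.Ok → Copy F F' e₁ π a → Copy F F' e₂ π a → 3 * F.D ≤ F'.D → 0 ≤ V → F.C = 2 * T →
  3 * T + V ≤ F'.C → 128 * F.D ≤ T →
  (∀ x ∈ F.U, ∀ y ∈ F.U, 4 * F.D ≤ dist (e₁ x) (e₂ y)) →
  (∀ N S O ρ φ, Game F N S O ρ φ →
    ∃ N', Game F' N' (S.image e₁) (O.image e₁) (ρ + V) (fun z => φ (π z))) →
  (∀ N S O ρ φ, Game F N S O ρ φ →
    ∃ N', Game F' N' (S.image e₂) (O.image e₂) (ρ + V) (fun z => φ (π z))) →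
  ∀ N φ, Game F N {F.s} {F.s} T φ →
    ∃ G N', T + (Real.sqrt (F.D * T / 2) - 2 * F.D) / 16 ≤ G ∧ G ≤ 2 * T ∧
      Game F' N' {e₁ F.s, e₂ F.s} {e₁ F.s, e₂ F.s} (G + V) (fun z => φ (π z))

def StStep : Prop := ∀ (n : ℕ) (x : ℝ), 128 ≤ x → Lvl n x → Lvl (10 * n) (x + Real.sqrt x / 200)

def StBase : Prop := ∃ n : ℕ, 1 ≤ n ∧ Lvl n 128

def StExtract : Prop := ∀ (E : Type) [MetricSpace E] [DecidableEq E] (F : Fr E) (T : ℝ) N φ,
  F.Ok → Game F N {F.s} {F.s} T φ → Hard F.U F.s (2 * F.D) T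

def StReduce : Prop := ∀ (E : Type) [MetricSpace E] [DecidableEq E] [Infinite E] (U : Finset E)
  (s : E) (a b : ℝ) (k : ℕ), 1 ≤ k → s ∈ U → U.card ≤ k + 1 → 0 < a → Hard U s a b →
  ENNReal.ofReal (b / a) ≤ R k

end Vale.Agent.P304Z.LB
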