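import Vale.Agent.P304Z.LB0

/-! Lower bound blocks: structural rules, the symmetric stage and the recursion step. -/

open Finset

namespace Vale.Agent.P304Z.LB

namespace LB1

section basic

variable {E : Type} [MetricSpace E]

theorem nd {F : Fr E} {N : ℕ} {S O : Finset E} {ρ : ℝ} {φ : E → ℝ} (h : Game F N S O ρ φ) :
    Nd F S O ρ φ := by
  cases N with
  | zero => exact h.1
  | succ N => exact h.1

theorem succ {F : Fr E} (N : ℕ) : ∀ {S O : Finset E} {ρ : ℝ} {φ : E → ℝ}, Game F N S O ρ φ →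
    Game F (N + 1) S O ρ φ := by
  induction N with
  | zero => intro S O ρ φ h; exact ⟨h.1, Or.inl h.2⟩
  | succ N ih =>
    intro S O ρ φ h
    obtain ⟨h1, h2 | ⟨ι, hι, p, S', O', ρ', φ', hp, hG, hr⟩⟩ := h
    · exact ⟨h1, Or.inl h2⟩
    · exact ⟨h1, Or.inr ⟨ι, hι, p, S', O', ρ', φ', hp, fun i => ih (hG i), hr⟩⟩

theorem mono {F : Fr E} {N N' : ℕ} {S O : Finset E} {ρ : ℝ} {φ : E → ℝ} (hN : N ≤ N')
    (h : Game F N S O ρ φ) : Game F N' S O ρ φ := by
  induction hN with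
  | refl => exact h
  | step _ ih => exact succ _ ih

theorem term_lower {F : Fr E} {S O : Finset E} {ρ : ℝ} {φ ψ : E → ℝ} (h : Term F S ρ ψ)
    (hn : Nd F S O ρ φ) (hle : ∀ x ∈ S, φ x ≤ ψ x) : Term F S ρ φ := by
  obtain ⟨h1, h2, h3⟩ := h
  have ht : F.t ∈ S := by rw [h1]; exact mem_singleton_self _
  exact ⟨h1, h2, le_antisymm (h3 ▸ hle _ ht) (hn.φ_range _ ht).1⟩

theorem lower {F : Fr E} {N : ℕ} {S O : Finset E} {ρ : ℝ} {φ ψ : E → ℝ} (h : Game F N S O ρ ψ)
    (hn : Nd F S O ρ φ) (hle : ∀ x ∈ S, φ x ≤ ψ x) : Game F N S O ρ φ := by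
  cases N with
  | zero => exact ⟨hn, term_lower h.2 hn hle⟩
  | succ N =>
    obtain ⟨_, h2 | ⟨ι, hι, p, S', O', ρ', φ', hp, hG, ho, h3, h4, h5⟩⟩ := h
    · exact ⟨hn, Or.inl (term_lower h2 hn hle)⟩
    · refine ⟨hn, Or.inr ⟨ι, hι, p, S', O', ρ', φ', hp, hG, ho, h3, h4, fun x hx y hy => ?_⟩⟩
      have := h5 x hx y hy
      have := hle x hx
      linarith

theorem nd_cap {F : Fr E} {C' : ℝ} {S O : Finset E} {ρ : ℝ} {φ : E → ℝ} (hC : F.C ≤ C')
    (h : Nd F S O ρ φ) : Nd { F with C := C' } S O ρ φ :=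
  ⟨h.sub, h.osub, h.one, ⟨h.ρ_range.1, h.ρ_range.2.trans hC⟩, h.φ_range, h.lip⟩

theorem cap {F : Fr E} {C' : ℝ} (hC : F.C ≤ C') (N : ℕ) : ∀ {S O : Finset E} {ρ : ℝ} {φ : E → ℝ},
    Game F N S O ρ φ → Game { F with C := C' } N S O ρ φ := by
  induction N with
  | zero => intro S O ρ φ h; exact ⟨nd_cap hC h.1, h.2⟩
  | succ N ih =>
    intro S O ρ φ h
    obtain ⟨h1, h2 | ⟨ι, hι, p, S', O', ρ', φ', hp, hG, hr⟩⟩ := h
    · exact ⟨nd_cap hC h1, Or.inl h2⟩
    · exact ⟨nd_cap hC h1, Or.inr ⟨ι, hι, p, S', O', ρ', φ', hp, fun i => ih (hG i), hr⟩⟩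

end basic

section sym

variable {E E' : Type} [MetricSpace E] [MetricSpace E'] [DecidableEq E']
  {F : Fr E} {F' : Fr E'} {e₁ e₂ : E → E'} {π : E' → E} {a V : ℝ}

theorem fold_mem (h1 : Copy F F' e₁ π a) (h2 : Copy F F' e₂ π a) {S : Finset E} (hS : S ⊆ F.U)
    {z : E'} (hz : z ∈ S.image e₁ ∪ S.image e₂) : π z ∈ S := by
  rcases mem_union.1 hz with h | h
  · obtain ⟨x, hx, rfl⟩ := mem_image.1 h
    rw [h1.inv x (hS hx)]; exact hx
  · obtain ⟨x, hx, rfl⟩ := mem_image.1 h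
    rw [h2.inv x (hS hx)]; exact hx

theorem nd_sym (h1 : Copy F F' e₁ π a) (h2 : Copy F F' e₂ π a) (hD : F.D ≤ F'.D) (hV : 0 ≤ V)
    (hC : F.C + V ≤ F'.C) {S O : Finset E} {ρ : ℝ} {φ : E → ℝ} (h : Nd F S O ρ φ) :
    Nd F' (S.image e₁ ∪ S.image e₂) (O.image e₁ ∪ O.image e₂) (ρ + V) (fun z => φ (π z)) := by
  refine ⟨fun z hz => ?_, union_subset_union (image_subset_image h.osub)
    (image_subset_image h.osub), (h.one.image e₁).mono subset_union_left,
    ⟨by linarith [h.ρ_range.1], by linarith [h.ρ_range.2]⟩, fun z hz => ?_, fun z hz z' hz' => ?_⟩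
  · rcases mem_union.1 hz with h' | h'
    · obtain ⟨x, hx, rfl⟩ := mem_image.1 h'
      exact h1.mem x (h.sub hx)
    · obtain ⟨x, hx, rfl⟩ := mem_image.1 h'
      exact h2.mem x (h.sub hx)
  · have := h.φ_range _ (fold_mem h1 h2 h.sub hz)
    exact ⟨this.1, this.2.trans hD⟩
  · have h3 := h.lip _ (fold_mem h1 h2 h.sub hz) _ (fold_mem h1 h2 h.sub hz')
    have h4 := h1.fold z z'
    show φ (π z) ≤ dist z z' + φ (π z')
    linarith

theorem term_sym (h1 : Copy F F' e₁ π a) (h2 : Copy F F' e₂ π a) (hD : F.D ≤ F'.D) (hV : 0 ≤ V)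
    (hC : F.C + V ≤ F'.C) {N' : ℕ} {ψ : E' → ℝ}
    (hK : Game F' N' {e₁ F.t, e₂ F.t} {e₁ F.t, e₂ F.t} V ψ) {S O : Finset E} {ρ : ℝ} {φ : E → ℝ}
    (h : Nd F S O ρ φ) (hT : Term F S ρ φ) :
    Game F' N' (S.image e₁ ∪ S.image e₂) (O.image e₁ ∪ O.image e₂) (ρ + V)
      (fun z => φ (π z)) := by
  have hn := nd_sym h1 h2 hD hV hC h
  obtain ⟨t1, t2, t3⟩ := hT
  have hO : O = {F.t} := by
    have := h.osub
    rw [t1] at this
    rcases subset_singleton_iff.1 this with h' | h'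
    · exact absurd h' h.one.ne_empty
    · exact h'
  have hS := h.sub
  have hf := fun z => fold_mem h1 h2 hS (z := z)
  subst t1 hO t2
  have e : ({F.t} : Finset E).image e₁ ∪ ({F.t} : Finset E).image e₂ = {e₁ F.t, e₂ F.t} := by
    rw [image_singleton, image_singleton]; rfl
  rw [e, zero_add] at hn ⊢
  refine lower hK hn fun z hz => ?_
  have h3 := hf z (e ▸ hz)
  rw [mem_singleton] at h3
  show φ (π z) ≤ ψ z
  rw [h3, t3]
  exact ((nd hK).φ_range z hz).1

theorem sym (h1 : Copy F F' e₁ π a) (h2 : Copy F F' e₂ π a) (hD : F.D ≤ F'.D) (hV : 0 ≤ V)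
    (hC : F.C + V ≤ F'.C) {N' : ℕ} {ψ : E' → ℝ}
    (hK : Game F' N' {e₁ F.t, e₂ F.t} {e₁ F.t, e₂ F.t} V ψ) (N : ℕ) :
    ∀ {S O : Finset E} {ρ : ℝ} {φ : E → ℝ}, Game F N S O ρ φ →
      Game F' (N + N') (S.image e₁ ∪ S.image e₂) (O.image e₁ ∪ O.image e₂) (ρ + V)
        (fun z => φ (π z)) := by
  induction N with
  | zero =>
    intro S O ρ φ h
    rw [Nat.zero_add]
    exact term_sym h1 h2 hD hV hC hK h.1 h.2
  | succ N ih =>
    intro S O ρ φ h
    obtain ⟨hn, hT | ⟨ι, hι, p, S', O', ρ', φ', hp, hG, ho, h3, h4, h5⟩⟩ := h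
    · exact mono (by omega) (term_sym h1 h2 hD hV hC hK hn hT)
    · rw [show N + 1 + N' = (N + N') + 1 by omega]
      have hsum : ∑ i, p i * (ρ' i + V) = ∑ i, p i * ρ' i + V := by
        simp only [mul_add, sum_add_distrib, ← sum_mul, hp.2, one_mul]
      have hoff : ∀ (e : E → E'), Copy F F' e π a → ∀ i, ∀ y ∈ O' i, ∃ x ∈ O,
          F'.h (e x) + dist (e x) (e y) ≤ F'.h (e y) := by
        intro e he i y hy
        obtain ⟨x, hx, hxy⟩ := ho i y hy
        have hxU := hn.sub (hn.osub hx)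
        have hyU := (nd (hG i)).sub ((nd (hG i)).osub hy)
        refine ⟨x, hx, ?_⟩
        rw [he.hgt x hxU, he.hgt y hyU]
        have := he.lip x hxU y hyU
        linarith
      refine ⟨nd_sym h1 h2 hD hV hC hn, Or.inr ⟨ι, hι, p,
        fun i => (S' i).image e₁ ∪ (S' i).image e₂, fun i => (O' i).image e₁ ∪ (O' i).image e₂,
        fun i => ρ' i + V, fun i z => φ' i (π z), hp, fun i => ih (hG i), fun i y hy => ?_,
        by rw [hsum]; linarith, by rw [hsum]; linarith, fun z hz y hy => ?_⟩⟩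
      · rcases mem_union.1 hy with h' | h'
        · obtain ⟨y0, hy0, rfl⟩ := mem_image.1 h'
          obtain ⟨x, hx, hxy⟩ := hoff e₁ h1 i y0 hy0
          exact ⟨e₁ x, mem_union_left _ (mem_image_of_mem _ hx), hxy⟩
        · obtain ⟨y0, hy0, rfl⟩ := mem_image.1 h'
          obtain ⟨x, hx, hxy⟩ := hoff e₂ h2 i y0 hy0
          exact ⟨e₂ x, mem_union_right _ (mem_image_of_mem _ hx), hxy⟩
      · have h6 := h5 (π z) (fold_mem h1 h2 hn.sub hz) (fun i => π (y i))
          (fun i => fold_mem h1 h2 (nd (hG i)).sub (hy i))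
        have h7 : ∑ i, p i * (dist (π z) (π (y i)) + ρ' i + φ' i (π (y i))) + V ≤
            ∑ i, p i * (dist z (y i) + (ρ' i + V) + φ' i (π (y i))) := by
          have : V = ∑ i, p i * V := by rw [← sum_mul, hp.2, one_mul]
          rw [this, ← sum_add_distrib, ← this]
          refine sum_le_sum fun i _ => ?_
          have := h1.fold z (y i)
          have := hp.1 i
          nlinarith
        show ρ + V + φ (π z) ≤ _
        linarith

theorem sym_one {e : E → E'} (h1 : Copy F F' e π a) (hD : F.D ≤ F'.D) (hV : 0 ≤ V)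
    (hC : F.C + V ≤ F'.C) {N' : ℕ} {ψ : E' → ℝ} (hK : Game F' N' {e F.t} {e F.t} V ψ) {N : ℕ}
    {S O : Finset E} {ρ : ℝ} {φ : E → ℝ} (h : Game F N S O ρ φ) :
    Game F' (N + N') (S.image e) (O.image e) (ρ + V) (fun z => φ (π z)) := by
  have := sym h1 h1 hD hV hC (by rw [pair_eq_singleton]; exact hK) N h
  rwa [union_self, union_self] at this

theorem sym_root (h1 : Copy F F' e₁ π a) (h2 : Copy F F' e₂ π a) (hD : F.D ≤ F'.D) (hV : 0 ≤ V)
    (hC : F.C + V ≤ F'.C) {N' : ℕ} {ψ : E' → ℝ}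
    (hK : Game F' N' {e₁ F.t, e₂ F.t} {e₁ F.t, e₂ F.t} V ψ) {N : ℕ} {ρ : ℝ} {φ : E → ℝ}
    (h : Game F N {F.s} {F.s} ρ φ) :
    Game F' (N + N') {e₁ F.s, e₂ F.s} {e₁ F.s, e₂ F.s} (ρ + V) (fun z => φ (π z)) := by
  have := sym h1 h2 hD hV hC hK N h
  rw [image_singleton, image_singleton] at this
  exact this

end sym

section step

variable {E : Type} [MetricSpace E]

/-- the space of the next level -/
abbrev Up (E : Type) : Type := ℝ × ℝ × (Fin 5 → E)

/-- the copy number `i` with sign `sg` -/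
noncomputable def emb (F : Fr E) (i : ℕ) (sg : ℝ) (x : E) : Up E :=
  (i * F.D + F.h x, sg * min (i * F.D + F.h x) (5 * F.D - (i * F.D + F.h x)),
    fun l => if (l : ℕ) < i then F.t else if (l : ℕ) = i then x else F.s)

/-- signs -/
def sgn (b : Bool) : ℝ := if b then 1 else -1

open Classical in
/-- the frame of the next level -/
noncomputable def up (F : Fr E) (C : ℝ) : Fr (Up E) where
  U := (univ : Finset (Fin 5 × Bool)).biUnion fun j => F.U.image (emb F j.1 (sgn j.2))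
  s := emb F 0 1 F.s
  t := emb F 4 1 F.t
  D := 5 * F.D
  C := C
  h := fun z => z.1

theorem abs_sgn (b : Bool) : |sgn b| = 1 := by cases b <;> simp [sgn]

omit [MetricSpace E] in
theorem mem_up {F : Fr E} {C : ℝ} {z : Up E} :
    z ∈ (up F C).U ↔ ∃ (i : Fin 5) (b : Bool), ∃ x ∈ F.U, emb F i (sgn b) x = z := by
  simp only [up, mem_biUnion, mem_univ, true_and, mem_image, Prod.exists]

theorem emb_join {F : Fr E} (hF : F.Ok) (i : ℕ) (sg : ℝ) :
    emb F i sg F.t = emb F (i + 1) sg F.s := by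
  have e : (i : ℝ) * F.D + F.h F.t = ((i + 1 : ℕ) : ℝ) * F.D + F.h F.s := by
    rw [hF.h_s, hF.h_t]; push_cast; ring
  unfold emb
  rw [e]
  refine Prod.ext rfl (Prod.ext rfl (funext fun l => ?_))
  by_cases h1 : (l : ℕ) < i
  · simp only [h1, if_true, show (l : ℕ) < i + 1 by omega]
  · by_cases h2 : (l : ℕ) = i
    · simp only [h2, lt_irrefl, if_false, if_true, show i < i + 1 by omega]
    · simp only [h1, h2, if_false, show ¬ (l : ℕ) < i + 1 by omega, ite_self]

theorem emb_start {F : Fr E} (hF : F.Ok) (sg : ℝ) : emb F 0 sg F.s = emb F 0 1 F.s := by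
  have := hF.D_pos
  have e : min (((0 : ℕ) : ℝ) * F.D + F.h F.s) (5 * F.D - (((0 : ℕ) : ℝ) * F.D + F.h F.s)) = 0 := by
    rw [hF.h_s, Nat.cast_zero, zero_mul, add_zero, sub_zero]
    exact min_eq_left (by linarith)
  unfold emb
  rw [e, mul_zero, mul_zero]

theorem emb_end {F : Fr E} (hF : F.Ok) (sg : ℝ) : emb F 4 sg F.t = emb F 4 1 F.t := by
  have := hF.D_pos
  have e : min (((4 : ℕ) : ℝ) * F.D + F.h F.t) (5 * F.D - (((4 : ℕ) : ℝ) * F.D + F.h F.t)) = 0 := by
    rw [hF.h_t]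
    push_cast
    rw [show 5 * F.D - (4 * F.D + F.D) = 0 by ring]
    exact min_eq_right (by linarith)
  unfold emb
  rw [e, mul_zero, mul_zero]

theorem abs_min_sub (c u v : ℝ) : |min u (c - u) - min v (c - v)| ≤ |u - v| := by
  have h1 := le_abs_self (u - v)
  have h2 := neg_abs_le (u - v)
  rw [abs_le]
  constructor <;> rcases le_total u (c - u) with h | h <;> rcases le_total v (c - v) with h' | h' <;>
    simp only [min_eq_left, min_eq_right, h, h'] <;> linarith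

theorem copy {F : Fr E} (hF : F.Ok) (C : ℝ) (i : Fin 5) (b : Bool) :
    Copy F (up F C) (emb F i (sgn b)) (fun z => z.2.2 i) (i * F.D) := by
  refine ⟨fun x hx => mem_up.2 ⟨i, b, x, hx, rfl⟩, fun x _ => ?_, fun x _ y _ => ?_,
    fun z z' => ?_, fun x _ => ?_⟩
  · simp only [emb, lt_irrefl, if_false, if_true]
  · have h1 : |F.h x - F.h y| ≤ dist x y := by
      have h2 := hF.h_lip x y
      have h3 := hF.h_lip y x
      rw [dist_comm] at h3
      rw [abs_le]; constructor <;> linarith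
    have h4 : |((i : ℕ) * F.D + F.h x) - ((i : ℕ) * F.D + F.h y)| ≤ dist x y := by
      rwa [add_sub_add_left_eq_sub]
    rw [Prod.dist_eq, Prod.dist_eq]
    refine max_le ?_ (max_le ?_ ?_)
    · exact h4
    · show |sgn b * _ - sgn b * _| ≤ _
      rw [← mul_sub, abs_mul, abs_sgn, one_mul]
      exact (abs_min_sub _ _ _).trans h4
    · rw [dist_pi_le_iff dist_nonneg]
      intro l
      simp only [emb]
      split_ifs
      · rw [dist_self]; exact dist_nonneg
      · exact le_rfl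
      · rw [dist_self]; exact dist_nonneg
  · refine (dist_le_pi_dist z.2.2 z'.2.2 i).trans ?_
    rw [Prod.dist_eq, Prod.dist_eq]
    exact (le_max_right _ _).trans (le_max_right _ _)
  · show (i : ℕ) * F.D + F.h x = F.h x + (i : ℕ) * F.D
    ring

theorem fst_range {F : Fr E} (hF : F.Ok) (i : Fin 5) {x : E} (hx : x ∈ F.U) :
    0 ≤ (i : ℕ) * F.D + F.h x ∧ (i : ℕ) * F.D + F.h x ≤ 5 * F.D := by
  have h1 := hF.h_range x hx
  have h2 := hF.D_pos
  have h3 : ((i : ℕ) : ℝ) ≤ 4 := by exact_mod_cast Nat.lt_succ_iff.1 i.isLt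
  have h4 : (0 : ℝ) ≤ (i : ℕ) := Nat.cast_nonneg _
  constructor <;> nlinarith

theorem up_ok {F : Fr E} (hF : F.Ok) (C : ℝ) : (up F C).Ok := by
  have hD := hF.D_pos
  refine ⟨mem_up.2 ⟨0, true, F.s, hF.s_mem, rfl⟩, mem_up.2 ⟨4, true, F.t, hF.t_mem, rfl⟩,
    by show 0 < 5 * F.D; linarith, fun z hz z' hz' => ?_, fun z z' => ?_, ?_, ?_, fun z hz => ?_⟩
  · obtain ⟨i, b, x, hx, rfl⟩ := mem_up.1 hz
    obtain ⟨j, b', y, hy, rfl⟩ := mem_up.1 hz'
    have h1 := fst_range hF i hx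
    have h2 := fst_range hF j hy
    show _ ≤ 5 * F.D
    rw [Prod.dist_eq, Prod.dist_eq]
    refine max_le ?_ (max_le ?_ ?_)
    · show |_ - _| ≤ _
      simp only [emb]
      rw [abs_le]; constructor <;> linarith
    · have h3 : ∀ (u : ℝ) (c : Bool), 0 ≤ u → u ≤ 5 * F.D →
          |sgn c * min u (5 * F.D - u)| ≤ 5 * F.D / 2 := by
        intro u c h0 h5
        rw [abs_mul, abs_sgn, one_mul, abs_of_nonneg (le_min h0 (by linarith))]
        have := min_le_left u (5 * F.D - u)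
        have := min_le_right u (5 * F.D - u)
        linarith
      have h4 := abs_le.1 (h3 _ b h1.1 h1.2)
      have h5 := abs_le.1 (h3 _ b' h2.1 h2.2)
      show |_ - _| ≤ _
      simp only [emb]
      rw [abs_le]; constructor <;> linarith
    · rw [dist_pi_le_iff (by linarith)]
      intro l
      have h3 : ∀ (k : ℕ) (sg : ℝ) (w : E), w ∈ F.U → (emb F k sg w).2.2 l ∈ F.U := by
        intro k sg w hw
        simp only [emb]
        split_ifs
        · exact hF.t_mem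
        · exact hw
        · exact hF.s_mem
      have := hF.diam _ (h3 i (sgn b) x hx) _ (h3 j (sgn b') y hy)
      linarith
  · show z.1 ≤ z'.1 + dist z z'
    have h1 : dist z.1 z'.1 ≤ dist z z' := by rw [Prod.dist_eq]; exact le_max_left _ _
    rw [Real.dist_eq] at h1
    have := le_abs_self (z.1 - z'.1)
    linarith
  · show ((0 : ℕ) : ℝ) * F.D + F.h F.s = 0
    rw [hF.h_s]; simp
  · show ((4 : ℕ) : ℝ) * F.D + F.h F.t = 5 * F.D
    rw [hF.h_t]; push_cast; ring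
  · obtain ⟨i, b, x, hx, rfl⟩ := mem_up.1 hz
    exact fst_range hF i hx

omit [MetricSpace E] in
theorem card_up (F : Fr E) (C : ℝ) : (up F C).U.card ≤ 10 * F.U.card := by
  classical
  refine (card_biUnion_le_card_mul _ _ F.U.card fun j _ => card_image_le).trans ?_
  simp

theorem far {F : Fr E} (hF : F.Ok) {x y : E} (hx : x ∈ F.U) (hy : y ∈ F.U) :
    4 * F.D ≤ dist (emb F 2 (sgn true) x) (emb F 2 (sgn false) y) := by
  have h1 := hF.h_range x hx
  have h2 := hF.h_range y hy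
  have h3 : ∀ u : ℝ, 0 ≤ u → u ≤ F.D →
      2 * F.D ≤ min (((2 : ℕ) : ℝ) * F.D + u) (5 * F.D - (((2 : ℕ) : ℝ) * F.D + u)) := by
    intro u h0 h5
    push_cast
    exact le_min (by linarith) (by linarith)
  have h4 := h3 _ h1.1 h1.2
  have h5 := h3 _ h2.1 h2.2
  rw [Prod.dist_eq, Prod.dist_eq]
  refine le_trans ?_ ((le_max_left _ _).trans (le_max_right _ _))
  refine le_trans ?_ (le_abs_self _)
  simp only [emb, sgn, if_true, Bool.false_eq_true, if_false]
  linarith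

theorem ratio {D T G x : ℝ} (hD : 0 < D) (hx : 128 ≤ x) (hT : x * D ≤ T)
    (hG : T + (Real.sqrt (D * T / 2) - 2 * D) / 16 ≤ G) :
    5 * T ≤ 4 * T + G ∧ (x + Real.sqrt x / 200) * (5 * D) ≤ 4 * T + G := by
  obtain ⟨r, hr⟩ : ∃ r, r = Real.sqrt (x / 2) := ⟨_, rfl⟩
  have hr0 : 0 ≤ r := hr ▸ Real.sqrt_nonneg _
  have hr2 : r ^ 2 = x / 2 := by rw [hr, Real.sq_sqrt (by linarith)]
  have hr8 : 8 ≤ r := by
    rw [hr]; apply Real.le_sqrt_of_sq_le; linarith
  have h1 : D * r ≤ Real.sqrt (D * T / 2) := by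
    apply Real.le_sqrt_of_sq_le
    rw [mul_pow, hr2]
    nlinarith
  have h2 : Real.sqrt x ≤ 3 / 2 * r := by
    rw [Real.sqrt_le_iff]
    refine ⟨by positivity, ?_⟩
    nlinarith
  have h3 : D * 8 ≤ D * r := by gcongr
  have h4 : Real.sqrt x * D ≤ 3 / 2 * r * D := by gcongr
  constructor <;> nlinarith

end step

end LB1

open LB1

theorem rules : Rules :=
  ⟨fun _ _ _ _ _ _ _ _ _ h => nd h, fun _ _ _ _ _ _ _ _ _ _ hN h => mono hN h,
    fun _ _ _ _ _ _ _ _ _ _ h hn hle => lower h hn hle, fun _ _ _ _ _ N _ _ _ _ hC h => cap hC N h⟩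

theorem stSym : StSym :=
  fun _ _ _ _ _ _ _ _ _ _ _ _ _ _ _ _ h1 h2 hD hV hC hK N _ _ _ _ h => sym h1 h2 hD hV hC hK N h

theorem stStep (hM : StMid) : StStep := by
  classical
  rintro n x hx ⟨E, _, _, _, F, T, N, φ, hF, hn, hC, hT, hG⟩
  have hD := hF.D_pos
  have hT1 : 128 * F.D ≤ T := le_trans (by gcongr) hT
  have hT0 : 0 < T := by linarith
  have hok := up_ok hF (10 * T)
  have hDD : F.D ≤ (up F (10 * T)).D := by show F.D ≤ 5 * F.D; linarith
  have hcap : ∀ V, V ≤ 8 * T → F.C + V ≤ (up F (10 * T)).C := fun V hV => by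
    show F.C + V ≤ 10 * T
    linarith
  have g5 : Game (up F (10 * T)) 0 {(up F (10 * T)).t} {(up F (10 * T)).t} 0 (fun _ => 0) := by
    refine ⟨⟨singleton_subset_iff.2 hok.t_mem, Subset.rfl, singleton_nonempty _,
      ⟨le_rfl, ?_⟩, fun _ _ => ⟨le_rfl, hok.D_pos.le⟩, fun _ _ _ _ => ?_⟩, rfl, rfl, rfl⟩
    · show (0 : ℝ) ≤ 10 * T
      linarith
    · rw [add_zero]; exact dist_nonneg
  have g2 : ∀ b : Bool, ∀ N S O ρ φ, Game F N S O ρ φ →
      ∃ N', Game (up F (10 * T)) N' (S.image (emb F 2 (sgn b))) (O.image (emb F 2 (sgn b)))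
        (ρ + (T + (T + 0))) (fun z => φ (z.2.2 2)) := by
    intro b N0 S O ρ φ0 h0
    have g4 := sym_one (V := 0) (copy hF (10 * T) 4 b) hDD le_rfl (hcap _ (by linarith))
      (by
        have e : emb F ((4 : Fin 5) : ℕ) (sgn b) F.t = (up F (10 * T)).t := emb_end hF _
        rw [e]; exact g5) hG
    rw [image_singleton] at g4
    have g3 := sym_one (V := T + 0) (copy hF (10 * T) 3 b) hDD (by linarith)
      (hcap _ (by linarith))
      (by
        have e : emb F ((3 : Fin 5) : ℕ) (sgn b) F.t = emb F ((4 : Fin 5) : ℕ) (sgn b) F.s :=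
          emb_join hF 3 _
        rw [e]; exact g4) hG
    rw [image_singleton] at g3
    exact ⟨_, sym_one (copy hF (10 * T) 2 b) hDD (by linarith) (hcap _ (by linarith))
      (by
        have e : emb F ((2 : Fin 5) : ℕ) (sgn b) F.t = emb F ((3 : Fin 5) : ℕ) (sgn b) F.s :=
          emb_join hF 2 _
        rw [e]; exact g3) h0⟩
  obtain ⟨G, N2, hG1, hG2, gm⟩ := hM E (Up E) F (up F (10 * T)) (emb F 2 (sgn true))
    (emb F 2 (sgn false)) (fun z => z.2.2 2) (((2 : Fin 5) : ℕ) * F.D) (T + (T + 0)) T hF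
    (copy hF (10 * T) 2 true) (copy hF (10 * T) 2 false) (by show 3 * F.D ≤ 5 * F.D; linarith)
    (by linarith) hC (by show _ ≤ 10 * T; linarith) hT1 (fun x hx y hy => far hF hx hy)
    (g2 true) (g2 false) N φ hG
  obtain ⟨hr1, hr2⟩ := ratio hD hx hT hG1
  have g1 := sym_root (V := G + (T + (T + 0))) (copy hF (10 * T) 1 true)
    (copy hF (10 * T) 1 false) hDD (by linarith)
    (hcap _ (by linarith))
    (by
      have e : ∀ b, emb F ((1 : Fin 5) : ℕ) (sgn b) F.t = emb F 2 (sgn b) F.s :=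
        fun b => emb_join hF 1 _
      rw [e, e]; exact gm) hG
  have g0 := sym_root (V := T + (G + (T + (T + 0)))) (copy hF (10 * T) 0 true)
    (copy hF (10 * T) 0 false) hDD (by linarith)
    (hcap _ (by linarith))
    (by
      have e : ∀ b, emb F ((0 : Fin 5) : ℕ) (sgn b) F.t = emb F ((1 : Fin 5) : ℕ) (sgn b) F.s :=
        fun b => emb_join hF 0 _
      rw [e, e]; exact g1) hG
  have e0 : ∀ b, emb F ((0 : Fin 5) : ℕ) (sgn b) F.s = (up F (10 * T)).s :=
    fun b => emb_start hF _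
  rw [e0, e0, pair_eq_singleton, show T + (T + (G + (T + (T + 0)))) = 4 * T + G by ring] at g0
  have gc := cap (C' := 2 * (4 * T + G)) (by show 10 * T ≤ _; linarith) _ g0
  exact ⟨Up E, inferInstance, inferInstance, inferInstance, up F (2 * (4 * T + G)), 4 * T + G, _, _,
    up_ok hF _, (card_up F _).trans (by omega), rfl, hr2, gc⟩

end Vale.Agent.P304Z.LB
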