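import Vale.Agent.P304Z.LB0

/-!
# P304Z, lower bound: the middle stage
-/

open Finset

namespace Vale.Agent.P304Z.LB

namespace LB2

/-- The Huber function. -/
noncomputable def hub (th x : ℝ) : ℝ := if |x| ≤ th then x ^ 2 / (2 * th) else |x| - th / 2

theorem le_hub {th s : ℝ} (hth : 0 < th) (hs : |s| ≤ 1) (x : ℝ) :
    s * x - th * s ^ 2 / 2 ≤ hub th x := by
  unfold hub
  split_ifs with h
  · rw [le_div_iff₀ (by positivity)]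
    nlinarith [sq_nonneg (x - th * s)]
  · have h1 : s * x ≤ |s| * |x| := by rw [← abs_mul]; exact le_abs_self _
    have h2 : s ^ 2 = |s| ^ 2 := (sq_abs s).symm
    have h3 := abs_nonneg s
    have h4 : 0 ≤ (1 - |s|) * (|x| - th * (1 + |s|) / 2) :=
      mul_nonneg (by linarith) (by nlinarith [not_le.1 h])
    rw [h2]; nlinarith

theorem hub_eq {th : ℝ} (hth : 0 < th) (x : ℝ) :
    ∃ s : ℝ, |s| ≤ 1 ∧ hub th x = s * x - th * s ^ 2 / 2 := by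
  unfold hub
  split_ifs with h
  · refine ⟨x / th, by rw [abs_div, abs_of_pos hth, div_le_one hth]; exact h, ?_⟩
    field_simp; ring
  · rcases le_total 0 x with h0 | h0
    · exact ⟨1, by simp, by rw [abs_of_nonneg h0]; ring⟩
    · exact ⟨-1, by simp, by rw [abs_of_nonpos h0]; ring⟩

theorem hub_support {th : ℝ} (hth : 0 < th) (x : ℝ) :
    ∃ s : ℝ, ∀ y, hub th x + s * (y - x) ≤ hub th y := by
  obtain ⟨s, hs, h⟩ := hub_eq hth x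
  exact ⟨s, fun y => by have := le_hub hth hs y; rw [h]; linarith⟩

theorem hub_nonneg {th : ℝ} (hth : 0 < th) (x : ℝ) : 0 ≤ hub th x := by
  simpa using le_hub hth (s := 0) (by simp) x

theorem hub_le {th : ℝ} (hth : 0 < th) (x : ℝ) : hub th x ≤ |x| := by
  obtain ⟨s, hs, h⟩ := hub_eq hth x
  have h1 : s * x ≤ |s| * |x| := by rw [← abs_mul]; exact le_abs_self _
  have h2 := abs_nonneg x
  have h3 : 0 ≤ th * s ^ 2 / 2 := by positivity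
  rw [h]; nlinarith

theorem hub_of_le {th x : ℝ} (h : |x| ≤ th) : hub th x = x ^ 2 / (2 * th) := if_pos h

theorem hub_neg (th x : ℝ) : hub th (-x) = hub th x := by simp [hub]

variable {E E' : Type} [MetricSpace E] [DecidableEq E] [MetricSpace E'] [DecidableEq E']

omit [DecidableEq E] [DecidableEq E'] in
theorem copy_dist {F : Fr E} {F' : Fr E'} {e : E → E'} {π : E' → E} {a : ℝ}
    (hc : Copy F F' e π a) {x y : E} (hx : x ∈ F.U) (hy : y ∈ F.U) :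
    dist x y ≤ dist (e x) (e y) := by
  have := hc.fold (e x) (e y)
  rwa [hc.inv x hx, hc.inv y hy] at this

omit [DecidableEq E] in
/-- The node conditions for a running side and a frozen side. -/
theorem nd_union {F : Fr E} {F' : Fr E'} {e : E → E'} {π : E' → E} {a : ℝ} (hF : F.Ok)
    (hc : Copy F F' e π a) (hD : 3 * F.D ≤ F'.D) {S O : Finset E} {ρ : ℝ} {φ : E → ℝ}
    (hn : Nd F S O ρ φ) {Sf Of : Finset E'} {φf : E' → ℝ} (hSf : Sf ⊆ F'.U) (hOf : Of ⊆ Sf)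
    (hφf : ∀ z ∈ Sf, 0 ≤ φf z ∧ φf z ≤ F.D) (hlip : ∀ z ∈ Sf, ∀ w ∈ Sf, φf z ≤ dist z w + φf w)
    (hfar : ∀ x ∈ F.U, ∀ z ∈ Sf, 4 * F.D ≤ dist (e x) z) {c r : ℝ} (hc0 : 0 ≤ c)
    (hc2 : c ≤ 2 * F.D) (hr : 0 ≤ r ∧ r ≤ F'.C) {ψ : E' → ℝ} (h1 : ∀ x ∈ S, ψ (e x) = φ x + c)
    (h2 : ∀ z ∈ Sf, ψ z = φf z) : Nd F' (S.image e ∪ Sf) (O.image e ∪ Of) r ψ := by
  have hD0 := hF.D_pos
  refine ⟨?_, union_subset_union (image_subset_image hn.osub) hOf,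
    (hn.one.image e).mono subset_union_left, hr, ?_, ?_⟩
  · intro z hz
    rcases mem_union.1 hz with hz | hz
    · obtain ⟨x, hx, rfl⟩ := mem_image.1 hz
      exact hc.mem x (hn.sub hx)
    · exact hSf hz
  · intro z hz
    rcases mem_union.1 hz with hz | hz
    · obtain ⟨x, hx, rfl⟩ := mem_image.1 hz
      have := hn.φ_range x hx
      rw [h1 x hx]; constructor <;> linarith
    · have := hφf z hz
      rw [h2 z hz]; constructor <;> linarith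
  · intro z hz w hw
    rcases mem_union.1 hz with hz | hz <;> rcases mem_union.1 hw with hw | hw
    · obtain ⟨x, hx, rfl⟩ := mem_image.1 hz
      obtain ⟨y, hy, rfl⟩ := mem_image.1 hw
      have := hn.lip x hx y hy
      have := copy_dist hc (hn.sub hx) (hn.sub hy)
      rw [h1 x hx, h1 y hy]; linarith
    · obtain ⟨x, hx, rfl⟩ := mem_image.1 hz
      have := hfar x (hn.sub hx) w hw
      have := hn.φ_range x hx
      have := hφf w hw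
      rw [h1 x hx, h2 w hw]; linarith
    · obtain ⟨y, hy, rfl⟩ := mem_image.1 hw
      have := hfar y (hn.sub hy) z hz
      have := hn.φ_range y hy
      have := hφf z hz
      rw [h1 y hy, h2 z hz, dist_comm]; linarith
    · rw [h2 z hz, h2 w hw]; exact hlip z hz w hw

/-- A game on a running side and a frozen side. -/
def JJ (F' : Fr E') (e : E → E') (Sf Of : Finset E') (φf : E' → ℝ) (S O : Finset E) (φ : E → ℝ)
    (c r : ℝ) : Prop :=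
  ∃ N ψ, (∀ x ∈ S, ψ (e x) = φ x + c) ∧ (∀ z ∈ Sf, ψ z = φf z) ∧
    Game F' N (S.image e ∪ Sf) (O.image e ∪ Of) r ψ

theorem sum_const' {ι : Type} [Fintype ι] {p : ι → ℝ} (hp : p ∈ stdSimplex ℝ ι) (c : ℝ) :
    ∑ i, p i * c = c := by rw [← Finset.sum_mul, hp.2, one_mul]

theorem sum_le' {ι : Type} [Fintype ι] {p : ι → ℝ} (hp : p ∈ stdSimplex ℝ ι) {f g : ι → ℝ}
    (h : ∀ i, f i ≤ g i) : ∑ i, p i * f i ≤ ∑ i, p i * g i :=
  Finset.sum_le_sum fun i _ => mul_le_mul_of_nonneg_left (h i) (hp.1 i)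

/-- One piece of the game on the running side. -/
theorem piece (hR : Rules) {F : Fr E} {F' : Fr E'} {e : E → E'} {π : E' → E} {a₀ : ℝ} (hF : F.Ok)
    (hc : Copy F F' e π a₀) (hD : 3 * F.D ≤ F'.D) {Sf Of : Finset E'} {φf : E' → ℝ}
    (hSf : Sf ⊆ F'.U) (hOf : Of ⊆ Sf) (hφf : ∀ z ∈ Sf, 0 ≤ φf z ∧ φf z ≤ F.D)
    (hlip : ∀ z ∈ Sf, ∀ w ∈ Sf, φf z ≤ dist z w + φf w)
    (hfar : ∀ x ∈ F.U, ∀ z ∈ Sf, 4 * F.D ≤ dist (e x) z) (α β α' β' V : ℝ) (Fv : ℝ → ℝ)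
    (hF0 : ∀ r, 0 ≤ Fv r) (hFs : ∀ r, ∃ s, ∀ r', Fv r + s * (r' - r) ≤ Fv r') (N : ℕ) :
    (∀ N' < N, ∀ S O ρ φ, Game F N' S O ρ φ →
      ∃ g, α * ρ + β + Fv ρ ≤ g ∧ g ≤ α' * ρ + β' ∧ JJ F' e Sf Of φf S O φ 0 (g + V)) →
    ∀ S O ρ φ b, Game F N S O ρ φ → ρ ≠ 0 → 0 < b → b ≤ F.D →
      ∃ c q g, 0 ≤ c ∧ c ≤ b + F.D ∧ 0 ≤ q ∧ b * (1 - q) ≤ c ∧
        α * (ρ - c) + β + Fv (ρ - c) ≤ g ∧ α * (ρ - c) + β + q * Fv 0 ≤ g ∧
        g ≤ α' * (ρ - c) + β' ∧ JJ F' e Sf Of φf S O φ c (g + V) := by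
  classical
  have hD0 := hF.D_pos
  induction N with
  | zero => intro _ S O ρ φ b hg hρ; exact absurd hg.2.2.1 hρ
  | succ n ih =>
    intro K S O ρ φ b hg hρ hb hbD
    obtain ⟨hn, ht | ⟨ι, _, p, S', O', ρ', φ', hp, hch, hoff, h1, h2, hstep⟩⟩ := hg
    · exact absurd ht.2.1 hρ
    set a := ρ - ∑ i, p i * ρ' i with ha
    have ha0 : 0 ≤ a := by linarith
    have haD : a ≤ F.D := by linarith
    have key (i : ι) : ∃ c q g, 0 ≤ c ∧ a + c ≤ b + F.D ∧ 0 ≤ q ∧ b * (1 - q) ≤ a + c ∧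
        α * (ρ' i - c) + β + Fv (ρ' i - c) ≤ g ∧ α * (ρ' i - c) + β + q * Fv 0 ≤ g ∧
        g ≤ α' * (ρ' i - c) + β' ∧ JJ F' e Sf Of φf (S' i) (O' i) (φ' i) c (g + V) := by
      by_cases hab : b ≤ a
      · obtain ⟨g, hg1, hg2, hg3⟩ := K n (Nat.lt_succ_self n) _ _ _ _ (hch i)
        have := hF0 (ρ' i)
        exact ⟨0, 0, g, le_rfl, by linarith, le_rfl, by linarith, by simpa using hg1,
          by simp; linarith, by simpa using hg2, hg3⟩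
      by_cases h0 : ρ' i = 0
      · obtain ⟨g, hg1, hg2, hg3⟩ := K n (Nat.lt_succ_self n) _ _ _ _ (hch i)
        exact ⟨0, 1, g, le_rfl, by linarith, zero_le_one, by linarith, by simpa using hg1,
          by simpa [h0] using hg1, by simpa using hg2, hg3⟩
      obtain ⟨c, q, g, k1, k2, k3, k4, k5, k6, k7, k8⟩ := ih (fun N' hN' => K N' (by omega)) _ _ _ _
        (b - a) (hch i) h0 (by linarith) (by linarith)
      exact ⟨c, q, g, k1, by linarith, k3, by nlinarith, k5, k6, k7, k8⟩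
    choose c q g k1 k2 k3 k4 k5 k6 k7 k8 using key
    choose N' ψ k8 k9 k10 using k8
    have hcs : ρ - (a + ∑ i, p i * c i) = ∑ i, p i * (ρ' i - c i) := by
      simp only [mul_sub, Finset.sum_sub_distrib, ha]; ring
    have hc0 : 0 ≤ ∑ i, p i * c i := Finset.sum_nonneg fun i _ => mul_nonneg (hp.1 i) (k1 i)
    have hc1 : a + ∑ i, p i * c i ≤ b + F.D := by
      have := sum_le' hp (f := c) (g := fun _ => b + F.D - a) fun i => by linarith [k2 i]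
      rw [sum_const' hp] at this; linarith
    have hgV : ∑ i, p i * (g i + V) = ∑ i, p i * g i + V := by
      simp only [mul_add, Finset.sum_add_distrib, sum_const' hp]
    refine ⟨a + ∑ i, p i * c i, ∑ i, p i * q i, ∑ i, p i * g i, by linarith, hc1,
      Finset.sum_nonneg fun i _ => mul_nonneg (hp.1 i) (k3 i), ?_, ?_, ?_, ?_, ?_⟩
    · have := sum_le' hp (f := fun i => b - a - b * q i) (g := c) fun i => by linarith [k4 i]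
      simp only [mul_sub, Finset.sum_sub_distrib, sum_const' hp, mul_left_comm _ b,
        ← Finset.mul_sum] at this
      linarith
    · rw [hcs]
      set r := ∑ i, p i * (ρ' i - c i) with hr
      obtain ⟨s, hs⟩ := hFs r
      have := sum_le' hp (f := fun i => (α + s) * (ρ' i - c i) + (β + Fv r - s * r)) (g := g)
        fun i => by have := hs (ρ' i - c i); have := k5 i; linarith
      simp only [mul_add (p _), Finset.sum_add_distrib, sum_const' hp, mul_left_comm _ (α + s),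
        ← Finset.mul_sum, ← hr] at this
      linarith
    · rw [hcs]
      have := sum_le' hp (f := fun i => α * (ρ' i - c i) + β + Fv 0 * q i) (g := g)
        fun i => by have := k6 i; linarith
      simp only [mul_add (p _), Finset.sum_add_distrib, sum_const' hp, mul_left_comm _ α,
        mul_left_comm _ (Fv 0), ← Finset.mul_sum] at this
      linarith
    · rw [hcs]
      have := sum_le' hp k7
      simp only [mul_add (p _), Finset.sum_add_distrib, sum_const' hp, mul_left_comm _ α',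
        ← Finset.mul_sum] at this
      linarith
    · have hnf (x : E) (hx : x ∈ F.U) : e x ∉ Sf := fun h => by
        have := hfar x hx _ h
        rw [dist_self] at this; linarith
      have hnd (i : ι) := hR.nd _ _ _ _ _ _ _ (k10 i)
      have hnd' (i : ι) := hR.nd _ _ _ _ _ _ _ (hch i)
      set ψ₀ : E' → ℝ := fun z => if z ∈ Sf then φf z else φ (π z) + (a + ∑ i, p i * c i) with hψ
      have e1 : ∀ x ∈ S, ψ₀ (e x) = φ x + (a + ∑ i, p i * c i) := fun x hx => by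
        simp only [hψ, if_neg (hnf x (hn.sub hx)), hc.inv x (hn.sub hx)]
      have e2 : ∀ z ∈ Sf, ψ₀ z = φf z := fun z hz => by simp only [hψ, if_pos hz]
      refine ⟨Finset.univ.sup N' + 1, ψ₀, e1, e2, nd_union hF hc hD hn hSf hOf hφf hlip hfar
        (by linarith) (by linarith) ⟨?_, ?_⟩ e1 e2, Or.inr ⟨ι, inferInstance, p,
          fun i => (S' i).image e ∪ Sf, fun i => (O' i).image e ∪ Of, fun i => g i + V, ψ, hp,
          fun i => hR.mono _ _ _ _ _ _ _ _ (Finset.le_sup (mem_univ i)) (k10 i), ?_, hgV.le,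
          by linarith, ?_⟩⟩
      · rw [← hgV]
        exact Finset.sum_nonneg fun i _ => mul_nonneg (hp.1 i) (hnd i).ρ_range.1
      · rw [← hgV, ← sum_const' hp F'.C]
        exact sum_le' hp fun i => (hnd i).ρ_range.2
      · intro i y hy
        rcases mem_union.1 hy with hy | hy
        · obtain ⟨y₀, hy₀, rfl⟩ := mem_image.1 hy
          obtain ⟨x₀, hx₀, hx⟩ := hoff i y₀ hy₀
          have hxU := hn.sub (hn.osub hx₀)
          have hyU := (hnd' i).sub ((hnd' i).osub hy₀)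
          refine ⟨e x₀, mem_union_left _ (mem_image_of_mem e hx₀), ?_⟩
          have := hc.lip x₀ hxU y₀ hyU
          rw [hc.hgt x₀ hxU, hc.hgt y₀ hyU]; linarith
        · exact ⟨y, mem_union_right _ hy, by simp⟩
      · intro x hx y hy
        have e3 : ∑ i, p i * (dist x (y i) + (g i + V) + ψ i (y i)) =
            ∑ i, p i * g i + V + ∑ i, p i * (dist x (y i) + ψ i (y i)) := by
          rw [← hgV, ← Finset.sum_add_distrib]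
          exact Finset.sum_congr rfl fun i _ => by ring
        rw [e3]
        refine add_le_add le_rfl ?_
        rcases mem_union.1 hx with hx | hx
        · obtain ⟨x₀, hx₀, rfl⟩ := mem_image.1 hx
          have hxU := hn.sub hx₀
          have hy' (i : ι) : ∃ y₀ ∈ S' i,
              dist x₀ y₀ + φ' i y₀ + c i ≤ dist (e x₀) (y i) + ψ i (y i) := by
            rcases mem_union.1 (hy i) with h | h
            · obtain ⟨y₀, hy₀, hy₁⟩ := mem_image.1 h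
              refine ⟨y₀, hy₀, ?_⟩
              have := copy_dist hc hxU ((hnd' i).sub hy₀)
              rw [← hy₁, k8 i y₀ hy₀]; linarith
            · obtain ⟨y₀, hy₀⟩ := (hnd' i).one
              have hy₁ := (hnd' i).osub hy₀
              refine ⟨y₀, hy₁, ?_⟩
              have := hF.diam x₀ hxU y₀ ((hnd' i).sub hy₁)
              have := (hnd' i).φ_range y₀ hy₁
              have := hfar x₀ hxU _ h
              have := hφf _ h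
              have := k2 i
              rw [k9 i _ h]; linarith
          choose y₀ hy₀ hy₁ using hy'
          have h3 := hstep x₀ hx₀ y₀ hy₀
          have h4 := sum_le' hp hy₁
          simp only [mul_add (p _), Finset.sum_add_distrib] at h3 h4 ⊢
          rw [e1 x₀ hx₀]; linarith
        · rw [e2 x hx, ← sum_const' hp (φf x)]
          refine sum_le' hp fun i => ?_
          rw [← k9 i x hx]
          exact (hnd i).lip x (mem_union_right _ hx) _ (hy i)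

/-- A game on two sides. -/
def Two (F' : Fr E') (e₁ e₂ : E → E') (S₁ O₁ : Finset E) (φ₁ : E → ℝ) (S₂ O₂ : Finset E)
    (φ₂ : E → ℝ) (r : ℝ) : Prop :=
  ∃ N ψ, (∀ x ∈ S₁, ψ (e₁ x) = φ₁ x) ∧ (∀ x ∈ S₂, ψ (e₂ x) = φ₂ x) ∧
    Game F' N (S₁.image e₁ ∪ S₂.image e₂) (O₁.image e₁ ∪ O₂.image e₂) r ψ

omit [MetricSpace E] [DecidableEq E] in
theorem Two.symm {F' : Fr E'} {e₁ e₂ : E → E'} {S₁ O₁ : Finset E} {φ₁ : E → ℝ} {S₂ O₂ : Finset E}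
    {φ₂ : E → ℝ} {r : ℝ} (h : Two F' e₁ e₂ S₁ O₁ φ₁ S₂ O₂ φ₂ r) :
    Two F' e₂ e₁ S₂ O₂ φ₂ S₁ O₁ φ₁ r := by
  obtain ⟨N, ψ, h1, h2, h3⟩ := h
  exact ⟨N, ψ, h2, h1, by rwa [union_comm, union_comm (O₂.image e₂)]⟩

/-- The data of the middle stage. -/
structure Set2 (F : Fr E) (F' : Fr E') (e₁ e₂ : E → E') (π : E' → E) (a V T : ℝ) : Prop where
  ok : F.Ok
  c1 : Copy F F' e₁ π a
  c2 : Copy F F' e₂ π a
  hD : 3 * F.D ≤ F'.D
  hV : 0 ≤ V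
  hC : F.C = 2 * T
  hC' : 3 * T + V ≤ F'.C
  hT : 128 * F.D ≤ T
  far : ∀ x ∈ F.U, ∀ y ∈ F.U, 4 * F.D ≤ dist (e₁ x) (e₂ y)
  f1 : ∀ N S O ρ φ, Game F N S O ρ φ →
    ∃ N', Game F' N' (S.image e₁) (O.image e₁) (ρ + V) (fun z => φ (π z))
  f2 : ∀ N S O ρ φ, Game F N S O ρ φ →
    ∃ N', Game F' N' (S.image e₂) (O.image e₂) (ρ + V) (fun z => φ (π z))

variable {F : Fr E} {F' : Fr E'} {e₁ e₂ : E → E'} {π : E' → E} {a V T : ℝ}

omit [DecidableEq E] in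
theorem Set2.symm (h : Set2 F F' e₁ e₂ π a V T) : Set2 F F' e₂ e₁ π a V T :=
  ⟨h.ok, h.c2, h.c1, h.hD, h.hV, h.hC, h.hC', h.hT,
    fun x hx y hy => by rw [dist_comm]; exact h.far y hy x hx, h.f2, h.f1⟩

omit [DecidableEq E] in
theorem Set2.frozen (h : Set2 F F' e₁ e₂ π a V T) {S O : Finset E} {ρ : ℝ} {φ : E → ℝ}
    (hn : Nd F S O ρ φ) : S.image e₂ ⊆ F'.U ∧ O.image e₂ ⊆ S.image e₂ ∧
      (∀ z ∈ S.image e₂, 0 ≤ φ (π z) ∧ φ (π z) ≤ F.D) ∧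
      (∀ z ∈ S.image e₂, ∀ w ∈ S.image e₂, φ (π z) ≤ dist z w + φ (π w)) ∧
      ∀ x ∈ F.U, ∀ z ∈ S.image e₂, 4 * F.D ≤ dist (e₁ x) z := by
  refine ⟨fun z hz => ?_, image_subset_image hn.osub, fun z hz => ?_, fun z hz w hw => ?_,
    fun x hx z hz => ?_⟩
  all_goals obtain ⟨y, hy, rfl⟩ := mem_image.1 hz
  · exact h.c2.mem y (hn.sub hy)
  · rw [h.c2.inv y (hn.sub hy)]; exact hn.φ_range y hy
  · obtain ⟨y', hy', rfl⟩ := mem_image.1 hw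
    have := hn.lip y hy y' hy'
    have := copy_dist h.c2 (hn.sub hy) (hn.sub hy')
    rw [h.c2.inv y (hn.sub hy), h.c2.inv y' (hn.sub hy')]; linarith
  · exact h.far x hx y (hn.sub hy)

omit [DecidableEq E] in
theorem Set2.nd_two (h : Set2 F F' e₁ e₂ π a V T) {S₁ O₁ S₂ O₂ : Finset E} {ρ₁ ρ₂ r : ℝ}
    {φ₁ φ₂ : E → ℝ} (h₁ : Nd F S₁ O₁ ρ₁ φ₁) (h₂ : Nd F S₂ O₂ ρ₂ φ₂) (hr : 0 ≤ r ∧ r ≤ F'.C)
    {ψ : E' → ℝ} (e1 : ∀ x ∈ S₁, ψ (e₁ x) = φ₁ x) (e2 : ∀ x ∈ S₂, ψ (e₂ x) = φ₂ x) :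
    Nd F' (S₁.image e₁ ∪ S₂.image e₂) (O₁.image e₁ ∪ O₂.image e₂) r ψ := by
  obtain ⟨k1, k2, k3, k4, k5⟩ := h.frozen h₂
  have := h.ok.D_pos
  refine nd_union h.ok h.c1 h.hD h₁ k1 k2 k3 k4 k5 (c := 0) le_rfl (by linarith) hr
    (by simpa using e1) fun z hz => ?_
  obtain ⟨y, hy, rfl⟩ := mem_image.1 hz
  rw [e2 y hy, h.c2.inv y (h₂.sub hy)]

/-- The second copy is dropped. -/
theorem stop (hR : Rules) (h : Set2 F F' e₁ e₂ π a V T) {N₁ : ℕ} {S₁ O₁ S₂ O₂ : Finset E}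
    {ρ₁ ρ₂ : ℝ} {φ₁ φ₂ : E → ℝ} (h₁ : Game F N₁ S₁ O₁ ρ₁ φ₁) (h₂ : Nd F S₂ O₂ ρ₂ φ₂) :
    Two F' e₁ e₂ S₁ O₁ φ₁ S₂ O₂ φ₂ (ρ₁ + V) := by
  classical
  have hD0 := h.ok.D_pos
  have hD := h.hD
  have hn := hR.nd _ _ _ _ _ _ _ h₁
  obtain ⟨N', hg⟩ := h.f1 _ _ _ _ _ h₁
  have hnd := hR.nd _ _ _ _ _ _ _ hg
  set ψ : E' → ℝ := fun z => if z ∈ S₂.image e₂ then φ₂ (π z) else φ₁ (π z) with hψ
  have e1 : ∀ x ∈ S₁, ψ (e₁ x) = φ₁ x := fun x hx => by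
    have : e₁ x ∉ S₂.image e₂ := fun h' => by
      have := (h.frozen h₂).2.2.2.2 x (hn.sub hx) _ h'
      rw [dist_self] at this; linarith
    simp only [hψ, if_neg this, h.c1.inv x (hn.sub hx)]
  have e2 : ∀ x ∈ S₂, ψ (e₂ x) = φ₂ x := fun x hx => by
    simp only [hψ, if_pos (mem_image_of_mem e₂ hx), h.c2.inv x (h₂.sub hx)]
  have hN := h.nd_two hn h₂ hnd.ρ_range e1 e2
  refine ⟨N' + 1, ψ, e1, e2, hN, Or.inr ⟨Unit, inferInstance, fun _ => 1, fun _ => S₁.image e₁,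
    fun _ => O₁.image e₁, fun _ => ρ₁ + V, fun _ z => φ₁ (π z), ⟨fun _ => zero_le_one, by simp⟩,
    fun _ => hg, fun _ y hy => ⟨y, mem_union_left _ hy, by simp⟩, by simp, by simp; linarith,
    fun x hx y hy => ?_⟩⟩
  have h3 := hN.lip x hx (y ()) (mem_union_left _ (hy ()))
  obtain ⟨y₀, hy₀, hy₁⟩ := mem_image.1 (hy ())
  have h4 : ψ (y ()) = φ₁ (π (y ())) := by rw [← hy₁, e1 y₀ hy₀, h.c1.inv y₀ (hn.sub hy₀)]
  simp only [univ_unique, PUnit.default_eq_unit, one_mul, sum_singleton]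
  linarith

/-- The coin toss. -/
theorem coin (hR : Rules) (h : Set2 F F' e₁ e₂ π a V T) {S₁ O₁ S₂ O₂ : Finset E}
    {ρ₁ ρ₂ : ℝ} {φ₁ φ₂ : E → ℝ} (h₁ : Nd F S₁ O₁ ρ₁ φ₁) (h₂ : Nd F S₂ O₂ ρ₂ φ₂)
    {c₁ c₂ g₁ g₂ p₁ p₂ cs : ℝ} (hp₁ : 0 ≤ p₁) (hp₂ : 0 ≤ p₂) (hp : p₁ + p₂ = 1)
    (hs₁ : cs = p₁ * c₁) (hs₂ : cs = p₂ * c₂) (hs : 0 ≤ cs ∧ cs ≤ F'.D)
    (hC : cs + p₁ * g₁ + p₂ * g₂ + V ≤ F'.C)
    (j₁ : JJ F' e₁ (S₂.image e₂) (O₂.image e₂) (fun z => φ₂ (π z)) S₁ O₁ φ₁ c₁ (g₁ + V))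
    (j₂ : JJ F' e₂ (S₁.image e₁) (O₁.image e₁) (fun z => φ₁ (π z)) S₂ O₂ φ₂ c₂ (g₂ + V)) :
    Two F' e₁ e₂ S₁ O₁ φ₁ S₂ O₂ φ₂ (cs + p₁ * g₁ + p₂ * g₂ + V) := by
  obtain ⟨N₁, ψ₁, a₁, b₁, G₁⟩ := j₁
  obtain ⟨N₂, ψ₂, a₂, b₂, G₂⟩ := j₂
  rw [union_comm, union_comm (O₂.image e₂)] at G₂
  have n₁ := hR.nd _ _ _ _ _ _ _ G₁
  have n₂ := hR.nd _ _ _ _ _ _ _ G₂
  have hp' : p₂ = 1 - p₁ := by linarith
  have e1 : ∀ x ∈ S₁, p₁ * ψ₁ (e₁ x) + p₂ * ψ₂ (e₁ x) - cs = φ₁ x := fun x hx => by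
    rw [a₁ x hx, b₂ _ (mem_image_of_mem e₁ hx)]
    simp only [h.c1.inv x (h₁.sub hx)]
    rw [hs₁, hp']; ring
  have e2 : ∀ x ∈ S₂, p₁ * ψ₁ (e₂ x) + p₂ * ψ₂ (e₂ x) - cs = φ₂ x := fun x hx => by
    rw [a₂ x hx, b₁ _ (mem_image_of_mem e₂ hx)]
    simp only [h.c2.inv x (h₂.sub hx)]
    rw [hs₂, hp']; ring
  have hsum : p₁ * (g₁ + V) + p₂ * (g₂ + V) = p₁ * g₁ + p₂ * g₂ + V := by rw [hp']; ring
  have h0 : 0 ≤ p₁ * (g₁ + V) + p₂ * (g₂ + V) :=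
    add_nonneg (mul_nonneg hp₁ n₁.ρ_range.1) (mul_nonneg hp₂ n₂.ρ_range.1)
  refine ⟨max N₁ N₂ + 1, fun z => p₁ * ψ₁ z + p₂ * ψ₂ z - cs, e1, e2,
    h.nd_two h₁ h₂ ⟨by linarith [hs.1], hC⟩ e1 e2, Or.inr ⟨Bool, inferInstance,
      fun i => cond i p₁ p₂, fun _ => S₁.image e₁ ∪ S₂.image e₂,
      fun _ => O₁.image e₁ ∪ O₂.image e₂, fun i => cond i (g₁ + V) (g₂ + V),
      fun i => cond i ψ₁ ψ₂, ⟨fun i => by cases i <;> assumption, by simpa using hp⟩,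
      fun i => ?_, fun _ y hy => ⟨y, hy, by simp⟩, ?_, ?_, fun x hx y hy => ?_⟩⟩
  · cases i
    · exact hR.mono _ _ _ _ _ _ _ _ (le_max_right _ _) G₂
    · exact hR.mono _ _ _ _ _ _ _ _ (le_max_left _ _) G₁
  · simp only [Fintype.sum_bool, cond_true, cond_false]; linarith [hs.1]
  · simp only [Fintype.sum_bool, cond_true, cond_false]; linarith [hs.2]
  · have k₁ := mul_le_mul_of_nonneg_left (n₁.lip x hx _ (hy true)) hp₁
    have k₂ := mul_le_mul_of_nonneg_left (n₂.lip x hx _ (hy false)) hp₂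
    simp only [Fintype.sum_bool, cond_true, cond_false]
    linarith

/-- The lower bound for the value of a game on two sides. -/
noncomputable def lo (D T th r₁ r₂ : ℝ) : ℝ :=
  (r₁ + r₂) / 2 + hub th (r₁ - r₂) / 4 + (th - 2 * D) / (8 * T) * ((r₁ + r₂) / 2 - T / 4 - th)

theorem lo_symm (D T th r₁ r₂ : ℝ) : lo D T th r₁ r₂ = lo D T th r₂ r₁ := by
  unfold lo; rw [← hub_neg th (r₁ - r₂), neg_sub, add_comm r₁ r₂]

theorem lo_le_stop {D T th r₁ r₂ : ℝ} (hD : 0 < D) (h8 : 8 * D ≤ th) (hT : 16 * th ≤ T)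
    (h12 : r₂ ≤ r₁) (h₁ : r₁ ≤ 2 * T) (hs : th - 2 * D < |r₁ - r₂| ∨ r₁ ≤ T / 4 ∨ r₂ ≤ T / 4) :
    lo D T th r₁ r₂ ≤ r₁ := by
  have hth : 0 < th := by linarith
  have hT0 : 0 < T := by linarith
  have h1 := hub_le hth (r₁ - r₂)
  rw [abs_of_nonneg (by linarith)] at h1 hs
  set k := (th - 2 * D) / (8 * T) with hk
  have hk0 : 0 ≤ k := div_nonneg (by linarith) (by linarith)
  have hk1 : k * (8 * T) = th - 2 * D := by rw [hk]; field_simp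
  unfold lo
  rw [← hk]
  by_cases h : th - 2 * D < r₁ - r₂
  · have : k * ((r₁ + r₂) / 2 - T / 4 - th) ≤ k * (2 * T) :=
      mul_le_mul_of_nonneg_left (by linarith) hk0
    linarith
  · have h2 : r₂ ≤ T / 4 := by
      rcases hs with hs | hs | hs
      · exact absurd hs h
      · linarith
      · exact hs
    have : k * ((r₁ + r₂) / 2 - T / 4 - th) ≤ 0 :=
      mul_nonpos_of_nonneg_of_nonpos hk0 (by linarith)
    linarith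

theorem side (hR : Rules) (h : Set2 F F' e₁ e₂ π a V T) {th : ℝ} (hth : 0 < th) {N₁ : ℕ}
    {S₁ O₁ S₂ O₂ : Finset E} {ρ₁ ρ₂ : ℝ} {φ₁ φ₂ : E → ℝ} (h₁ : Game F N₁ S₁ O₁ ρ₁ φ₁)
    (h₂ : Nd F S₂ O₂ ρ₂ φ₂) (hρ : ρ₁ ≠ 0)
    (K : ∀ N' < N₁, ∀ S O ρ φ, Game F N' S O ρ φ → ∃ G, lo F.D T th ρ ρ₂ ≤ G ∧
      G ≤ (ρ + ρ₂) / 2 + T ∧ Two F' e₁ e₂ S O φ S₂ O₂ φ₂ (G + V)) :
    ∃ c q g, 0 ≤ c ∧ c ≤ 2 * F.D ∧ F.D * (1 - q) ≤ c ∧ lo F.D T th (ρ₁ - c) ρ₂ ≤ g ∧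
      lo F.D T th (ρ₁ - c) ρ₂ - hub th (ρ₁ - c - ρ₂) / 4 + q * (hub th ρ₂ / 4) ≤ g ∧
      g ≤ (ρ₁ - c + ρ₂) / 2 + T ∧
      JJ F' e₁ (S₂.image e₂) (O₂.image e₂) (fun z => φ₂ (π z)) S₁ O₁ φ₁ c (g + V) := by
  obtain ⟨k1, k2, k3, k4, k5⟩ := h.frozen h₂
  set k := (th - 2 * F.D) / (8 * T) with hk
  obtain ⟨c, q, g, a1, a2, -, a4, a5, a6, a7, a8⟩ := piece hR h.ok h.c1 h.hD k1 k2 k3 k4 k5
    ((1 + k) / 2) ((1 + k) / 2 * ρ₂ - k * (T / 4 + th)) (1 / 2) (ρ₂ / 2 + T) V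
    (fun r => hub th (r - ρ₂) / 4) (fun r => by have := hub_nonneg hth (r - ρ₂); positivity)
    (fun r => by
      obtain ⟨s, hs⟩ := hub_support hth (r - ρ₂)
      exact ⟨s / 4, fun r' => by have := hs (r' - ρ₂); linarith⟩) N₁
    (fun N' hN' S O ρ φ hg => by
      obtain ⟨G, b1, b2, N, ψ, b3, b4, b5⟩ := K N' hN' S O ρ φ hg
      refine ⟨G, ?_, by linarith, N, ψ, by simpa using b3, fun z hz => ?_, b5⟩
      · unfold lo at b1; rw [← hk] at b1; linarith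
      · obtain ⟨y, hy, rfl⟩ := mem_image.1 hz
        simp only [b4 y hy, h.c2.inv y (h₂.sub hy)])
    S₁ O₁ ρ₁ φ₁ F.D h₁ hρ h.ok.D_pos le_rfl
  rw [zero_sub, hub_neg] at a6
  refine ⟨c, q, g, a1, by linarith, a4, ?_, ?_, by linarith, a8⟩
  · unfold lo; rw [← hk]; linarith
  · unfold lo; rw [← hk]; linarith

theorem coin_quad {D T th X c₁ c₂ p₁ p₂ cs k : ℝ} (hD : 0 < D) (hth : 0 < th) (hT : 0 < T)
    (hsq : th ^ 2 = D * T / 2) (hk1 : k * (8 * T) = th - 2 * D) (hp : p₁ + p₂ = 1)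
    (hs₁ : cs = p₁ * c₁) (hs₂ : cs = p₂ * c₂) (hcs0 : 0 ≤ cs) (hc : D / 2 ≤ c₁ + c₂) :
    X ^ 2 / (2 * th) / 4 + k * cs ≤
      p₁ * ((X - c₁) ^ 2 / (2 * th) / 4) + p₂ * ((-X - c₂) ^ 2 / (2 * th) / 4) := by
  have i1 : p₁ * (X - c₁) ^ 2 + p₂ * (-X - c₂) ^ 2 = X ^ 2 + cs * (c₁ + c₂) := by
    have : p₁ * (X - c₁) ^ 2 + p₂ * (-X - c₂) ^ 2 = (p₁ + p₂) * X ^ 2 +
        2 * X * (p₂ * c₂ - p₁ * c₁) + (p₁ * c₁) * c₁ + (p₂ * c₂) * c₂ := by ring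
    rw [this, hp, ← hs₁, ← hs₂]; ring
  have i2 : k * (8 * th) ≤ c₁ + c₂ := by
    have e : k * (8 * th) * T = th ^ 2 - 2 * (D * th) := by
      rw [show k * (8 * th) * T = k * (8 * T) * th by ring, hk1]; ring
    have : k * (8 * th) * T ≤ D / 2 * T := by
      have := mul_pos hD hth
      rw [e]; linarith
    have := le_of_mul_le_mul_right this hT
    linarith
  have i3 : k * cs ≤ cs * (c₁ + c₂) / (8 * th) := by
    rw [le_div_iff₀ (by positivity)]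
    have := mul_le_mul_of_nonneg_left i2 hcs0
    linarith
  calc _ ≤ X ^ 2 / (2 * th) / 4 + cs * (c₁ + c₂) / (8 * th) := by linarith
    _ = (p₁ * (X - c₁) ^ 2 + p₂ * (-X - c₂) ^ 2) / (8 * th) := by
        rw [i1]; field_simp; ring
    _ = _ := by field_simp; ring

theorem coin_big {D T th ρ q c : ℝ} (hD : 0 < D) (hth : 0 < th) (hT : 16 * th ≤ T)
    (hρ : T / 4 < ρ) (hq : D * (1 - q) ≤ c) (hc : c < D / 2) :
    7 * th / 16 ≤ q * (hub th ρ / 4) := by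
  have j1 : 1 / 2 ≤ q := by nlinarith
  have j2 := le_hub hth (s := 1) (by simp) ρ
  have j3 : 7 * th / 8 ≤ hub th ρ / 4 := by linarith
  nlinarith

theorem coin_main {L k c₁ c₂ g₁ g₂ p₁ p₂ cs F₁ F₂ H : ℝ} (hp₁ : 0 ≤ p₁) (hp₂ : 0 ≤ p₂)
    (hp : p₁ + p₂ = 1) (hs₁ : cs = p₁ * c₁) (hs₂ : cs = p₂ * c₂)
    (u₁ : L - (1 + k) / 2 * c₁ + F₁ ≤ g₁) (u₂ : L - (1 + k) / 2 * c₂ + F₂ ≤ g₂)
    (u : H + k * cs ≤ p₁ * F₁ + p₂ * F₂) : L + H ≤ cs + p₁ * g₁ + p₂ * g₂ := by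
  have v₁ := mul_le_mul_of_nonneg_left u₁ hp₁
  have v₂ := mul_le_mul_of_nonneg_left u₂ hp₂
  have w₁ : p₁ * (L - (1 + k) / 2 * c₁ + F₁) = p₁ * L - (1 + k) / 2 * cs + p₁ * F₁ := by
    rw [hs₁]; ring
  have w₂ : p₂ * (L - (1 + k) / 2 * c₂ + F₂) = p₂ * L - (1 + k) / 2 * cs + p₂ * F₂ := by
    rw [hs₂]; ring
  have w₃ : p₁ * L + p₂ * L = L := by rw [← add_mul, hp, one_mul]
  linarith

theorem lo_coin {D T th ρ₁ ρ₂ c₁ c₂ q₁ q₂ g₁ g₂ p₁ p₂ cs : ℝ} (hD : 0 < D) (h8 : 8 * D ≤ th)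
    (hT : 16 * th ≤ T) (hsq : th ^ 2 = D * T / 2) (hX : |ρ₁ - ρ₂| ≤ th - 2 * D) (h₁ : T / 4 < ρ₁)
    (h₂ : T / 4 < ρ₂) (hp₁ : 0 ≤ p₁) (hp₂ : 0 ≤ p₂) (hp : p₁ + p₂ = 1) (hs₁ : cs = p₁ * c₁)
    (hs₂ : cs = p₂ * c₂) (a₁ : 0 ≤ c₁) (a₂ : 0 ≤ c₂) (b₁ : c₁ ≤ 2 * D) (b₂ : c₂ ≤ 2 * D)
    (d₁ : D * (1 - q₁) ≤ c₁) (d₂ : D * (1 - q₂) ≤ c₂) (e₁ : lo D T th (ρ₁ - c₁) ρ₂ ≤ g₁)
    (e₂ : lo D T th (ρ₂ - c₂) ρ₁ ≤ g₂)
    (f₁ : lo D T th (ρ₁ - c₁) ρ₂ - hub th (ρ₁ - c₁ - ρ₂) / 4 + q₁ * (hub th ρ₂ / 4) ≤ g₁)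
    (f₂ : lo D T th (ρ₂ - c₂) ρ₁ - hub th (ρ₂ - c₂ - ρ₁) / 4 + q₂ * (hub th ρ₁ / 4) ≤ g₂) :
    lo D T th ρ₁ ρ₂ ≤ cs + p₁ * g₁ + p₂ * g₂ := by
  have hth : 0 < th := by linarith
  have hT0 : 0 < T := by linarith
  obtain ⟨k, hk⟩ : ∃ k, k = (th - 2 * D) / (8 * T) := ⟨_, rfl⟩
  have hk0 : 0 ≤ k := hk ▸ div_nonneg (by linarith) (by linarith)
  have hk1 : k * (8 * T) = th - 2 * D := by rw [hk]; field_simp
  have hcs0 : 0 ≤ cs := by rw [hs₁]; positivity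
  have hX' := abs_le.1 hX
  obtain ⟨L, hL⟩ : ∃ L, L = (ρ₁ + ρ₂) / 2 + k * ((ρ₁ + ρ₂) / 2 - T / 4 - th) := ⟨_, rfl⟩
  have l₀ : lo D T th ρ₁ ρ₂ = L + hub th (ρ₁ - ρ₂) / 4 := by unfold lo; rw [← hk, hL]; ring
  have l₁ : lo D T th (ρ₁ - c₁) ρ₂ = L - (1 + k) / 2 * c₁ + hub th (ρ₁ - c₁ - ρ₂) / 4 := by
    unfold lo; rw [← hk, hL]; ring
  have l₂ : lo D T th (ρ₂ - c₂) ρ₁ = L - (1 + k) / 2 * c₂ + hub th (ρ₂ - c₂ - ρ₁) / 4 := by
    unfold lo; rw [← hk, hL]; ring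
  rw [l₁] at e₁ f₁
  rw [l₂] at e₂ f₂
  rw [l₀]
  by_cases hc : D / 2 ≤ c₁ + c₂
  · refine coin_main hp₁ hp₂ hp hs₁ hs₂ e₁ e₂ ?_
    rw [hub_of_le (x := ρ₁ - ρ₂) (by linarith),
      hub_of_le (x := ρ₁ - c₁ - ρ₂) (abs_le.2 ⟨by linarith, by linarith⟩),
      hub_of_le (x := ρ₂ - c₂ - ρ₁) (abs_le.2 ⟨by linarith, by linarith⟩),
      show ρ₁ - c₁ - ρ₂ = ρ₁ - ρ₂ - c₁ by ring, show ρ₂ - c₂ - ρ₁ = -(ρ₁ - ρ₂) - c₂ by ring]
    exact coin_quad hD hth hT0 hsq hk1 hp hs₁ hs₂ hcs0 hc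
  · have hc' := not_le.1 hc
    have j₁ := coin_big hD hth hT h₂ d₁ (by linarith)
    have j₂ := coin_big hD hth hT h₁ d₂ (by linarith)
    refine coin_main (k := k) (F₁ := 7 * th / 16) (F₂ := 7 * th / 16) hp₁ hp₂ hp hs₁ hs₂
      (by linarith) (by linarith) ?_
    have i1 := hub_le hth (ρ₁ - ρ₂)
    have i2 : k ≤ 1 := le_of_mul_le_mul_right (by linarith) (show 0 < 8 * T by linarith)
    have i3 : cs ≤ c₁ := hs₁ ▸ mul_le_of_le_one_left a₁ (by linarith)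
    have i4 : k * cs ≤ cs := mul_le_of_le_one_left hcs0 i2
    rw [← add_mul, hp]
    linarith

theorem claim (hR : Rules) (h : Set2 F F' e₁ e₂ π a V T) {th : ℝ} (h8 : 8 * F.D ≤ th)
    (hT : 16 * th ≤ T) (hsq : th ^ 2 = F.D * T / 2) (n : ℕ) : ∀ N₁ N₂, N₁ + N₂ = n →
    ∀ S₁ O₁ ρ₁ φ₁ S₂ O₂ ρ₂ φ₂, Game F N₁ S₁ O₁ ρ₁ φ₁ → Game F N₂ S₂ O₂ ρ₂ φ₂ →
      ∃ G, lo F.D T th ρ₁ ρ₂ ≤ G ∧ G ≤ (ρ₁ + ρ₂) / 2 + T ∧
        Two F' e₁ e₂ S₁ O₁ φ₁ S₂ O₂ φ₂ (G + V) := by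
  have hD0 := h.ok.D_pos
  have hth : 0 < th := by linarith
  induction n using Nat.strong_induction_on with
  | _ n ih =>
  intro N₁ N₂ hn S₁ O₁ ρ₁ φ₁ S₂ O₂ ρ₂ φ₂ G₁ G₂
  have n₁ := hR.nd _ _ _ _ _ _ _ G₁
  have n₂ := hR.nd _ _ _ _ _ _ _ G₂
  have r₁ := n₁.ρ_range
  have r₂ := n₂.ρ_range
  rw [h.hC] at r₁ r₂
  by_cases hs : th - 2 * F.D < |ρ₁ - ρ₂| ∨ ρ₁ ≤ T / 4 ∨ ρ₂ ≤ T / 4
  · rcases le_total ρ₂ ρ₁ with h12 | h12
    · exact ⟨ρ₁, lo_le_stop hD0 h8 hT h12 r₁.2 hs, by linarith, stop hR h G₁ n₂⟩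
    · refine ⟨ρ₂, ?_, by linarith, (stop hR h.symm G₂ n₁).symm⟩
      rw [lo_symm]
      exact lo_le_stop hD0 h8 hT h12 r₂.2 (by rw [abs_sub_comm]; tauto)
  push Not at hs
  obtain ⟨hX, s₁, s₂⟩ := hs
  obtain ⟨c₁, q₁, g₁, a₁, b₁, d₁, l₁, m₁, u₁, j₁⟩ := side hR h hth G₁ n₂ (by linarith)
    fun N' hN' S O ρ φ hg => ih (N' + N₂) (by omega) N' N₂ rfl _ _ _ _ _ _ _ _ hg G₂
  obtain ⟨c₂, q₂, g₂, a₂, b₂, d₂, l₂, m₂, u₂, j₂⟩ := side hR h.symm hth G₂ n₁ (by linarith)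
    fun N' hN' S O ρ φ hg => by
      obtain ⟨G, x1, x2, x3⟩ := ih (N₁ + N') (by omega) N₁ N' rfl _ _ _ _ _ _ _ _ G₁ hg
      exact ⟨G, by rwa [lo_symm], by linarith, x3.symm⟩
  obtain ⟨p₁, p₂, hp₁, hp₂, hp, hpc⟩ : ∃ p₁ p₂ : ℝ, 0 ≤ p₁ ∧ 0 ≤ p₂ ∧ p₁ + p₂ = 1 ∧
      p₁ * c₁ = p₂ * c₂ := by
    by_cases h0 : c₁ + c₂ = 0
    · exact ⟨1, 0, zero_le_one, le_rfl, by ring, by linarith⟩
    · have h1 : 0 < c₁ + c₂ := lt_of_le_of_ne (by linarith) (Ne.symm h0)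
      exact ⟨c₂ / (c₁ + c₂), c₁ / (c₁ + c₂), by positivity, by positivity, by field_simp; ring,
        by field_simp⟩
  have hup : p₁ * c₁ + p₁ * g₁ + p₂ * g₂ ≤ (ρ₁ + ρ₂) / 2 + T := by
    have v₁ := mul_le_mul_of_nonneg_left u₁ hp₁
    have v₂ := mul_le_mul_of_nonneg_left u₂ hp₂
    have w : p₁ * ((ρ₁ + ρ₂) / 2 + T) + p₂ * ((ρ₁ + ρ₂) / 2 + T) = (ρ₁ + ρ₂) / 2 + T := by
      rw [← add_mul, hp, one_mul]
    linarith
  have hD := h.hD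
  have hC' := h.hC'
  exact ⟨p₁ * c₁ + p₁ * g₁ + p₂ * g₂, lo_coin hD0 h8 hT hsq hX s₁ s₂ hp₁ hp₂ hp rfl hpc a₁ a₂ b₁ b₂
    d₁ d₂ l₁ l₂ m₁ m₂, hup, coin hR h n₁ n₂ hp₁ hp₂ hp rfl hpc ⟨by positivity, by nlinarith⟩
      (by linarith) j₁ j₂⟩

end LB2

open LB2 in
theorem stMid (hR : Rules) : StMid := by
  intro E E' _ _ _ _ F F' e₁ e₂ π a V T h1 h2 h3 h4 h5 h6 h7 h8 h9 h10 h11 N φ hg
  have h : Set2 F F' e₁ e₂ π a V T := ⟨h1, h2, h3, h4, h5, h6, h7, h8, h9, h10, h11⟩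
  have hD0 := h1.D_pos
  have hT0 : 0 < T := by linarith
  set th := Real.sqrt (F.D * T / 2) with hth
  have hsq : th ^ 2 = F.D * T / 2 := Real.sq_sqrt (by positivity)
  have ha : 8 * F.D ≤ th := Real.le_sqrt_of_sq_le (by nlinarith)
  have hb : 16 * th ≤ T := by
    have : th ≤ T / 16 := Real.sqrt_le_iff.2 ⟨by positivity, by nlinarith⟩
    linarith
  obtain ⟨G, g1, g2, N', ψ, g3, g4, g5⟩ := claim hR h ha hb hsq _ N N rfl _ _ _ _ _ _ _ _ hg hg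
  have hn := hR.nd _ _ _ _ _ _ _ hg
  have hset : ({F.s} : Finset E).image e₁ ∪ ({F.s} : Finset E).image e₂ = {e₁ F.s, e₂ F.s} := by
    simp only [image_singleton]; rfl
  have hN := h.nd_two hn hn (hR.nd _ _ _ _ _ _ _ g5).ρ_range (ψ := fun z => φ (π z))
    (fun x hx => by simp only [h2.inv x (hn.sub hx)]) fun x hx => by simp only [h3.inv x (hn.sub hx)]
  refine ⟨G, N', le_trans ?_ g1, by linarith, ?_⟩
  · unfold lo
    have k1 := hub_nonneg (th := th) (by linarith) (T - T)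
    have k2 : (th - 2 * F.D) / (8 * T) * (T / 2) = (th - 2 * F.D) / 16 := by field_simp; ring
    have k3 : (th - 2 * F.D) / (8 * T) * (T / 2) ≤
        (th - 2 * F.D) / (8 * T) * ((T + T) / 2 - T / 4 - th) :=
      mul_le_mul_of_nonneg_left (by linarith) (div_nonneg (by linarith) (by linarith))
    linarith
  · rw [← hset]
    refine hR.lower _ _ _ _ _ _ _ _ g5 hN fun z hz => ?_
    rcases mem_union.1 hz with hz | hz
    · obtain ⟨x, hx, rfl⟩ := mem_image.1 hz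
      rw [g3 x hx, h2.inv x (hn.sub hx)]
    · obtain ⟨x, hx, rfl⟩ := mem_image.1 hz
      rw [g4 x hx, h3.inv x (hn.sub hx)]

end Vale.Agent.P304Z.LB
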