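import Vale.Agent.P304Z.LB0

/-!
# P304Z, lower bound: the base level and the extraction of hard distributions
-/

open Finset

namespace Vale.Agent.P304Z.LB

namespace LB3

section Extract

variable {E : Type} [MetricSpace E] [DecidableEq E]

omit [DecidableEq E] in
lemma off_mono : ∀ (σ : List (Finset E)) (x : E) (c c' : ℝ), c ≤ c' → Off x σ c → Off x σ c'
  | [], _, _, _, h, h0 => le_trans h0 h
  | _ :: σ, x, c, c', h, ⟨y, hy, h1⟩ => ⟨y, hy, off_mono σ y _ _ (by linarith) h1⟩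

omit [DecidableEq E] in
lemma off_append (U : Finset E) (τ : List (Finset E)) (c' : ℝ) (hτ : ∀ y ∈ U, Off y τ c') :
    ∀ (σ : List (Finset E)) (x : E) (c : ℝ), x ∈ U → (∀ S ∈ σ, S ⊆ U) → Off x σ c →
      Off x (σ ++ τ) (c + c')
  | [], x, c, hx, _, h0 => by
    have h0' : (0 : ℝ) ≤ c := h0
    exact off_mono τ x c' _ (by linarith) (hτ x hx)
  | S :: σ, x, c, _, hS, ⟨y, hy, h1⟩ => by
    refine ⟨y, hy, ?_⟩
    have h2 := off_append U τ c' hτ σ y _ (hS S (by simp) hy)
      (fun S' h' => hS S' (List.mem_cons_of_mem _ h')) h1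
    exact off_mono _ y _ _ (by linarith) h2

/-- the place of the chaser at the end of a sequence -/
def endp (g : List (Finset E) → E) : List (Finset E) → E → List (Finset E) → E
  | _, x, [] => x
  | h, _, S :: σ => endp g (h ++ [S]) (g (h ++ [S])) σ

omit [DecidableEq E] in
lemma mcost_append (g : List (Finset E) → E) (τ : List (Finset E)) :
    ∀ (σ : List (Finset E)) (h : List (Finset E)) (x : E),
      mcost g h x (σ ++ τ) = mcost g h x σ + mcost g (h ++ σ) (endp g h x σ) τ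
  | [], h, x => by simp [mcost, endp]
  | S :: σ, h, x => by
    have h1 := mcost_append g τ σ (h ++ [S]) (g (h ++ [S]))
    simp only [List.cons_append, mcost, endp, h1, List.append_assoc, List.nil_append]
    ring

lemma simplex_sigma {ι : Type} [Fintype ι] {κ : ι → Type} [∀ i, Fintype (κ i)] {p : ι → ℝ}
    {q : ∀ i, κ i → ℝ} (hp : p ∈ stdSimplex ℝ ι) (hq : ∀ i, q i ∈ stdSimplex ℝ (κ i)) :
    (fun z : Σ i, κ i => p z.1 * q z.1 z.2) ∈ stdSimplex ℝ (Σ i, κ i) := by
  refine ⟨fun z => mul_nonneg (hp.1 _) ((hq _).1 _), ?_⟩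
  rw [Fintype.sum_sigma]
  have h1 : ∀ i, ∑ k, p i * q i k = p i := fun i => by rw [← mul_sum, (hq i).2, mul_one]
  simp only [h1]
  exact hp.2

/-- the distribution of request sequences below a node -/
def Dist (F : Fr E) (S O : Finset E) (ρ : ℝ) (φ : E → ℝ) : Prop :=
  ∃ (ι : Type) (_ : Fintype ι) (p : ι → ℝ) (σ : ι → List (Finset E)), p ∈ stdSimplex ℝ ι ∧
    (∀ i, ∀ S' ∈ σ i, S' ⊆ F.U ∧ S'.Nonempty) ∧ (∀ i, ∃ x ∈ O, Off x (σ i) (F.D - F.h x)) ∧
    ∀ g : List (Finset E) → E, (∀ h S, S.Nonempty → g (h ++ [S]) ∈ S) →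
      ∀ h0, ∀ x ∈ S, ρ + φ x ≤ ∑ i, p i * mcost g h0 x (σ i)

omit [DecidableEq E] in
lemma dist_term {F : Fr E} (hF : F.Ok) {S O : Finset E} {ρ : ℝ} {φ : E → ℝ}
    (hN : Nd F S O ρ φ) (hT : Term F S ρ φ) : Dist F S O ρ φ := by
  obtain ⟨hS, hρ, hφ⟩ := hT
  refine ⟨Unit, inferInstance, fun _ => 1, fun _ => [], ⟨fun _ => zero_le_one, by simp⟩,
    by simp, fun _ => ?_, fun g _ h0 x hx => ?_⟩
  · obtain ⟨x, hx⟩ := hN.one
    refine ⟨x, hx, ?_⟩
    have h1 : x = F.t := by simpa [hS] using hN.osub hx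
    show (0 : ℝ) ≤ F.D - F.h x
    rw [h1, hF.h_t, sub_self]
  · have h1 : x = F.t := by simpa [hS] using hx
    simp [mcost, h1, hρ, hφ]

omit [DecidableEq E] in
lemma game_nd {F : Fr E} : ∀ {N : ℕ} {S O : Finset E} {ρ : ℝ} {φ : E → ℝ},
    Game F N S O ρ φ → Nd F S O ρ φ
  | 0, _, _, _, _, h => h.1
  | _ + 1, _, _, _, _, h => h.1

omit [DecidableEq E] in
lemma dist_game {F : Fr E} (hF : F.Ok) : ∀ (N : ℕ) (S O : Finset E) (ρ : ℝ) (φ : E → ℝ),
    Game F N S O ρ φ → Dist F S O ρ φ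
  | 0, _, _, _, _, h => dist_term hF h.1 h.2
  | N + 1, S, O, ρ, φ, h => by
    obtain ⟨hN, hT | ⟨ι, _, p, S', O', ρ', φ', hp, hG, hO, -, -, hstep⟩⟩ := h
    · exact dist_term hF hN hT
    have hD : ∀ i, Dist F (S' i) (O' i) (ρ' i) (φ' i) := fun i => dist_game hF N _ _ _ _ (hG i)
    choose κ hκ q τ hq hτ hoff hcost using hD
    have hne : ∀ i, (S' i).Nonempty := fun i =>
      (game_nd (hG i)).one.mono (game_nd (hG i)).osub
    refine ⟨Σ i, κ i, inferInstance, fun z => p z.1 * q z.1 z.2, fun z => S' z.1 :: τ z.1 z.2,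
      simplex_sigma hp hq, ?_, ?_, ?_⟩
    · rintro ⟨i, k⟩ T hT
      rcases List.mem_cons.1 hT with rfl | hT
      · exact ⟨(game_nd (hG i)).sub, hne i⟩
      · exact hτ i k T hT
    · rintro ⟨i, k⟩
      obtain ⟨y, hy, h1⟩ := hoff i k
      obtain ⟨x, hx, h2⟩ := hO i y hy
      exact ⟨x, hx, y, (game_nd (hG i)).osub hy, off_mono _ y _ _ (by linarith) h1⟩
    · intro g hg h0 x hx
      refine (hstep x hx (fun i => g (h0 ++ [S' i])) (fun i => hg _ _ (hne i))).trans ?_
      rw [Fintype.sum_sigma]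
      refine sum_le_sum fun i _ => ?_
      have h1 := hcost i g hg (h0 ++ [S' i]) (g (h0 ++ [S' i])) (hg _ _ (hne i))
      have h2 : ∑ k, p i * q i k * mcost g h0 x (S' i :: τ i k) =
          p i * (dist x (g (h0 ++ [S' i])) +
            ∑ k, q i k * mcost g (h0 ++ [S' i]) (g (h0 ++ [S' i])) (τ i k)) := by
        simp only [mcost, mul_add, sum_add_distrib, mul_assoc, ← mul_sum, ← sum_mul, (hq i).2,
          one_mul]
      rw [h2]
      exact mul_le_mul_of_nonneg_left (by linarith) (hp.1 i)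

omit [DecidableEq E] in
lemma phases {F : Fr E} (hF : F.Ok) {T : ℝ} {φ : E → ℝ} (hφ : 0 ≤ φ F.s)
    (hD : Dist F {F.s} {F.s} T φ) (m : ℕ) :
    ∃ (ι : Type) (_ : Fintype ι) (p : ι → ℝ) (σ : ι → List (Finset E)), p ∈ stdSimplex ℝ ι ∧
      (∀ i, ∀ S ∈ σ i, S ⊆ F.U ∧ S.Nonempty) ∧ (∀ i, ∀ x ∈ F.U, Off x (σ i) (m * (2 * F.D))) ∧
      ∀ g : List (Finset E) → E, (∀ h S, S.Nonempty → g (h ++ [S]) ∈ S) →
        ∀ h0 x, m * T ≤ ∑ i, p i * mcost g h0 x (σ i) := by
  induction m with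
  | zero =>
    refine ⟨Unit, inferInstance, fun _ => 1, fun _ => [], ⟨fun _ => zero_le_one, by simp⟩,
      by simp, fun _ x _ => ?_, fun g _ h0 x => by simp [mcost]⟩
    show (0 : ℝ) ≤ _
    simp
  | succ m ih =>
    obtain ⟨κ, _, q, τ, hq, hτ, hoff, hcost⟩ := ih
    obtain ⟨ι, _, p, σ, hp, hσ, hoff', hcost'⟩ := hD
    refine ⟨Σ _ : ι, κ, inferInstance, fun z => p z.1 * q z.2,
      fun z => {F.s} :: (σ z.1 ++ τ z.2), simplex_sigma (q := fun _ => q) hp (fun _ => hq),
      ?_, ?_, ?_⟩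
    · rintro ⟨i, k⟩ S hS
      rcases List.mem_cons.1 hS with rfl | hS
      · exact ⟨by simpa using hF.s_mem, by simp⟩
      · rcases List.mem_append.1 hS with hS | hS
        · exact hσ i S hS
        · exact hτ k S hS
    · rintro ⟨i, k⟩ x hx
      obtain ⟨y, hy, h1⟩ := hoff' i
      have hy' : y = F.s := by simpa using hy
      subst hy'
      refine ⟨F.s, by simp, ?_⟩
      have h2 := off_append F.U (τ k) _ (hoff k) (σ i) F.s _ hF.s_mem
        (fun S hS => (hσ i S hS).1) h1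
      have h3 := hF.diam x hx F.s hF.s_mem
      refine off_mono _ _ _ _ ?_ h2
      rw [hF.h_s]
      push_cast
      linarith
    · intro g hg h0 x
      have hs : g (h0 ++ [{F.s}]) = F.s := by simpa using hg h0 {F.s} (by simp)
      have h1 := hcost' g hg (h0 ++ [{F.s}]) F.s (by simp)
      rw [Fintype.sum_sigma]
      have h2 : ∀ i, p i * (mcost g (h0 ++ [{F.s}]) F.s (σ i) + m * T) ≤
          ∑ k, p i * q k * mcost g h0 x ({F.s} :: (σ i ++ τ k)) := by
        intro i
        have h3 := hcost g hg (h0 ++ [{F.s}] ++ σ i) (endp g (h0 ++ [{F.s}]) F.s (σ i))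
        have h4 : ∑ k, p i * q k * mcost g h0 x ({F.s} :: (σ i ++ τ k)) =
            p i * (dist x F.s + mcost g (h0 ++ [{F.s}]) F.s (σ i) +
              ∑ k, q k * mcost g (h0 ++ [{F.s}] ++ σ i)
                (endp g (h0 ++ [{F.s}]) F.s (σ i)) (τ k)) := by
          simp only [mcost, hs, mcost_append, mul_add, sum_add_distrib, mul_assoc, ← mul_sum,
            ← sum_mul, hq.2, one_mul, add_assoc]
        rw [h4]
        have h5 : 0 ≤ dist x F.s := dist_nonneg
        exact mul_le_mul_of_nonneg_left (by linarith) (hp.1 i)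
      refine le_trans ?_ (sum_le_sum fun i _ => h2 i)
      simp only [mul_add, sum_add_distrib, ← sum_mul, hp.2, one_mul]
      push_cast
      linarith

end Extract

section Base

/-- harmonic numbers -/
noncomputable def H (j : ℕ) : ℝ := ∑ i ∈ range j, (1 / (i + 1) : ℝ)

lemma H_succ (j : ℕ) : H (j + 1) = H j + 1 / (j + 1) := by
  simp [H, sum_range_succ]

lemma H_mono {i j : ℕ} (h : i ≤ j) : H i ≤ H j :=
  sum_le_sum_of_subset_of_nonneg (range_mono h) fun _ _ _ => by positivity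

lemma H_one : H 1 = 1 := by simp [H]

/-- the middle points -/
def mid {n : ℕ} (j : Fin n) : (Fin n → ℝ) × ℝ := (fun i => if i = j then 1 else -1, 1)

/-- the base frame -/
noncomputable def fr (n : ℕ) : Fr ((Fin n → ℝ) × ℝ) where
  U := open Classical in insert (0, 0) (insert (0, 2) (univ.image mid))
  s := (0, 0)
  t := (0, 2)
  D := 2
  C := 2 * (2 * H n)
  h := fun z => z.2

lemma mid_mem {n : ℕ} (j : Fin n) : mid j ∈ (fr n).U := by
  simp [fr]

lemma dist_le {n : ℕ} {x y : (Fin n → ℝ) × ℝ} {c : ℝ} (hc : 0 ≤ c)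
    (h1 : ∀ i, |x.1 i - y.1 i| ≤ c) (h2 : |x.2 - y.2| ≤ c) : dist x y ≤ c := by
  rw [Prod.dist_eq]
  exact max_le ((dist_pi_le_iff hc).2 fun i => by rw [Real.dist_eq]; exact h1 i)
    (by rw [Real.dist_eq]; exact h2)

lemma le_dist_snd {n : ℕ} (x y : (Fin n → ℝ) × ℝ) : |x.2 - y.2| ≤ dist x y := by
  rw [Prod.dist_eq, ← Real.dist_eq]
  exact le_max_right _ _

lemma le_dist_fst {n : ℕ} (x y : (Fin n → ℝ) × ℝ) (i : Fin n) : |x.1 i - y.1 i| ≤ dist x y := by
  rw [Prod.dist_eq, ← Real.dist_eq]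
  exact (dist_le_pi_dist x.1 y.1 i).trans (le_max_left _ _)

lemma mem_bounds {n : ℕ} {x : (Fin n → ℝ) × ℝ} (hx : x ∈ (fr n).U) :
    (∀ i, -1 ≤ x.1 i ∧ x.1 i ≤ 1) ∧ 0 ≤ x.2 ∧ x.2 ≤ 2 := by
  simp only [fr, mem_insert, mem_image, mem_univ, true_and] at hx
  rcases hx with rfl | rfl | ⟨j, rfl⟩
  · simp
  · simp
  · refine ⟨fun i => ?_, by simp [mid]⟩
    simp only [mid]
    split_ifs <;> norm_num

lemma fr_ok (n : ℕ) : (fr n).Ok where
  s_mem := by simp [fr]
  t_mem := by simp [fr]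
  D_pos := by simp [fr]
  diam := fun x hx y hy => by
    obtain ⟨a1, a2, a3⟩ := mem_bounds hx
    obtain ⟨b1, b2, b3⟩ := mem_bounds hy
    refine dist_le (by simp [fr]) (fun i => ?_) ?_
    · have := a1 i
      have := b1 i
      show _ ≤ (2 : ℝ)
      rw [abs_le]; constructor <;> linarith
    · show _ ≤ (2 : ℝ)
      rw [abs_le]; constructor <;> linarith
  h_lip := fun x y => by
    have h := le_dist_snd x y
    have h' := le_abs_self (x.2 - y.2)
    show x.2 ≤ y.2 + dist x y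
    linarith
  h_s := rfl
  h_t := rfl
  h_range := fun x hx => (mem_bounds hx).2

lemma nd_zero {n : ℕ} {S : Finset ((Fin n → ℝ) × ℝ)} {ρ : ℝ} (hS : S ⊆ (fr n).U)
    (hne : S.Nonempty) (h0 : 0 ≤ ρ) (h1 : ρ ≤ 2 * (2 * H n)) :
    Nd (fr n) S S ρ (fun _ => 0) where
  sub := hS
  osub := Subset.rfl
  one := hne
  ρ_range := ⟨h0, h1⟩
  φ_range := fun _ _ => ⟨le_rfl, by simp [fr]⟩
  lip := fun _ _ _ _ => by simp

lemma H_nonneg (n : ℕ) : 0 ≤ H n := sum_nonneg fun _ _ => by positivity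

lemma dist_mid_t {n : ℕ} (j : Fin n) : dist (mid j) (fr n).t = 1 := by
  refine le_antisymm (dist_le zero_le_one (fun i => ?_) ?_) ?_
  · simp only [mid, fr]
    split_ifs <;> simp
  · simp only [mid, fr]
    norm_num
  · have h := le_dist_snd (mid j) (fr n).t
    simp only [mid, fr] at h ⊢
    norm_num at h ⊢
    exact h

lemma dist_s_mid {n : ℕ} (j : Fin n) : dist (fr n).s (mid j) = 1 := by
  refine le_antisymm (dist_le zero_le_one (fun i => ?_) ?_) ?_
  · simp only [mid, fr]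
    split_ifs <;> simp
  · simp only [mid, fr]
    norm_num
  · have h := le_dist_snd (fr n).s (mid j)
    simp only [mid, fr] at h ⊢
    norm_num at h ⊢
    exact h

lemma dist_mid_mid {n : ℕ} {a b : Fin n} (h : b ≠ a) : 2 ≤ dist (mid a) (mid b) := by
  refine le_trans ?_ (le_dist_fst (mid a) (mid b) a)
  simp only [mid, if_true, if_neg h.symm]
  norm_num

open Classical in
lemma game_mid (n : ℕ) : ∀ (j : ℕ) (A : Finset (Fin n)), A.card = j + 1 →
    Game (fr n) (j + 1) (A.image mid) (A.image mid) (2 * H (j + 1) - 1) (fun _ => 0) := by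
  have hnd : ∀ (j : ℕ) (A : Finset (Fin n)), A.card = j + 1 →
      Nd (fr n) (A.image mid) (A.image mid) (2 * H (j + 1) - 1) (fun _ => 0) := by
    intro j A hA
    have h1 : j + 1 ≤ n := by simpa [hA] using card_le_univ A
    have h2 := H_mono h1
    have h3 := H_mono (show 1 ≤ j + 1 by omega)
    rw [H_one] at h3
    refine nd_zero (fun x hx => ?_) ((card_pos.1 (by omega)).image _) (by linarith) (by linarith)
    obtain ⟨a, -, rfl⟩ := mem_image.1 hx
    exact mid_mem a
  intro j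
  induction j with
  | zero =>
    intro A hA
    refine ⟨hnd 0 A hA, Or.inr ⟨Unit, inferInstance, fun _ => 1, fun _ => {(fr n).t},
      fun _ => {(fr n).t}, fun _ => 0, fun _ _ => 0, ⟨fun _ => zero_le_one, by simp⟩,
      fun _ => ⟨nd_zero (by simpa using (fr_ok n).t_mem) (by simp) le_rfl
        (by have := H_nonneg n; positivity), rfl, rfl, rfl⟩, ?_, ?_, ?_, ?_⟩⟩
    · intro _ y hy
      have hy' : y = (fr n).t := by simpa using hy
      obtain ⟨a, ha⟩ := card_pos.1 (show 0 < A.card by omega)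
      refine ⟨mid a, mem_image_of_mem _ ha, ?_⟩
      rw [hy', dist_mid_t]
      simp only [fr, mid]
      norm_num
    · simp [H_one]
    · simp only [zero_add, H_one, fr]
      norm_num
    · intro x hx y hy
      obtain ⟨a, -, rfl⟩ := mem_image.1 hx
      have hy' : y () = (fr n).t := by simpa using hy ()
      simp only [zero_add, H_one, Fintype.sum_unique, hy', dist_mid_t]
      norm_num
  | succ j ih =>
    intro A hA
    have hc : (Fintype.card A : ℝ) = j + 2 := by
      rw [Fintype.card_coe, hA]; push_cast; ring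
    have hj : (0 : ℝ) < j + 2 := by positivity
    have hsum : ∀ c : ℝ, ∑ _a : A, 1 / ((j : ℝ) + 2) * c = c := by
      intro c
      rw [sum_const, card_univ, nsmul_eq_mul, hc]
      field_simp
    have hH : H (j + 1 + 1) = H (j + 1) + 1 / ((j : ℝ) + 2) := by
      rw [H_succ (j + 1)]; push_cast; ring
    have hpos : (0 : ℝ) < 1 / ((j : ℝ) + 2) := by positivity
    have hle : 1 / ((j : ℝ) + 2) ≤ 1 := by
      rw [div_le_one hj]; linarith [(Nat.cast_nonneg j : (0 : ℝ) ≤ j)]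
    refine ⟨hnd _ A hA, Or.inr ⟨A, inferInstance, fun _ => 1 / ((j : ℝ) + 2),
      fun a => (A.erase a).image mid, fun a => (A.erase a).image mid,
      fun _ => 2 * H (j + 1) - 1, fun _ _ => 0, ⟨fun _ => hpos.le, by simpa using hsum 1⟩,
      fun a => ih _ (by rw [card_erase_of_mem a.2, hA]; rfl), ?_, ?_, ?_, ?_⟩⟩
    · intro a y hy
      refine ⟨y, image_subset_image (erase_subset _ _) hy, by simp⟩
    · rw [hsum, hH]; linarith
    · rw [hsum, hH]
      show _ ≤ _ + (2 : ℝ)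
      linarith
    · intro x hx y hy
      obtain ⟨b, hb, rfl⟩ := mem_image.1 hx
      have h1 : ∑ a : A, 1 / ((j : ℝ) + 2) * (dist (mid b) (y a) + (2 * H (j + 1) - 1) + 0) =
          ∑ a : A, 1 / ((j : ℝ) + 2) * dist (mid b) (y a) + (2 * H (j + 1) - 1) := by
        simp only [add_zero, mul_add, sum_add_distrib, hsum]
      have h2 : 1 / ((j : ℝ) + 2) * dist (mid b) (y ⟨b, hb⟩) ≤
          ∑ a : A, 1 / ((j : ℝ) + 2) * dist (mid b) (y a) :=
        single_le_sum (f := fun a : A => 1 / ((j : ℝ) + 2) * dist (mid b) (y a))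
          (fun a _ => mul_nonneg hpos.le dist_nonneg) (mem_univ _)
      obtain ⟨c, hc', hcy⟩ := mem_image.1 (hy ⟨b, hb⟩)
      have h3 : 2 ≤ dist (mid b) (y ⟨b, hb⟩) := by
        rw [← hcy]; exact dist_mid_mid (ne_of_mem_erase hc')
      have h4 := mul_le_mul_of_nonneg_left h3 hpos.le
      rw [h1, hH]
      linarith

end Base

end LB3

open LB3

theorem stExtract : StExtract := by
  intro E _ _ F T N φ hF hG m
  have hN := game_nd hG
  obtain ⟨ι, _, p, σ, hp, hσ, hoff, hcost⟩ :=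
    phases hF (hN.φ_range F.s (by simp)).1 (dist_game hF N _ _ _ _ hG) m
  exact ⟨ι, inferInstance, p, σ, hp, hσ, fun i => hoff i F.s hF.s_mem,
    fun g hg => hcost g hg [] F.s⟩

theorem stBase : StBase := by
  classical
  obtain ⟨m, hm⟩ := (Filter.tendsto_atTop.1 Real.tendsto_sum_range_one_div_nat_succ_atTop
    128).exists
  have hm' : 128 ≤ H (m + 1) := le_trans hm (H_mono (Nat.le_succ m))
  refine ⟨m + 3, by omega, (Fin (m + 1) → ℝ) × ℝ, inferInstance, inferInstance, inferInstance,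
    fr (m + 1), 2 * H (m + 1), m + 2, fun _ => 0, fr_ok _, ?_, rfl, ?_, ?_⟩
  · simp only [fr]
    refine (card_insert_le _ _).trans (Nat.succ_le_succ ((card_insert_le _ _).trans
      (Nat.succ_le_succ (card_image_le.trans (by simp)))))
  · show 128 * (2 : ℝ) ≤ _
    linarith
  · refine ⟨nd_zero (by simpa using (fr_ok _).s_mem) (by simp) (by linarith) (by linarith),
      Or.inr ⟨Unit, inferInstance, fun _ => 1, fun _ => univ.image mid, fun _ => univ.image mid,
        fun _ => 2 * H (m + 1) - 1, fun _ _ => 0, ⟨fun _ => zero_le_one, by simp⟩,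
        fun _ => ?_, ?_, ?_, ?_, ?_⟩⟩
    · convert game_mid (m + 1) m univ (by simp)
    · intro _ y hy
      obtain ⟨a, -, rfl⟩ := mem_image.1 hy
      refine ⟨(fr (m + 1)).s, by simp, ?_⟩
      rw [dist_s_mid]
      simp [fr, mid]
    · simp
    · simp only [Fintype.sum_unique, fr]
      linarith
    · intro x hx y hy
      have hx' : x = (fr (m + 1)).s := by simpa using hx
      obtain ⟨a, -, ha⟩ := mem_image.1 (hy ())
      simp only [Fintype.sum_unique, hx', ← ha, dist_s_mid]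
      linarith

end Vale.Agent.P304Z.LB
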