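import Vale.Agent.P304Z.LB0

/-!
# P304Z, lower bound: from set chasing in `k + 1` points to the `k`-server problem

A set `S` is translated to many passes through the points of `V` outside `S`. A deterministic
policy drives a virtual injective configuration together with a hole; the movement of the hole
is at most the cost of the policy, and it gives an online set chaser.
-/

open Finset MeasureTheory
open scoped ENNReal NNReal

namespace Vale.Agent.P304Z.LB

open Vale.Agent.P304

namespace LB4

variable {E : Type} [MetricSpace E] [DecidableEq E] {k : ℕ}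

/-- one step of the virtual configuration and the hole; `i` is the server moved by the policy -/
def stp (z : (Fin k → E) × E) (i : Fin k) (r : E) : (Fin k → E) × E :=
  if r = z.2 then (Function.update z.1 i r, z.1 i) else z

/-- final virtual state -/
def hpos (a : List E → Fin k) : List E → (Fin k → E) × E → List E → (Fin k → E) × E
  | _, z, [] => z
  | h, z, r :: τ => hpos a (h ++ [r]) (stp z (a (h ++ [r])) r) τ

/-- movement of the hole -/
noncomputable def hcost (a : List E → Fin k) : List E → (Fin k → E) × E → List E → ℝ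
  | _, _, [] => 0
  | h, z, r :: τ => dist z.2 (stp z (a (h ++ [r])) r).2 +
      hcost a (h ++ [r]) (stp z (a (h ++ [r])) r) τ

omit [MetricSpace E] in
theorem hpos_append (a : List E → Fin k) (σ τ : List E) : ∀ (h : List E) (z : (Fin k → E) × E),
    hpos a h z (σ ++ τ) = hpos a (h ++ σ) (hpos a h z σ) τ := by
  induction σ with
  | nil => intro h z; simp only [List.nil_append, List.append_nil, hpos]
  | cons r σ ih =>
    intro h z
    simp only [List.cons_append, hpos, ih]
    rw [show h ++ r :: σ = h ++ [r] ++ σ by simp]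

theorem hcost_append (a : List E → Fin k) (σ τ : List E) : ∀ (h : List E) (z : (Fin k → E) × E),
    hcost a h z (σ ++ τ) = hcost a h z σ + hcost a (h ++ σ) (hpos a h z σ) τ := by
  induction σ with
  | nil => intro h z; simp only [List.nil_append, List.append_nil, hpos, hcost, zero_add]
  | cons r σ ih =>
    intro h z
    simp only [List.cons_append, hpos, hcost, ih]
    rw [show h ++ r :: σ = h ++ [r] ++ σ by simp]
    ring

theorem hcost_nonneg (a : List E → Fin k) (σ : List E) : ∀ (h : List E) (z : (Fin k → E) × E),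
    0 ≤ hcost a h z σ := by
  induction σ with
  | nil => intro h z; simp only [hcost, le_refl]
  | cons r σ ih =>
    intro h z
    simp only [hcost]
    exact add_nonneg dist_nonneg (ih _ _)

theorem dist_le_hcost (a : List E → Fin k) (σ : List E) : ∀ (h : List E) (z : (Fin k → E) × E),
    dist z.2 (hpos a h z σ).2 ≤ hcost a h z σ := by
  induction σ with
  | nil => intro h z; simp only [hpos, hcost, dist_self, le_refl]
  | cons r σ ih =>
    intro h z
    simp only [hpos, hcost]
    exact (dist_triangle _ _ _).trans (add_le_add le_rfl (ih _ _))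

/-- the movement of the hole is paid by the policy -/
theorem hcost_le (a : List E → Fin k) (σ : List E) :
    ∀ (h : List E) (z : (Fin k → E) × E) (p : Fin k → E),
      hcost a h z σ ≤ lab 1 z.1 p + runCost a h p σ := by
  induction σ with
  | nil => intro h z p; simp only [hcost, runCost, add_zero]; exact lab_nonneg _ _ _
  | cons r σ ih =>
    intro h z p
    simp only [hcost, runCost]
    have h1 := ih (h ++ [r]) (stp z (a (h ++ [r])) r) (Function.update p (a (h ++ [r])) r)
    have h2 : dist z.2 (stp z (a (h ++ [r])) r).2 +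
        lab 1 (stp z (a (h ++ [r])) r).1 (Function.update p (a (h ++ [r])) r) ≤
        lab 1 z.1 p + dist (p (a (h ++ [r]))) r := by
      generalize a (h ++ [r]) = i
      unfold stp
      split_ifs with hr
      · have := lab_update 1 z.1 p i r
        simp only [Equiv.Perm.coe_one, id_eq] at this
        rw [← hr, dist_comm]
        exact this
      · rw [dist_self, zero_add]
        unfold lab
        simp only [Equiv.Perm.coe_one, id_eq]
        rw [← Finset.add_sum_erase _ _ (Finset.mem_univ i), ← Finset.add_sum_erase Finset.univ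
          (fun j => dist (z.1 j) (p j)) (Finset.mem_univ i)]
        have h3 : ∀ l ∈ Finset.univ.erase i,
            dist (z.1 l) (Function.update p i r l) = dist (z.1 l) (p l) := by
          intro l hl
          rw [Function.update_of_ne (Finset.ne_of_mem_erase hl)]
        rw [Finset.sum_congr rfl h3]
        simp only [Function.update_self]
        have := dist_triangle (z.1 i) (p i) r
        linarith
    linarith

/-- invariant of the virtual state -/
structure Inv (V : Finset E) (z : (Fin k → E) × E) : Prop where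
  inj : Function.Injective z.1
  ne : ∀ i, z.1 i ≠ z.2
  mem : ∀ i, z.1 i ∈ V
  hole : z.2 ∈ V

omit [MetricSpace E] in
theorem Inv.stp {V : Finset E} {z : (Fin k → E) × E} (hz : Inv V z) (i : Fin k) (r : E) :
    Inv V (stp z i r) := by
  unfold LB4.stp
  split_ifs with hr
  · subst hr
    refine ⟨?_, ?_, ?_, hz.mem i⟩
    · intro j l hjl
      dsimp only at hjl
      by_cases hj : j = i <;> by_cases hl : l = i
      · rw [hj, hl]
      · rw [hj, Function.update_self, Function.update_of_ne hl] at hjl
        exact absurd hjl.symm (hz.ne l)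
      · rw [hl, Function.update_self, Function.update_of_ne hj] at hjl
        exact absurd hjl (hz.ne j)
      · rw [Function.update_of_ne hj, Function.update_of_ne hl] at hjl
        exact hz.inj hjl
    · intro j
      dsimp only
      by_cases hj : j = i
      · rw [hj, Function.update_self]
        exact (hz.ne i).symm
      · rw [Function.update_of_ne hj]
        exact fun h => hj (hz.inj h)
    · intro j
      dsimp only
      by_cases hj : j = i
      · rw [hj, Function.update_self]
        exact hz.hole
      · rw [Function.update_of_ne hj]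
        exact hz.mem j
  · exact hz

omit [MetricSpace E] in
theorem Inv.hpos {V : Finset E} (a : List E → Fin k) (σ : List E) :
    ∀ (h : List E) (z : (Fin k → E) × E), Inv V z → Inv V (hpos a h z σ) := by
  induction σ with
  | nil => intro h z hz; exact hz
  | cons r σ ih => intro h z hz; exact ih _ _ (hz.stp _ _)

omit [MetricSpace E] in
/-- the hole stays where it is if it is not requested -/
theorem hpos_of_not_mem (a : List E → Fin k) (σ : List E) :
    ∀ (h : List E) (z : (Fin k → E) × E), z.2 ∉ σ → hpos a h z σ = z := by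
  induction σ with
  | nil => intro h z _; rfl
  | cons r σ ih =>
    intro h z hz
    have hr : r ≠ z.2 := fun e => hz (by rw [← e]; exact List.mem_cons_self)
    have h1 : stp z (a (h ++ [r])) r = z := by unfold stp; rw [if_neg hr]
    simp only [hpos, h1]
    exact ih _ _ fun e => hz (List.mem_cons_of_mem _ e)

/-- a requested hole moves -/
theorem le_hcost_of_mem {V : Finset E} {δ : ℝ}
    (hδ : ∀ x ∈ V, ∀ y ∈ V, x ≠ y → δ ≤ dist x y) (a : List E → Fin k) (σ : List E) :
    ∀ (h : List E) (z : (Fin k → E) × E), Inv V z → z.2 ∈ σ → δ ≤ hcost a h z σ := by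
  induction σ with
  | nil => intro h z _ hz; simp at hz
  | cons r σ ih =>
    intro h z hI hz
    simp only [hcost]
    by_cases hr : r = z.2
    · have h1 : (stp z (a (h ++ [r])) r).2 = z.1 (a (h ++ [r])) := by
        unfold stp; rw [if_pos hr]
      rw [h1]
      have h2 := hδ _ hI.hole _ (hI.mem (a (h ++ [r]))) (hI.ne _).symm
      have h3 := hcost_nonneg a σ (h ++ [r]) (stp z (a (h ++ [r])) r)
      linarith
    · have h1 : stp z (a (h ++ [r])) r = z := by unfold stp; rw [if_neg hr]
      rw [h1, dist_self, zero_add]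
      refine ih _ _ hI ?_
      rcases List.mem_cons.1 hz with e | e
      · exact absurd e.symm hr
      · exact e

/-- `L` passes through the points of `V` outside `S` -/
noncomputable def pass (V S : Finset E) : ℕ → List E
  | 0 => []
  | L + 1 => (V \ S).toList ++ pass V S L

omit [MetricSpace E] in
theorem mem_pass {V S : Finset E} (L : ℕ) : ∀ r ∈ pass V S L, r ∈ V ∧ r ∉ S := by
  induction L with
  | zero => intro r hr; simp [pass] at hr
  | succ L ih =>
    intro r hr
    simp only [pass, List.mem_append, Finset.mem_toList, Finset.mem_sdiff] at hr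
    rcases hr with hr | hr
    · exact hr
    · exact ih r hr

theorem pass_cost {V S : Finset E} {δ : ℝ}
    (hδ : ∀ x ∈ V, ∀ y ∈ V, x ≠ y → δ ≤ dist x y) (a : List E → Fin k) (L : ℕ) :
    ∀ (h : List E) (z : (Fin k → E) × E), Inv V z → (hpos a h z (pass V S L)).2 ∉ S →
      L * δ ≤ hcost a h z (pass V S L) := by
  induction L with
  | zero => intro h z _ _; simp [pass, hcost]
  | succ L ih =>
    intro h z hI hz
    have hS : z.2 ∉ S := by
      intro hS
      rw [hpos_of_not_mem a _ h z fun e => (mem_pass _ _ e).2 hS] at hz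
      exact hz hS
    simp only [pass] at hz ⊢
    rw [hpos_append] at hz
    rw [hcost_append]
    have h1 := ih _ _ (Inv.hpos a _ h z hI) hz
    have h2 := le_hcost_of_mem hδ a (V \ S).toList h z hI
      (Finset.mem_toList.2 (Finset.mem_sdiff.2 ⟨hI.hole, hS⟩))
    push_cast
    linarith

/-- translation of a sequence of sets -/
noncomputable def tr (V : Finset E) (L : ℕ) (σ : List (Finset E)) : List E :=
  σ.flatMap fun S => pass V S L

open Classical in
/-- the set chaser given by the policy `a` -/
noncomputable def chaser (V : Finset E) (L : ℕ) (a : List E → Fin k) (z₀ : (Fin k → E) × E)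
    (hs : List (Finset E)) : E :=
  if (hpos a [] z₀ (tr V L hs)).2 ∈ hs.getLastD ∅ then (hpos a [] z₀ (tr V L hs)).2
  else if h : (hs.getLastD ∅).Nonempty then h.choose else z₀.2

omit [MetricSpace E] in
theorem chaser_mem (V : Finset E) (L : ℕ) (a : List E → Fin k) (z₀ : (Fin k → E) × E)
    (hs : List (Finset E)) (S : Finset E) (hS : S.Nonempty) :
    chaser V L a z₀ (hs ++ [S]) ∈ S := by
  unfold chaser
  simp only [List.getLastD_concat]
  split_ifs with h1
  · exact h1
  · exact hS.choose_spec

omit [MetricSpace E] in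
theorem chaser_good (V : Finset E) (L : ℕ) (a : List E → Fin k) (z₀ : (Fin k → E) × E)
    (hs : List (Finset E)) (S : Finset E) (h : (hpos a [] z₀ (tr V L (hs ++ [S]))).2 ∈ S) :
    chaser V L a z₀ (hs ++ [S]) = (hpos a [] z₀ (tr V L (hs ++ [S]))).2 := by
  unfold chaser
  simp only [List.getLastD_concat]
  rw [if_pos h]

theorem mcost_le {V : Finset E} {δ Δ : ℝ} {L : ℕ}
    (hδ : ∀ x ∈ V, ∀ y ∈ V, x ≠ y → δ ≤ dist x y) (hΔ : ∀ x ∈ V, ∀ y ∈ V, dist x y ≤ Δ)
    (hL : 2 * Δ ≤ L * δ) (a : List E → Fin k) (z₀ : (Fin k → E) × E) (hz₀ : Inv V z₀)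
    (σ : List (Finset E)) : ∀ (hs : List (Finset E)) (y : E), y ∈ V →
      (∀ S ∈ σ, S ⊆ V ∧ S.Nonempty) →
      mcost (chaser V L a z₀) hs y σ ≤ dist y (hpos a [] z₀ (tr V L hs)).2 +
        hcost a (tr V L hs) (hpos a [] z₀ (tr V L hs)) (tr V L σ) := by
  induction σ with
  | nil =>
    intro hs y _ _
    simp only [mcost, tr, List.flatMap_nil, hcost, add_zero]
    exact dist_nonneg
  | cons S σ ih =>
    intro hs y hy hσ
    have hS := hσ S List.mem_cons_self
    have hm := chaser_mem V L a z₀ hs S hS.2
    have h1 := ih (hs ++ [S]) _ (hS.1 hm) fun T hT => hσ T (List.mem_cons_of_mem _ hT)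
    have e1 : tr V L (hs ++ [S]) = tr V L hs ++ pass V S L := by simp [tr]
    have e2 : tr V L (S :: σ) = pass V S L ++ tr V L σ := by simp [tr]
    have e3 : hpos a [] z₀ (tr V L (hs ++ [S])) =
        hpos a (tr V L hs) (hpos a [] z₀ (tr V L hs)) (pass V S L) := by
      rw [e1, hpos_append, List.nil_append]
    have hI : Inv V (hpos a [] z₀ (tr V L hs)) := Inv.hpos a _ _ _ hz₀
    have hI' : Inv V (hpos a [] z₀ (tr V L (hs ++ [S]))) := Inv.hpos a _ _ _ hz₀
    simp only [mcost]
    rw [e2, hcost_append, ← e3, ← e1]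
    have key : dist y (chaser V L a z₀ (hs ++ [S])) +
        dist (chaser V L a z₀ (hs ++ [S])) (hpos a [] z₀ (tr V L (hs ++ [S]))).2 ≤
        dist y (hpos a [] z₀ (tr V L hs)).2 +
          hcost a (tr V L hs) (hpos a [] z₀ (tr V L hs)) (pass V S L) := by
      by_cases hg : (hpos a [] z₀ (tr V L (hs ++ [S]))).2 ∈ S
      · rw [chaser_good V L a z₀ hs S hg, dist_self, add_zero]
        refine (dist_triangle _ (hpos a [] z₀ (tr V L hs)).2 _).trans (add_le_add le_rfl ?_)
        rw [e3]
        exact dist_le_hcost a _ _ _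
      · have h2 := pass_cost hδ a L (tr V L hs) _ hI (by rw [← e3]; exact hg)
        have h3 := hΔ _ hy _ (hS.1 hm)
        have h4 := hΔ _ (hS.1 hm) _ hI'.hole
        have h5 : 0 ≤ dist y (hpos a [] z₀ (tr V L hs)).2 := dist_nonneg
        linarith
    linarith

omit [DecidableEq E] in
theorem opt_append_of_mem (W : Fin k → E) (l τ : List E) (hl : ∀ r ∈ l, ∃ i, W i = r) :
    opt W (l ++ τ) ≤ opt W τ := by
  induction l with
  | nil => exact le_rfl
  | cons r l ih =>
    obtain ⟨j, hj⟩ := hl r List.mem_cons_self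
    refine (opt_cons_le W r (l ++ τ) j).trans ?_
    have : Function.update W j r = W := by
      rw [← hj]; exact Function.update_eq_self j W
    rw [this, hj, dist_self, zero_add]
    exact ih fun x hx => hl x (List.mem_cons_of_mem _ hx)

/-- the offline player follows a path of the hole -/
theorem opt_le_off [NeZero k] (V : Finset E) (L : ℕ) (σ : List (Finset E)) :
    ∀ (W : Fin k → E) (x : E) (c : ℝ), (∀ z ∈ V, z = x ∨ ∃ i, W i = z) → (∀ S ∈ σ, S ⊆ V) →
      Off x σ c → opt W (tr V L σ) ≤ c := by
  induction σ with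
  | nil =>
    intro W x c _ _ h
    simp only [tr, List.flatMap_nil, opt_nil]
    exact h
  | cons S σ ih =>
    intro W x c hW hσ h
    obtain ⟨y, hy, h⟩ := h
    have e2 : tr V L (S :: σ) = pass V S L ++ tr V L σ := by simp [tr]
    have hσ' : ∀ T ∈ σ, T ⊆ V := fun T hT => hσ T (List.mem_cons_of_mem _ hT)
    have key : ∀ W' : Fin k → E, (∀ z ∈ V, z = y ∨ ∃ i, W' i = z) →
        opt W' (tr V L (S :: σ)) ≤ c - dist x y := by
      intro W' hW'
      rw [e2]
      refine (opt_append_of_mem W' _ _ fun r hr => ?_).trans (ih W' y _ hW' hσ' h)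
      obtain ⟨h1, h2⟩ := mem_pass L r hr
      rcases hW' r h1 with e | e
      · exact absurd (e ▸ hy) h2
      · exact e
    rcases hW y (hσ S List.mem_cons_self hy) with e | ⟨i, hi⟩
    · have h1 := key W (by rw [e]; exact hW)
      have h2 : 0 ≤ dist x y := dist_nonneg
      linarith
    · have h1 := key (Function.update W i x) (by
        intro z hz
        rcases hW z hz with e | ⟨j, hj⟩
        · exact Or.inr ⟨i, by rw [Function.update_self, e]⟩
        · by_cases hji : j = i
          · left; rw [← hj, hji, hi]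
          · exact Or.inr ⟨j, by rw [Function.update_of_ne hji, hj]⟩)
      have h2 := opt_le_mdist_add W (Function.update W i x) (tr V L (S :: σ))
      have h3 := mdist_update W i x
      rw [hi, dist_comm] at h3
      linarith

omit [DecidableEq E] in
theorem exists_sep (V : Finset E) : ∃ (δ Δ : ℝ) (L : ℕ),
    (∀ x ∈ V, ∀ y ∈ V, x ≠ y → δ ≤ dist x y) ∧ (∀ x ∈ V, ∀ y ∈ V, dist x y ≤ Δ) ∧
      2 * Δ ≤ L * δ := by
  obtain ⟨δ, hδ, h⟩ := exists_delta {x // x ∈ V}
  obtain ⟨Δ, hΔ⟩ := (Set.finite_range fun z : {x // x ∈ V} × {x // x ∈ V} =>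
    dist z.1.1 z.2.1).bddAbove
  obtain ⟨L, hL⟩ := exists_nat_ge (2 * Δ / δ)
  refine ⟨δ, Δ, L, fun x hx y hy hxy => ?_, fun x hx y hy => hΔ ⟨(⟨x, hx⟩, ⟨y, hy⟩), rfl⟩, ?_⟩
  · exact h ⟨x, hx⟩ ⟨y, hy⟩ fun e => hxy (congrArg Subtype.val e)
  · rwa [div_le_iff₀ hδ] at hL

omit [MetricSpace E] in
theorem exists_start (V : Finset E) (s : E) (hs : s ∈ V) (hV : V.card = k + 1) :
    ∃ W : Fin k → E, Inv V (W, s) ∧ ∀ z ∈ V, z = s ∨ ∃ i, W i = z := by
  have h1 : (V.erase s).card = k := by rw [Finset.card_erase_of_mem hs, hV]; rfl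
  let e := (V.erase s).equivFinOfCardEq h1
  refine ⟨fun i => (e.symm i).1, ⟨?_, ?_, ?_, hs⟩, ?_⟩
  · intro i j hij
    exact e.symm.injective (Subtype.ext hij)
  · intro i
    exact Finset.ne_of_mem_erase (e.symm i).2
  · intro i
    exact Finset.mem_of_mem_erase (e.symm i).2
  · intro z hz
    by_cases hzs : z = s
    · exact Or.inl hzs
    · exact Or.inr ⟨e ⟨z, Finset.mem_erase.2 ⟨hzs, hz⟩⟩, by simp⟩

theorem le_of_competitive [NeZero k] {U V : Finset E} {s : E} {a b c : ℝ} (hUV : U ⊆ V)
    (W : Fin k → E) (hI : Inv V (W, s)) (hW : ∀ z ∈ V, z = s ∨ ∃ i, W i = z) (hc : 0 ≤ c)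
    (hH : Hard U s a b) (hC : IsCompetitive W c) : b ≤ c * a := by
  obtain ⟨δ, Δ, L, hδ, hΔ, hL⟩ := exists_sep V
  obtain ⟨Ω, mΩ, P, A, hP, hA, B, hB⟩ := hC
  have key : ∀ m : ℕ, m * b ≤ c * (m * a) + B := by
    intro m
    obtain ⟨ι, hι, p, σ, hp, hσ, hoff, hon⟩ := hH m
    have hσV : ∀ i, ∀ S ∈ σ i, S ⊆ V ∧ S.Nonempty :=
      fun i S hS => ⟨(hσ i S hS).1.trans hUV, (hσ i S hS).2⟩
    have h1 : ∀ ω, m * b ≤ ∑ i, p i * policyCost W (A ω) (tr V L (σ i)) := by
      intro ω
      refine (hon (chaser V L (A ω) (W, s)) (chaser_mem V L (A ω) (W, s))).trans ?_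
      refine Finset.sum_le_sum fun i _ => mul_le_mul_of_nonneg_left ?_ (hp.1 i)
      have h2 := mcost_le hδ hΔ hL (A ω) (W, s) hI (σ i) [] s hI.hole (hσV i)
      have h3 := hcost_le (A ω) (tr V L (σ i)) [] (W, s) W
      have h4 : lab 1 W W = 0 := by simp [lab]
      have h5 : tr V L [] = [] := rfl
      rw [h5] at h2
      simp only [hpos, dist_self, zero_add] at h2
      rw [h4, zero_add] at h3
      rw [policyCost_eq]
      exact h2.trans h3
    have h2 : m * b ≤ ∫ ω, ∑ i, p i * policyCost W (A ω) (tr V L (σ i)) ∂P := by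
      have h3 : ∫ _ω, (m * b : ℝ) ∂P = m * b := by simp
      rw [← h3]
      exact integral_mono (integrable_const _)
        (integrable_finsetSum _ fun i _ => (integrable_policyCost hA W _).const_mul _) h1
    rw [integral_finsetSum _ fun i _ => (integrable_policyCost hA W _).const_mul _] at h2
    refine h2.trans ?_
    have h4 : ∀ i, ∫ ω, p i * policyCost W (A ω) (tr V L (σ i)) ∂P ≤ p i * (c * (m * a) + B) := by
      intro i
      rw [integral_const_mul]
      refine mul_le_mul_of_nonneg_left ((hB _).trans ?_) (hp.1 i)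
      have := opt_le_off V L (σ i) W s _ hW (fun S hS => (hσV i S hS).1) (hoff i)
      have := mul_le_mul_of_nonneg_left this hc
      linarith
    refine (Finset.sum_le_sum fun i _ => h4 i).trans ?_
    rw [← Finset.sum_mul, hp.2, one_mul]
  by_contra hlt
  have hlt' : 0 < b - c * a := by linarith [not_le.1 hlt]
  obtain ⟨m, hm⟩ := exists_nat_gt (B / (b - c * a))
  rw [div_lt_iff₀ hlt'] at hm
  have := key m
  nlinarith

end LB4

open LB4 in
theorem stReduce : StReduce := by
  intro E _ _ _ U s a b k hk hs hU ha hH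
  have : NeZero k := ⟨by omega⟩
  obtain ⟨V, hUV, hV⟩ := Infinite.exists_superset_card_eq U (k + 1) hU
  obtain ⟨W, hI, hW⟩ := exists_start V s (hUV hs) hV
  have h1 : ENNReal.ofReal (b / a) ≤ ratio W := by
    unfold ratio
    refine le_iInf fun c => le_iInf fun hc => ?_
    have := le_of_competitive hUV W hI hW c.2 hH hc
    rw [← ENNReal.ofReal_coe_nnreal]
    exact ENNReal.ofReal_le_ofReal ((div_le_iff₀ ha).2 this)
  refine h1.trans ?_
  unfold R
  have h2 : ((k + 1 : ℕ) : ℕ∞) ≤ ENat.card E := by
    rw [ENat.card_eq_top_of_infinite]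
    exact le_top
  exact le_iSup_of_le E (le_iSup_of_le inferInstance
    (le_iSup_of_le h2 (le_iSup (fun s : Fin k → E => ratio s) W)))

end Vale.Agent.P304Z.LB
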