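import Vale.Agent.P304Z.LB0

/-!
# P304Z, lower bound: iteration and conclusion
-/

open Finset

namespace Vale.Agent.P304Z.LB

open Vale.Agent.P304

theorem LB5.iter (hS : StStep) {n : ℕ} (h : Lvl n 128) (w : ℕ) :
    ∃ x : ℝ, 128 ≤ x ∧ ((w : ℝ) / 500) ^ 2 ≤ x ∧ Lvl (10 ^ w * n) x := by
  induction w with
  | zero => exact ⟨128, le_rfl, by norm_num, by simpa using h⟩
  | succ w ih =>
    obtain ⟨x, h1, h2, h3⟩ := ih
    have hs : 0 ≤ Real.sqrt x := Real.sqrt_nonneg x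
    have hsq : Real.sqrt x ^ 2 = x := Real.sq_sqrt (by linarith)
    have hw : (w : ℝ) / 500 ≤ Real.sqrt x := Real.le_sqrt_of_sq_le h2
    have h11 : 1 ≤ Real.sqrt x := Real.le_sqrt_of_sq_le (by linarith)
    refine ⟨x + Real.sqrt x / 200, by linarith, ?_, ?_⟩
    · have hw0 : (0 : ℝ) ≤ (w : ℝ) / 500 := by positivity
      have h4 : ((w + 1 : ℕ) : ℝ) / 500 ≤ Real.sqrt x + 1 / 500 := by push_cast; linarith
      have h5 : (((w + 1 : ℕ) : ℝ) / 500) ^ 2 ≤ (Real.sqrt x + 1 / 500) ^ 2 :=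
        pow_le_pow_left₀ (by positivity) h4 2
      nlinarith
    · have := hS _ x h1 h3
      rwa [show 10 * (10 ^ w * n) = 10 ^ (w + 1) * n by ring] at this

theorem LB5.of_lvl (hE : StExtract) (hR : StReduce) {n k : ℕ} {x : ℝ} (h : Lvl n x) (hk : 1 ≤ k)
    (hn : n ≤ k + 1) : ENNReal.ofReal (x / 2) ≤ R k := by
  obtain ⟨E, _, _, _, F, T, N, φ, hF, hc, -, hx, hG⟩ := h
  have hD := hF.D_pos
  have h1 := hR E F.U F.s (2 * F.D) T k hk hF.s_mem (hc.trans hn) (by linarith) (hE E F T N φ hF hG)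
  refine le_trans (ENNReal.ofReal_le_ofReal ?_) h1
  rw [div_le_div_iff₀ (by norm_num) (by linarith)]
  nlinarith

theorem LB5.one_le_R {k : ℕ} (hk : 1 ≤ k) : 1 ≤ R k := by
  haveI : NeZero k := ⟨by omega⟩
  refine (one_le_Rfin (k := k)).trans ?_
  unfold Rfin R
  refine iSup_le fun X => iSup_le fun m => iSup_le fun _ => iSup_le fun hX => iSup_le fun s => ?_
  exact le_iSup_of_le X (le_iSup_of_le m (le_iSup_of_le hX (le_iSup (fun s : Fin k → X => ratio s) s)))

theorem lower_of (hB : StBase) (hS : StStep) (hE : StExtract) (hR : StReduce) :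
    ∃ c : ℝ, 0 < c ∧ ∀ k : ℕ, 1 ≤ k → ENNReal.ofReal (c * (1 + Real.log k) ^ 2) ≤ R k := by
  obtain ⟨n, hn, h0⟩ := hB
  have hn1 : (1 : ℝ) ≤ n := by exact_mod_cast hn
  have hlogn : 0 ≤ Real.log n := Real.log_nonneg hn1
  set A : ℝ := 4 + Real.log n with hA
  have hA0 : 0 < A := by linarith
  refine ⟨min (1 / (4 * A ^ 2)) (1 / 18000000), lt_min (by positivity) (by norm_num), fun k hk => ?_⟩
  have hk1 : (1 : ℝ) ≤ k := by exact_mod_cast hk
  have hlog : 0 ≤ Real.log k := Real.log_nonneg hk1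
  by_cases hsmall : 1 + Real.log k ≤ 2 * A
  · refine le_trans ?_ (LB5.one_le_R hk)
    rw [← ENNReal.ofReal_one]
    refine ENNReal.ofReal_le_ofReal ?_
    have h1 : (1 + Real.log k) ^ 2 ≤ (2 * A) ^ 2 := pow_le_pow_left₀ (by linarith) hsmall 2
    have h2 : min (1 / (4 * A ^ 2)) (1 / 18000000) * (1 + Real.log k) ^ 2 ≤
        1 / (4 * A ^ 2) * (2 * A) ^ 2 :=
      mul_le_mul (min_le_left _ _) h1 (by positivity) (by positivity)
    have h3 : 1 / (4 * A ^ 2) * (2 * A) ^ 2 = 1 := by field_simp; norm_num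
    linarith
  · push Not at hsmall
    have hnk : n ≤ k := by
      have h1 : Real.log n < Real.log k := by linarith
      have h2 := (Real.log_lt_log_iff (by linarith) (by linarith)).1 h1
      exact_mod_cast h2.le
    set w := Nat.log 10 (k / n) with hw
    have hq : k / n ≠ 0 := (Nat.div_pos hnk hn).ne'
    have h1 : 10 ^ w ≤ k / n := Nat.pow_log_le_self 10 hq
    have h2 : k / n < 10 ^ (w + 1) := Nat.lt_pow_succ_log_self (by norm_num) _
    have h3 : 10 ^ w * n ≤ k + 1 :=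
      ((Nat.mul_le_mul_right n h1).trans (Nat.div_mul_le_self k n)).trans (Nat.le_succ k)
    have h4 : k < 10 ^ (w + 1) * n := (Nat.div_lt_iff_lt_mul hn).1 h2
    have h5 : (k : ℝ) ≤ 10 ^ (w + 1) * n := by exact_mod_cast h4.le
    have h10 : Real.log 10 ≤ 3 := by
      rw [Real.log_le_iff_le_exp (by norm_num)]
      have := Real.add_one_le_exp (3 / 4 : ℝ)
      have h6 : Real.exp 3 = Real.exp (3 / 4) ^ 4 := by rw [← Real.exp_nat_mul]; norm_num
      have h7 : ((3 / 4 : ℝ) + 1) ^ 4 ≤ Real.exp (3 / 4) ^ 4 := pow_le_pow_left₀ (by norm_num) this 4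
      have h8 := Real.quadratic_le_exp_of_nonneg (show (0 : ℝ) ≤ 3 / 4 by norm_num)
      have h9 : ((1 : ℝ) + 3 / 4 + (3 / 4) ^ 2 / 2) ^ 4 ≤ Real.exp (3 / 4) ^ 4 :=
        pow_le_pow_left₀ (by norm_num) h8 4
      rw [h6]
      refine le_trans ?_ h9
      norm_num
    have h6 : Real.log k ≤ (w + 1) * 3 + Real.log n := by
      have h7 := Real.log_le_log (by linarith) h5
      rw [Real.log_mul (by positivity) (by linarith), Real.log_pow] at h7
      push_cast at h7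
      have h8 : ((w : ℝ) + 1) * Real.log 10 ≤ (w + 1) * 3 :=
        mul_le_mul_of_nonneg_left h10 (by positivity)
      linarith
    have h7 : 1 + Real.log k ≤ 6 * w := by linarith
    obtain ⟨x, -, hx, hL⟩ := LB5.iter hS h0 w
    refine le_trans (ENNReal.ofReal_le_ofReal ?_) (LB5.of_lvl hE hR hL hk h3)
    have h8 : (1 + Real.log k) ^ 2 ≤ (6 * (w : ℝ)) ^ 2 := pow_le_pow_left₀ (by linarith) h7 2
    have h9 : min (1 / (4 * A ^ 2)) (1 / 18000000) * (1 + Real.log k) ^ 2 ≤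
        1 / 18000000 * (6 * (w : ℝ)) ^ 2 :=
      mul_le_mul (min_le_right _ _) h8 (by positivity) (by positivity)
    nlinarith

end Vale.Agent.P304Z.LB
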